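import Vale.Agent.P002.Punct.Seed

/-!
Triangular representatives of a conjugacy class with the eigenvalues on the diagonal.
-/

namespace Vale.Agent.P002

open Matrix Polynomial

variable {r : ℕ}

/-- Representatives with entries `0`, `1` and eigenvalues of the quasi-unipotent classes. -/
lemma exists_class_rep [NeZero r] (C : SLC r) : ∃ z h : SLC r, C = h * z * h⁻¹ ∧
    z.val.BlockTriangular id ∧ (∀ a b, a ≠ b → z.val a b = 0 ∨ z.val a b = 1) ∧
    ∀ a, z.val a a ∈ C.val.charpoly.roots := by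
  obtain ⟨U, J, hC, htri, hoff⟩ := exists_tri_rep C.val
  have hJ : J.det = 1 := by
    have := congrArg Matrix.det hC
    rwa [Matrix.det_units_conj, C.2, eq_comm] at this
  have hU : U.val.det ≠ 0 := ((Matrix.isUnit_iff_isUnit_det _).1 U.isUnit).ne_zero
  obtain ⟨c, hc⟩ := IsAlgClosed.exists_pow_nat_eq U.val.det⁻¹ (Nat.pos_of_neZero r)
  have hdet : (c • U.val).det = 1 := by
    rw [Matrix.det_smul, Fintype.card_fin, hc, inv_mul_cancel₀ hU]
  let h : SLC r := ⟨c • U.val, hdet⟩
  let z : SLC r := ⟨J, hJ⟩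
  refine ⟨z, h, ?_, htri, hoff, fun a => ?_⟩
  · refine eq_mul_inv_of_mul_eq (Subtype.ext ?_)
    show C.val * (c • U.val) = c • U.val * J
    rw [mul_smul_comm, smul_mul_assoc, hC, Matrix.mul_assoc, Units.inv_mul, Matrix.mul_one]
  · rw [hC, show (U⁻¹).val = (U.val)⁻¹ from Matrix.coe_units_inv U, Matrix.charpoly_units_conj,
      Matrix.charpoly_of_isUpperTriangular J htri, roots_prod_fin]
    exact Multiset.mem_map.2 ⟨a, Finset.mem_univ a, rfl⟩

end Vale.Agent.P002
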