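import Vale.Agent.P002.Punct.Basic

/-!
The linearised relation of a punctured surface, its surjectivity, and curves of representations
with prescribed velocity.
-/

namespace Vale.Agent.P002

open Matrix Filter Topology
open scoped ContDiff

variable {r n s : ℕ}

/-- The coordinates of a perturbation belonging to the conjugator of a puncture. -/
def matU (q : PVar n s r → ℂ) (j : Fin s) : Mat r := Matrix.of fun a b => q (.inr (j, a, b))

/-- The coordinates of a perturbation belonging to a handle. -/
def matH (q : PVar n s r → ℂ) : Var n r → ℂ := fun v => q (.inl v)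

/-- Perturbation of a representation: handles on the right, conjugators on the left. -/
noncomputable def parP (σ : PRep n s (SLC r)) (q : PVar n s r → ℂ) : PRep n s (SLC r) :=
  (par σ.1 (matH q), fun j => expM (matU q j) * σ.2 j)

/-- First variation of a conjugated boundary loop. -/
noncomputable def pcD (c : SLC r) (ξ : Mat r) : Mat r := ξ - adj c ξ

/-- First variation of the relation. -/
noncomputable def relDP (z : Fin s → SLC r) (σ : PRep n s (SLC r)) (q : PVar n s r → ℂ) : Mat r :=
  relD σ.1 (matH q) +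
    adj (relator σ.1) (prodD (pc z σ) fun j => pcD (pc z σ j) (tl (matU q j)))

/-- The generators of a representation. -/
def gensP (z : Fin s → SLC r) (σ : PRep n s (SLC r)) : (Fin (n + 1) × Bool) ⊕ Fin s → Mat r :=
  Sum.elim (gens σ.1) fun j => (pc z σ j).val

/-- The generators other than the first handle. -/
def tgensP (z : Fin s → SLC r) (σ : PRep n s (SLC r)) : (Fin n × Bool) ⊕ Fin s → Mat r :=
  Sum.elim (tgens σ.1) fun j => (pc z σ j).val

/-- Maps to representations with smooth entries. -/
abbrev SmoothP {X : Type*} [NormedAddCommGroup X] [NormedSpace ℂ X]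
    (σ : X → PRep n s (SLC r)) : Prop :=
  AllP (fun f : X → SLC r => Smooth fun x => (f x).val) σ

variable {z : Fin s → SLC r}

lemma matU_zero (j : Fin s) : matU (0 : PVar n s r → ℂ) j = 0 := by ext; simp [matU]

lemma matH_zero : matH (0 : PVar n s r → ℂ) = 0 := rfl

lemma matH_smul (c : ℂ) (q : PVar n s r → ℂ) : matH (c • q) = c • matH q := rfl

lemma matU_smul (c : ℂ) (q : PVar n s r → ℂ) (j : Fin s) : matU (c • q) j = c • matU q j := by
  ext; simp [matU]

lemma parP_zero (σ : PRep n s (SLC r)) : parP σ 0 = σ := by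
  simp [parP, matH_zero, matU_zero, par_zero, expM_zero]

section Smooth

variable {X : Type*} [NormedAddCommGroup X] [NormedSpace ℂ X]

lemma SmoothP.coord {σ : X → PRep n s (SLC r)} (h : SmoothP σ) :
    ContDiff ℂ ω fun x => coordP (σ x) := by
  refine contDiff_pi.2 ?_
  rintro (v | ⟨j, a, b⟩)
  · exact contDiff_pi.1 (SmoothH.coord h.1) v
  · exact h.2 j a b

lemma smoothP_const (σ : PRep n s (SLC r)) : SmoothP fun _ : X => σ :=
  ⟨fun _ => ⟨Smooth.const _, Smooth.const _⟩, fun _ => Smooth.const _⟩

lemma smooth_parP {σ : X → PRep n s (SLC r)} {q : X → PVar n s r → ℂ} (hσ : SmoothP σ)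
    (hq : ContDiff ℂ ω q) : SmoothP fun x => parP (σ x) (q x) := by
  refine ⟨smooth_par hσ.1 (contDiff_pi.2 fun v => contDiff_pi.1 hq (.inl v)), fun j => ?_⟩
  exact (Smooth.exp (Smooth.tl fun a b => contDiff_pi.1 hq (.inr (j, a, b)))).mul (hσ.2 j)

lemma smooth_relP {σ : X → PRep n s (SLC r)} (hσ : SmoothP σ) :
    Smooth fun x => (relP z (σ x)).val := by
  have hS := smooth_stable (r := r) (X := X)
  exact hS.mul _ _ (smooth_relator hσ.1)
    (hS.list_prod (fun j x => pc z (σ x) j) fun j => hS.pc (fun _ => Smooth.const _) hσ j)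

end Smooth

lemma hasD_relator' (σ : Handles n (SLC r)) (τ : Var n r → ℂ) :
    HasD (fun s => (relator (par σ (s • τ))).val) (relD σ τ * (relator σ).val) := by
  have hm : ∀ (s : ℂ) v, matOf (s • τ) v = s • matOf τ v := fun s v => by ext; simp [matOf]
  have h := hasD_prod (fun i s => comm (par σ (s • τ)) i)
    (fun i => pairD (σ.1 i) (σ.2 i) (tl (matOf τ (i, false))) (tl (matOf τ (i, true)))) fun i => by
      simp only [comm, zero_smul, par_zero]
      simp only [par, hm]
      exact hasD_comm _ _ _ _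
  simp only [zero_smul, par_zero] at h
  simp only [relator_comm]
  exact h

lemma hasD_conj_curve (c : SLC r) {f : ℂ → SLC r} {ξ : Mat r} (hf : Smooth fun s => (f s).val)
    (hξ : HasD (fun s => (f s).val) ξ) (h0 : f 0 = 1) :
    HasD (fun s => (f s * c * (f s)⁻¹).val) (pcD c ξ * c.val) := by
  simp only [Matrix.SpecialLinearGroup.coe_mul]
  refine ((hξ.mul (hasD_const c.val)).mul (hasD_inv_of_one hf hξ h0)).congr ?_
  simp only [h0, inv_one, Matrix.SpecialLinearGroup.coe_one, mul_zero, add_zero, Matrix.mul_one,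
    Matrix.one_mul, pcD, adj_apply, sub_mul, mul_neg]
  rw [Matrix.mul_assoc (c.val * ξ), val_inv_mul, Matrix.mul_one, ← sub_eq_add_neg]

lemma hasD_relP (σ : PRep n s (SLC r)) (q : PVar n s r → ℂ) :
    HasD (fun t => (relP z (parP σ (t • q))).val) (relDP z σ q * (relP z σ).val) := by
  have hsm : ∀ M : Mat r, Smooth fun t : ℂ => (expM (t • M)).val := fun M =>
    Smooth.exp (Smooth.tl fun i j => by simpa using contDiff_id.mul contDiff_const)
  have hpc : ∀ (j : Fin s) (t : ℂ), pc z (parP σ (t • q)) j =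
      expM (t • matU q j) * pc z σ j * (expM (t • matU q j))⁻¹ := fun j t => by
    simp only [pc, parP, matU_smul]; group
  have h2 := hasD_prod (fun j t => pc z (parP σ (t • q)) j)
    (fun j => pcD (pc z σ j) (tl (matU q j))) fun j => by
      simp only [hpc]
      simp only [zero_smul, expM_zero, one_mul, inv_one, mul_one]
      exact hasD_conj_curve _ (hsm _) (hasD_expM _) (by simp [expM_zero])
  simp only [zero_smul, parP_zero] at h2
  have h1 := hasD_relator' σ.1 (matH q)
  have e : (fun t : ℂ => (relP z (parP σ (t • q))).val) =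
      fun t => (relator (par σ.1 (t • matH q))).val *
        ((List.ofFn fun j => pc z (parP σ (t • q)) j).prod).val :=
    funext fun t => rfl
  rw [e]
  refine (h1.mul h2).congr ?_
  simp only [zero_smul, par_zero, parP_zero, relDP, relP, pprod,
    Matrix.SpecialLinearGroup.coe_mul, add_mul, adj_apply, Matrix.mul_assoc]
  rw [← Matrix.mul_assoc (relator σ.1)⁻¹.val (relator σ.1).val, val_inv_mul, Matrix.one_mul]

lemma hasD_relP_one {σ : PRep n s (SLC r)} (hσ : relP z σ = 1) (q : PVar n s r → ℂ) :
    HasD (fun t => (relP z (parP σ (t • q))).val) (relDP z σ q) :=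
  (hasD_relP σ q).congr (by rw [hσ, Matrix.SpecialLinearGroup.coe_one, Matrix.mul_one])

/-- Annihilators of the variations of a product of conjugated loops commute with the loops. -/
lemma commute_of_prodD_pcD [NeZero r] : ∀ {k : ℕ} (c : Fin k → SLC r) {Y : Mat r},
    (∀ ξ : Fin k → Mat r, (∀ j, (ξ j).trace = 0) →
      (Y * prodD c fun j => pcD (c j) (ξ j)).trace = 0) → ∀ j, Commute (c j).val Y
  | 0, _, _, _ => fun j => j.elim0
  | k + 1, c, Y, h => by
    have hp : ∀ g : SLC r, pcD g (0 : Mat r) = 0 := fun g => by simp [pcD]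
    have hz : ∀ C : Fin k → SLC r, prodD C 0 = 0 := fun C => by
      simpa using prodD_smul C (0 : ℂ) 0
    have h0 : Commute (c 0).val Y := by
      refine adj_fix (eq_of_trace_pair (trace_conj_eq _ _) fun ξ hξ => ?_)
      have := h (Fin.cons ξ fun _ => 0) (Fin.cases (by simpa) fun _ => by simp)
      simp only [prodD, Fin.cons_zero, Fin.cons_succ, hp] at this
      rw [show (fun _ : Fin k => (0 : Mat r)) = 0 from rfl, hz, map_zero, add_zero, pcD, mul_sub,
        Matrix.trace_sub, trace_adj, sub_eq_zero] at this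
      exact this.symm
    refine Fin.cases h0 (commute_of_prodD_pcD (fun j => c j.succ) fun ξ hξ => ?_)
    have := h (Fin.cons 0 ξ) (Fin.cases (by simp) (by simpa using hξ))
    simp only [prodD, Fin.cons_zero, Fin.cons_succ, hp, zero_add, trace_adj,
      fix_of_commute h0] at this
    exact this

lemma commute_relator {σ : Handles n (SLC r)} {Y : Mat r} (h : ∀ v, Commute (gens σ v) Y) :
    Commute (relator σ).val Y := by
  rw [relator_comm]
  exact commute_list_prod _ fun i => commute_comm (h (i, false)) (h (i, true))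

/-- An annihilator of the linearised relation. -/
lemma commute_of_relDP [NeZero r] (σ : PRep n s (SLC r)) {Y : Mat r}
    (h : ∀ q, (Y * relDP z σ q).trace = 0) : ∀ v, Commute (gensP z σ v) Y := by
  have hz : prodD (pc z σ) 0 = 0 := by simpa using prodD_smul (pc z σ) (0 : ℂ) 0
  have hH : ∀ v, Commute (gens σ.1 v) Y := commute_of_relD σ.1 fun τ => by
    have := h (Sum.elim τ 0)
    have e : (fun j => pcD (pc z σ j) (tl (matU (Sum.elim τ 0 : PVar n s r → ℂ) j))) = 0 :=
      funext fun j => by
        rw [show matU (Sum.elim τ 0 : PVar n s r → ℂ) j = 0 from rfl]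
        simp [tl, pcD]
    rw [relDP, e, hz, map_zero, add_zero] at this
    exact this
  have hU : ∀ j, Commute (pc z σ j).val Y := commute_of_prodD_pcD (pc z σ) fun ξ hξ => by
    have := h (Sum.elim 0 fun v => ξ v.1 v.2.1 v.2.2)
    have e : ∀ j, matU (Sum.elim 0 fun v => ξ v.1 v.2.1 v.2.2 : PVar n s r → ℂ) j = ξ j :=
      fun j => rfl
    have e0 : relD σ.1 (0 : Var n r → ℂ) = 0 := by
      simp [relD, matOf_zero, tl, pairD]
      rw [show (fun _ : Fin (n + 1) => (0 : Mat r)) = 0 from rfl]
      simpa using prodD_smul (comm σ.1) (0 : ℂ) 0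
    simp only [relDP, e, tl_of_trace (hξ _)] at this
    rw [show matH (Sum.elim 0 fun v => ξ v.1 v.2.1 v.2.2 : PVar n s r → ℂ) = 0 from rfl, e0,
      zero_add, trace_adj, fix_of_commute (commute_relator hH)] at this
    exact this
  rintro (v | j)
  exacts [hH v, hU j]

/-- An annihilator of the linearised relation away from the first handle. -/
lemma commute_of_relDP_tail [NeZero r] (σ : PRep n s (SLC r)) {Y : Mat r}
    (h : ∀ q, (∀ b p, q (.inl ((0, b), p)) = 0) → (Y * relDP z σ q).trace = 0) :
    ∀ v, Commute (tgensP z σ v) ((comm σ.1 0)⁻¹.val * Y * (comm σ.1 0).val) := by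
  have hz : prodD (pc z σ) 0 = 0 := by simpa using prodD_smul (pc z σ) (0 : ℂ) 0
  set Y' := (comm σ.1 0)⁻¹.val * Y * (comm σ.1 0).val
  have hH : ∀ v, Commute (tgens σ.1 v) Y' := commute_of_relD_tail σ.1 fun τ hτ => by
    have := h (Sum.elim τ 0) hτ
    have e : (fun j => pcD (pc z σ j) (tl (matU (Sum.elim τ 0 : PVar n s r → ℂ) j))) = 0 :=
      funext fun j => by
        rw [show matU (Sum.elim τ 0 : PVar n s r → ℂ) j = 0 from rfl]
        simp [tl, pcD]
    rw [relDP, e, hz, map_zero, add_zero] at this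
    exact this
  have hC : (relator σ.1)⁻¹.val * Y * (relator σ.1).val = Y' := by
    have hW : Commute ((List.ofFn fun i : Fin n => comm σ.1 i.succ).prod).val Y' :=
      commute_list_prod _ fun i => commute_comm (hH (i, false)) (hH (i, true))
    rw [relator_comm, List.ofFn_succ, List.prod_cons, conj_conj]
    exact fix_of_commute hW
  have hU : ∀ j, Commute (pc z σ j).val Y' := commute_of_prodD_pcD (pc z σ) fun ξ hξ => by
    have := h (Sum.elim 0 fun v => ξ v.1 v.2.1 v.2.2) fun b p => rfl
    have e : ∀ j, matU (Sum.elim 0 fun v => ξ v.1 v.2.1 v.2.2 : PVar n s r → ℂ) j = ξ j :=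
      fun j => rfl
    have e0 : relD σ.1 (0 : Var n r → ℂ) = 0 := by
      simp [relD, matOf_zero, tl, pairD]
      rw [show (fun _ : Fin (n + 1) => (0 : Mat r)) = 0 from rfl]
      simpa using prodD_smul (comm σ.1) (0 : ℂ) 0
    simp only [relDP, e, tl_of_trace (hξ _)] at this
    rw [show matH (Sum.elim 0 fun v => ξ v.1 v.2.1 v.2.2 : PVar n s r → ℂ) = 0 from rfl, e0,
      zero_add, trace_adj, hC] at this
    exact this
  rintro (v | j)
  exacts [hH v, hU j]

/-- A special linear matrix agreeing with `1` away from one entry is `1`. -/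
lemma eq_one_of_idx [NeZero r] {g : SLC r}
    (h : ∀ p : Idx r, g.val p.1.1 p.1.2 = (1 : Mat r) p.1.1 p.1.2) : g = 1 := by
  have h' : ∀ p, p ≠ ((0 : Fin r), (0 : Fin r)) → g.val p.1 p.2 = (1 : Mat r) p.1 p.2 :=
    fun p hp => h ⟨p, hp⟩
  have hd : g.val = Matrix.diagonal (fun i => g.val i i) := by
    ext i j
    by_cases hij : i = j
    · simp [hij]
    · simp [hij, h' (i, j) fun e => hij ((congrArg Prod.fst e).trans (congrArg Prod.snd e).symm)]
  have hdet := congrArg Matrix.det hd
  rw [Matrix.SpecialLinearGroup.det_coe, Matrix.det_diagonal,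
    Finset.prod_eq_single 0 (fun i _ hi => by
      rw [h' (i, i) fun e => hi (congrArg Prod.fst e)]; simp) (by simp)] at hdet
  refine Subtype.ext (Matrix.ext fun i j => ?_)
  by_cases h0 : (i, j) = (0, 0)
  · obtain ⟨rfl, rfl⟩ := Prod.mk.injEq .. ▸ h0
    simp [← hdet]
  · simpa using h' (i, j) h0

/-- The relation in coordinates. -/
noncomputable def relMapP [NeZero r] (z : Fin s → SLC r) (σ : PRep n s (SLC r))
    (q : PVar n s r → ℂ) : Idx r → ℂ :=
  fun p => (relP z (parP σ q)).val p.1.1 p.1.2

lemma hasStrict_relMapP [NeZero r] (σ : PRep n s (SLC r)) :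
    HasStrictFDerivAt (relMapP z σ) (fderiv ℂ (relMapP z σ) 0) 0 :=
  (contDiff_pi.2 fun p : Idx r =>
    smooth_relP (smooth_parP (smoothP_const σ) contDiff_id) p.1.1 p.1.2).contDiffAt.hasStrictFDerivAt
      (by simp)

lemma fderiv_relMapP [NeZero r] {σ : PRep n s (SLC r)} (hσ : relP z σ = 1) (q : PVar n s r → ℂ) :
    fderiv ℂ (relMapP z σ) 0 q = fun p => relDP z σ q p.1.1 p.1.2 := by
  have h1 : HasDerivAt (fun t : ℂ => relMapP z σ (t • q)) (fderiv ℂ (relMapP z σ) 0 q) 0 :=
    (hasStrict_relMapP σ).hasFDerivAt.comp_hasDerivAt_of_eq 0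
      (by simpa using (hasDerivAt_id (0 : ℂ)).smul_const q) (zero_smul ℂ q).symm
  funext p
  exact (hasDerivAt_pi.1 h1 p).unique (hasD_relP_one hσ q p.1.1 p.1.2)

/-- Surjectivity of the linearised relation. -/
lemma range_relMapP [NeZero r] {σ : PRep n s (SLC r)} (hσ : relP z σ = 1)
    (hT : Triv (gensP z σ)) :
    (fderiv ℂ (relMapP z σ) 0 : (PVar n s r → ℂ) →ₗ[ℂ] (Idx r → ℂ)).range = ⊤ := by
  by_contra hne
  obtain ⟨x, hx⟩ := SetLike.exists_not_mem_of_ne_top _ hne
  obtain ⟨φ, hφx, hφ⟩ := Submodule.exists_dual_map_eq_bot_of_notMem hx inferInstance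
  obtain ⟨Y, hY0, hY⟩ := exists_trace_rep φ
  obtain ⟨c, rfl⟩ := hT Y (commute_of_relDP σ fun q => by
    rw [← hY, ← fderiv_relMapP hσ q]
    have h := Submodule.mem_map_of_mem (f := φ) (LinearMap.mem_range_self
      (fderiv ℂ (relMapP z σ) 0 : (PVar n s r → ℂ) →ₗ[ℂ] (Idx r → ℂ)) q)
    rw [hφ] at h
    simpa using h)
  have hc : c = 0 := by simpa using hY0
  refine hφx ?_
  have e : x = fun p : Idx r => (Matrix.of fun a b => if h : (a, b) ≠ (0, 0) then x ⟨(a, b), h⟩
      else 0 : Mat r) p.1.1 p.1.2 := funext fun p => by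
    rw [Matrix.of_apply, dif_pos p.2]
  rw [e, hY, hc, zero_smul, Matrix.zero_mul, Matrix.trace_zero]

/-- Curves of representations with prescribed velocity. -/
lemma exists_curveP [NeZero r] {σ : PRep n s (SLC r)} (hσ : relP z σ = 1)
    (hT : Triv (gensP z σ)) {q : PVar n s r → ℂ} (hq : relDP z σ q = 0) :
    ∃ γ : ℂ → PRep n s (SLC r), γ 0 = σ ∧ (∀ᶠ t in 𝓝 0, relP z (γ t) = 1) ∧
      (∀ v, HasD (fun t => gens (γ t).1 v) (gens σ.1 v * tl (matOf (matH q) v))) ∧
      ∀ j, HasD (fun t => (pc z (γ t) j).val) (pcD (pc z σ j) (tl (matU q j)) * (pc z σ j).val) := by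
  have hf := hasStrict_relMapP (z := z) σ
  have hr := range_relMapP hσ hT
  let κ := (fderiv ℂ (relMapP z σ) 0 : (PVar n s r → ℂ) →ₗ[ℂ] (Idx r → ℂ)).ker
  have hqk : q ∈ κ := by
    rw [LinearMap.mem_ker]
    change fderiv ℂ (relMapP z σ) 0 q = 0
    rw [fderiv_relMapP hσ q, hq]
    rfl
  let c : ℂ → PVar n s r → ℂ := fun t =>
    hf.implicitFunction _ _ hr (relMapP z σ 0) (t • (⟨q, hqk⟩ : κ))
  have hline : HasDerivAt (fun t : ℂ => t • (⟨q, hqk⟩ : κ)) (⟨q, hqk⟩ : κ) 0 := by
    simpa using (hasDerivAt_id (0 : ℂ)).smul_const (⟨q, hqk⟩ : κ)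
  have hc : HasDerivAt c q 0 :=
    (hf.to_implicitFunction hr).hasFDerivAt.comp_hasDerivAt_of_eq 0 hline (zero_smul ℂ _).symm
  have hc0 : c 0 = 0 := by
    simp only [c, zero_smul]
    exact hf.implicitFunction_apply_image hr
  -- a matrix-valued function of the parameter has the derivative of its restriction to the line
  have hgen : ∀ (F : (PVar n s r → ℂ) → Mat r), Smooth F → ∀ v, HasD (fun t => F (t • q)) v →
      HasD (fun t => F (c t)) v := fun F hF v hv a b => by
    have hd := ((hF a b).differentiable (by simp) 0).hasFDerivAt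
    have h1 := hd.comp_hasDerivAt_of_eq 0 hc hc0.symm
    have h2 := hd.comp_hasDerivAt_of_eq 0
      (by simpa using (hasDerivAt_id (0 : ℂ)).smul_const q) (zero_smul ℂ q).symm
    rw [← h2.unique (hv a b)]
    exact h1
  have hsp := smooth_parP (smoothP_const (X := PVar n s r → ℂ) σ) contDiff_id
  refine ⟨fun t => parP σ (c t), by simp only [hc0, parP_zero], ?_, fun v => ?_, fun j => ?_⟩
  · have hev := hf.map_implicitFunction_eq hr
    have hcont : Tendsto (fun t : ℂ => (relMapP z σ 0, t • (⟨q, hqk⟩ : κ))) (𝓝 0)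
        (𝓝 (relMapP z σ 0, 0)) :=
      tendsto_const_nhds.prodMk_nhds (by simpa using hline.continuousAt.tendsto)
    filter_upwards [hcont.eventually hev] with t ht
    refine eq_one_of_idx fun p => ?_
    have := congrFun ht p
    simpa [relMapP, parP_zero, hσ, c] using this
  · refine hgen (fun w => gens (parP σ w).1 v) ?_ _ ?_
    · obtain ⟨i, b⟩ := v
      cases b <;> simp only [gens, Bool.false_eq_true, if_true, if_false]
      exacts [(hsp.1 i).1, (hsp.1 i).2]
    · obtain ⟨i, b⟩ := v
      have hm : ∀ (t : ℂ) w, matOf (t • matH q) w = t • matOf (matH q) w := fun t w => by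
        ext; simp [matOf]
      cases b <;>
        · simp only [gens, parP, matH_smul, par, hm, Matrix.SpecialLinearGroup.coe_mul, if_true,
            if_false, Bool.false_eq_true]
          exact ((hasD_const _).mul (hasD_expM _)).congr (by simp)
  · have hS := smooth_stable (r := r) (X := PVar n s r → ℂ)
    refine hgen (fun w => (pc z (parP σ w) j).val)
      (hS.pc (fun _ => Smooth.const _) hsp j) _ ?_
    have hpc : ∀ t : ℂ, pc z (parP σ (t • q)) j =
        expM (t • matU q j) * pc z σ j * (expM (t • matU q j))⁻¹ := fun t => by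
      simp only [pc, parP, matU_smul]; group
    simp only [hpc]
    exact hasD_conj_curve _ (Smooth.exp (Smooth.tl fun a b => by
      simpa using contDiff_id.mul contDiff_const)) (hasD_expM _) (by simp [expM_zero])

end Vale.Agent.P002
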