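import Vale.Agent.P002.Global
import Vale.Agent.P002.Punct.Tangent

/-!
Perturbations of punctured-surface representations with prescribed first handle, and analytic
continuation over the rational parametrisation of those in general position.
-/

namespace Vale.Agent.P002

open Matrix Filter Topology
open scoped ContDiff commutatorElement

variable {r n s : ℕ} {z : Fin s → SLC r}

/-- Replace the first handle of a perturbation. -/
noncomputable def mixP (σ : PRep n s (SLC r)) (P : SLC r × SLC r) (q : PVar n s r → ℂ) :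
    PRep n s (SLC r) :=
  (mixH σ.1 P (matH q), (parP σ q).2)

lemma mixP_par {σ : PRep n s (SLC r)} {q : PVar n s r → ℂ}
    (hq : ∀ b p, q (.inl ((0, b), p)) = 0) : mixP σ (σ.1.1 0, σ.1.2 0) q = parP σ q := by
  rw [mixP, mixH_par (τ := matH q) hq]
  rfl

/-- The relation in coordinates. -/
noncomputable def relPF [NeZero r] (z : Fin s → SLC r) (σ : PRep n s (SLC r)) : Idx r → ℂ :=
  fun p => (relP z σ).val p.1.1 p.1.2

lemma range_eq_top_of_tailP [NeZero r] {σ : PRep n s (SLC r)} (hT : Triv (tgensP z σ))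
    (L : (ℂ × (PVar n s r → ℂ)) →L[ℂ] ℂ × (Idx r → ℂ)) (hL1 : ∀ v, (L v).1 = v.1)
    (hL2 : ∀ τ, (∀ b p, τ (.inl ((0, b), p)) = 0) →
      (L (0, τ)).2 = fun p => relDP z σ τ p.1.1 p.1.2) :
    (L : (ℂ × (PVar n s r → ℂ)) →ₗ[ℂ] ℂ × (Idx r → ℂ)).range = ⊤ := by
  by_contra hne
  obtain ⟨x, hx⟩ := SetLike.exists_not_mem_of_ne_top _ hne
  obtain ⟨φ, hφx, hφ⟩ := Submodule.exists_dual_map_eq_bot_of_notMem hx inferInstance
  have hφ0 : ∀ v, φ (L v) = 0 := fun v => by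
    have h := Submodule.mem_map_of_mem (f := φ) (LinearMap.mem_range_self
      (L : (ℂ × (PVar n s r → ℂ)) →ₗ[ℂ] ℂ × (Idx r → ℂ)) v)
    rw [hφ] at h
    simpa using h
  obtain ⟨Y, hY0, hY⟩ := exists_trace_rep (φ ∘ₗ LinearMap.inr ℂ ℂ (Idx r → ℂ))
  have hann : ∀ τ, (∀ b p, τ (.inl ((0, b), p)) = 0) → (Y * relDP z σ τ).trace = 0 :=
      fun τ hτ => by
    rw [← hY, ← hL2 τ hτ, LinearMap.comp_apply, LinearMap.inr_apply]
    have e : ((0 : ℂ), (L (0, τ)).2) = L (0, τ) := Prod.ext (hL1 (0, τ)).symm rfl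
    rw [e]
    exact hφ0 _
  obtain ⟨c, hc⟩ := hT _ (commute_of_relDP_tail σ hann)
  have hYc : Y = c • 1 := by
    have := congrArg (fun Z => (comm σ.1 0).val * Z * (comm σ.1 0)⁻¹.val) hc
    simp only [← Matrix.mul_assoc, val_mul_inv, Matrix.one_mul] at this
    simp only [Matrix.mul_assoc, val_mul_inv, Matrix.mul_one, mul_smul_comm, smul_mul_assoc] at this
    exact this
  have hc0 : c = 0 := by simpa [hYc] using hY0
  have hinr : ∀ y : Idx r → ℂ, φ ((0 : ℂ), y) = 0 := fun y => by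
    have e : y = fun p : Idx r => (Matrix.of fun a b => if h : (a, b) ≠ (0, 0) then y ⟨(a, b), h⟩
        else 0 : Mat r) p.1.1 p.1.2 := funext fun p => by rw [Matrix.of_apply, dif_pos p.2]
    have h := hY (Matrix.of fun a b => if h : (a, b) ≠ (0, 0) then y ⟨(a, b), h⟩ else 0 : Mat r)
    rw [← e, hYc, hc0, zero_smul, Matrix.zero_mul, Matrix.trace_zero] at h
    exact h
  have h1 : φ ((1 : ℂ), 0) = 0 := by
    have h := hφ0 (1, 0)
    rw [show L (1, 0) = ((1 : ℂ), (0 : Idx r → ℂ)) + ((0 : ℂ), (L (1, 0)).2) from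
      Prod.ext (by simpa using hL1 (1, 0)) (by simp), map_add, hinr, add_zero] at h
    exact h
  refine hφx ?_
  rw [show x = x.1 • ((1 : ℂ), (0 : Idx r → ℂ)) + (0, x.2) from Prod.ext (by simp) (by simp),
    map_add, map_smul, h1, hinr, smul_zero, add_zero]

lemma lift_of_surjP [NeZero r] {σ : PRep n s (SLC r)} (hσ : relP z σ = 1)
    (mx : ℂ × (PVar n s r → ℂ) → PRep n s (SLC r)) (hmx : SmoothP mx) (h0 : mx 0 = σ)
    (hsurj : (fderiv ℂ (fun q => (q.1, relPF z (mx q))) 0 :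
      (ℂ × (PVar n s r → ℂ)) →ₗ[ℂ] ℂ × (Idx r → ℂ)).range = ⊤) {ε : ℝ} (hε : 0 < ε) :
    ∀ᶠ t in 𝓝 0, ∃ q, q.1 = t ∧ relP z (mx q) = 1 ∧ dist (coordP (mx q)) (coordP σ) < ε := by
  have hΨc : ContDiff ℂ ω fun q => (q.1, relPF z (mx q)) := contDiff_fst.prodMk
    (contDiff_pi.2 fun p => smooth_relP hmx p.1.1 p.1.2)
  have hΨ := hΨc.contDiffAt.hasStrictFDerivAt (x := (0 : ℂ × (PVar n s r → ℂ))) (by simp)
  have hU : ∀ᶠ q in 𝓝 (0 : ℂ × (PVar n s r → ℂ)), dist (coordP (mx q)) (coordP σ) < ε := by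
    refine ((SmoothP.coord hmx).continuous.dist
      continuous_const).continuousAt.eventually_lt_const ?_
    simpa [h0] using hε
  have himg := Filter.image_mem_map (m := fun q => (q.1, relPF z (mx q))) hU
  rw [hΨ.map_nhds_eq_of_surj hsurj] at himg
  have hcur : Tendsto (fun t : ℂ => (t, fun p : Idx r => (1 : Mat r) p.1.1 p.1.2)) (𝓝 0)
      (𝓝 ((0 : ℂ × (PVar n s r → ℂ)).1, relPF z (mx 0))) := by
    have e : relPF z (mx 0) = fun p : Idx r => (1 : Mat r) p.1.1 p.1.2 := by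
      funext p
      simp [relPF, h0, hσ]
    rw [e]
    exact tendsto_id.prodMk_nhds tendsto_const_nhds
  filter_upwards [hcur.eventually_mem himg] with t hs
  obtain ⟨q, hq, hqs⟩ := hs
  exact ⟨q, congrArg Prod.fst hqs, eq_one_of_idx (congrFun (congrArg Prod.snd hqs)), hq⟩

/-- Nearby first handles extend to nearby representations. -/
lemma lift_pairP [NeZero r] {σ : PRep n s (SLC r)} (hσ : relP z σ = 1) (hT : Triv (tgensP z σ))
    (P : ℂ → SLC r × SLC r) (hP1 : Smooth fun t => (P t).1.val)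
    (hP2 : Smooth fun t => (P t).2.val) (hP0 : P 0 = (σ.1.1 0, σ.1.2 0)) {ε : ℝ} (hε : 0 < ε) :
    ∀ᶠ t in 𝓝 0, ∃ σ' : PRep n s (SLC r), relP z σ' = 1 ∧ σ'.1.1 0 = (P t).1 ∧
      σ'.1.2 0 = (P t).2 ∧ dist (coordP σ') (coordP σ) < ε := by
  let mx : ℂ × (PVar n s r → ℂ) → PRep n s (SLC r) := fun q => mixP σ (P q.1) q.2
  have hp := smooth_parP (smoothP_const (X := ℂ × (PVar n s r → ℂ)) σ)
    (contDiff_snd (E := ℂ) (F := PVar n s r → ℂ) (n := ω))
  have hmx : SmoothP mx := by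
    refine ⟨fun i => ?_, hp.2⟩
    by_cases hi : i = 0
    · subst hi
      simp only [mx, mixP, mixH, Function.update_self]
      exact ⟨fun a b => (hP1 a b).comp contDiff_fst, fun a b => (hP2 a b).comp contDiff_fst⟩
    · simp only [mx, mixP, mixH, Function.update_of_ne hi]
      exact hp.1 i
  let Ψ : ℂ × (PVar n s r → ℂ) → ℂ × (Idx r → ℂ) := fun q => (q.1, relPF z (mx q))
  have hΨc : ContDiff ℂ ω Ψ := contDiff_fst.prodMk
    (contDiff_pi.2 fun p => smooth_relP hmx p.1.1 p.1.2)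
  have hΨ := hΨc.contDiffAt.hasStrictFDerivAt (x := (0 : ℂ × (PVar n s r → ℂ))) (by simp)
  set L := fderiv ℂ Ψ 0 with hL
  have hline : ∀ v, HasDerivAt (fun t : ℂ => Ψ (t • v)) (L v) 0 := fun v =>
    hΨ.hasFDerivAt.comp_hasDerivAt_of_eq 0
      (by simpa using (hasDerivAt_id (0 : ℂ)).smul_const v) (zero_smul ℂ v).symm
  have hL1 : ∀ v, (L v).1 = v.1 := fun v => by
    have h1 := (ContinuousLinearMap.fst ℂ ℂ (Idx r → ℂ)).hasFDerivAt.comp_hasDerivAt 0 (hline v)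
    have h2 : HasDerivAt (fun t : ℂ => (t • v).1) v.1 0 := by
      simpa using (hasDerivAt_id (0 : ℂ)).smul_const v.1
    exact h1.unique h2
  have hL2 : ∀ τ, (∀ b p, τ (.inl ((0, b), p)) = 0) →
      (L (0, τ)).2 = fun p => relDP z σ τ p.1.1 p.1.2 := by
    intro τ hτ
    funext p
    have h1 := (ContinuousLinearMap.snd ℂ ℂ (Idx r → ℂ)).hasFDerivAt.comp_hasDerivAt 0
      (hline (0, τ))
    refine (hasDerivAt_pi.1 h1 p).unique ?_
    have e : (fun t : ℂ => (Ψ (t • ((0 : ℂ), τ))).2 p) =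
        fun t : ℂ => (relP z (parP σ (t • τ))).val p.1.1 p.1.2 := funext fun t => by
      simp only [Ψ, mx, relPF, Prod.smul_mk, smul_zero, hP0]
      rw [mixP_par fun b q => by simp [hτ b q]]
    exact (hasD_relP_one hσ τ p.1.1 p.1.2).congr_of_eventuallyEq (Eventually.of_forall (congrFun e))
  have h0 : mx 0 = σ := by
    simp only [mx, Prod.fst_zero, Prod.snd_zero, hP0]
    rw [mixP_par fun b q => rfl, parP_zero]
  refine (lift_of_surjP hσ mx hmx h0 (range_eq_top_of_tailP hT L hL1 hL2) hε).mono fun t hs => ?_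
  obtain ⟨q, hq1, hq, hd⟩ := hs
  refine ⟨mx q, hq, ?_, ?_, hd⟩
  · simp only [mx, mixP, mixH, hq1, Function.update_self]
  · simp only [mx, mixP, mixH, hq1, Function.update_self]

/-- Representations in general position are dense near those with scalar centraliser of the last
handles. -/
lemma exists_near_goodP [NeZero r] (hr : 2 ≤ r) {σ : PRep n s (SLC r)} (hσ : relP z σ = 1)
    (hT : Triv (tgensP z σ)) {ε : ℝ} (hε : 0 < ε) :
    ∃ σ' : PRep n s (SLC r), relP z σ' = 1 ∧ dist (coordP σ') (coordP σ) < ε ∧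
      GoodPair (σ'.1.1 0) (σ'.1.2 0) := by
  obtain ⟨m, rfl⟩ : ∃ m, r = m + 1 := ⟨r - 1, by omega⟩
  set W : SLC (m + 1) := ⟨Matrix.diagonal (witS m), det_witS m⟩ with hW
  have hM := det_eqMat_witness m
  set p := solP (1 : Mat (m + 1)) W.val
  obtain ⟨hdet, hint⟩ := handle_spec (h := (1 : Mat (m + 1))) (W := W.val) (by simp) W.2 hM
    (Pi.single 0 1)
  have hWi : (W.val)⁻¹ = Matrix.diagonal fun i => (witS m i)⁻¹ := by
    refine Matrix.inv_eq_right_inv ?_
    rw [hW, Matrix.diagonal_mul_diagonal, ← Matrix.diagonal_one]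
    congr 1
    funext i
    refine mul_inv_cancel₀ ?_
    simp only [witS]; split_ifs <;> simp
  set x : SLC (m + 1) := ⟨comp' p, by simpa using hdet⟩ with hx
  set B := handB (1 : Mat (m + 1)) W.val (Pi.single 0 1) with hB
  have hB0 : B.det ≠ 0 := by
    rw [hB, handB, inv_one, Matrix.mul_one, Matrix.one_mul, Matrix.mul_one, hWi]
    exact det_kry_witness m _
  obtain ⟨c, hc⟩ := IsAlgClosed.exists_pow_nat_eq B.det⁻¹ (Nat.succ_pos m)
  let b : SLC (m + 1) := ⟨c • B, by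
    rw [Matrix.det_smul, Fintype.card_fin, hc, inv_mul_cancel₀ hB0]⟩
  have hWab : (x⁻¹ * b * x⁻¹⁻¹ * b⁻¹)⁻¹ = W := by
    have e : b * x = x * W⁻¹ * b := by
      refine Subtype.ext ?_
      have e2 : (W⁻¹ : SLC (m + 1)).val = (W.val)⁻¹ := by
        symm
        exact Matrix.inv_eq_left_inv (val_inv_mul W)
      simp only [Matrix.SpecialLinearGroup.coe_mul, e2]
      have := hint
      rw [inv_one, Matrix.mul_one, Matrix.one_mul] at this
      show c • B * comp' p = comp' p * (W.val)⁻¹ * (c • B)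
      rw [smul_mul_assoc, mul_smul_comm, this]
    rw [inv_inv, show x⁻¹ * b * x * b⁻¹ = x⁻¹ * (b * x) * b⁻¹ by group, e]
    group
  obtain ⟨G, hG⟩ := exists_good (r := m + 1) (by omega) fun _ : Unit => (1 : SLC (m + 1))
  obtain ⟨fa, hfa, hfa0, hfa1, hfa2⟩ := exists_path₃ hr (σ.1.1 0) x⁻¹ G
  obtain ⟨fb, hfb, hfb0, hfb1⟩ := exists_path hr (σ.1.2 0) b
  have hfW : Smooth fun t => (fa t * fb t * (fa t)⁻¹ * (fb t)⁻¹)⁻¹.val :=
    (((hfa.mul hfb).mul hfa.adjugate).mul hfb.adjugate).adjugate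
  have hfx : Smooth fun t => (fa t)⁻¹.val := hfa.adjugate
  let e₀ : Fin (m + 1) → ℂ := Pi.single 0 1
  have hk : Smooth fun t => kry ((fa t)⁻¹.val) e₀ := smooth_kry hfx fun i => contDiff_const
  let κ := Option (Option {q : (Fin (m + 1) → ℕ) × (Fin (m + 1) → ℕ) // ¬ ConstDiff q.1 q.2})
  let F : κ → ℂ → ℂ := fun o => match o with
    | none => fun t => (kry ((fa t)⁻¹.val) e₀).det
    | some none => fun t => (eqMat (kry ((fa t)⁻¹.val) e₀)
        (fa t * fb t * (fa t)⁻¹ * (fb t)⁻¹)⁻¹.val).det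
    | some (some q) => fun t =>
      MvPolynomial.eval (fun v => (fa t).val v.1 v.2) (entryPoly q.1.1 q.1.2)
  have hF : ∀ k, Differentiable ℂ (F k) := fun k => match k with
    | none => hk.det.differentiable (by simp)
    | some none => (smooth_eqMat hk hfW).det.differentiable (by simp)
    | some (some q) => (contDiff_eval (f := fun t (v : Fin (m + 1) × Fin (m + 1)) =>
        (fa t).val v.1 v.2) (fun v => hfa v.1 v.2) _).differentiable (by simp)
  have hk1 : kry ((fa 1)⁻¹.val) e₀ = 1 := by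
    have h := eq_kry (x := x.val) (h := (1 : Mat (m + 1))) (p := p) (Nat.succ_pos m)
      (by simp [hx])
    rw [hfa1, inv_inv]
    rw [Matrix.one_mulVec] at h
    exact h.symm
  have hne : ∀ k, ∃ z, F k z ≠ 0 := fun k => match k with
    | none => ⟨1, by simp only [F, hk1, Matrix.det_one]; exact one_ne_zero⟩
    | some none => ⟨1, by
        simp only [F, hk1]
        rw [hfa1, hfb1, hWab]
        exact hM⟩
    | some (some q) => ⟨2, by
        simp only [F, hfa2]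
        simpa using hG () q.1.1 q.1.2 q.2⟩
  have hev := lift_pairP hσ hT (fun t => (fa t, fb t)) hfa hfb (by simp [hfa0, hfb0]) hε
  obtain ⟨U, hU, hUo, hU0⟩ := eventually_nhds_iff.1 hev
  obtain ⟨t, hs, hsU⟩ := (dense_avoid' F hF hne).exists_mem_open hUo ⟨0, hU0⟩
  obtain ⟨σ', h1, h2, h3, h4⟩ := hU t (by assumption)
  refine ⟨σ', h1, h4, ?_⟩
  rw [h2, h3]
  have hs' : ∀ k, F k t ≠ 0 := by assumption
  obtain ⟨p', hp'⟩ := kry_spec (hs' none)
  exact ⟨_, p', hs' none, hp', hs' (some none),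
    goodW_of_avoids fun d d' hd => hs' (some (some ⟨(d, d'), hd⟩))⟩



/-- The product of the commutators of the last handles and of the puncture loops. -/
def tailP (z : Fin s → SLC r) (σ : PRep n s (SLC r)) : SLC r := tailW σ.1 * pprod z σ

/-- Replace the first handle. -/
def setP (σ : PRep n s (SLC r)) (a b : SLC r) : PRep n s (SLC r) := (setH σ.1 a b, σ.2)

/-- Coordinates with first handle given by arbitrary matrices. -/
def gCoordP (a b : Mat r) (σ : PRep n s (SLC r)) : PVar n s r → ℂ :=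
  Sum.elim (gCoord a b σ.1) fun v => (σ.2 v.1).val v.2.1 v.2.2

lemma gCoordP_eq (a b : SLC r) (σ : PRep n s (SLC r)) :
    gCoordP a.val b.val σ = coordP (setP σ a b) := by
  rw [gCoordP, gCoord_eq]
  rfl

lemma setP_self (σ : PRep n s (SLC r)) : setP σ (σ.1.1 0) (σ.1.2 0) = σ := by
  simp [setP, setH]

lemma relP_setP (σ : PRep n s (SLC r)) (a b : SLC r) :
    relP z (setP σ a b) = ⁅a, b⁆ * tailP z σ := by
  rw [relP, pprod_congr (z := z) (σ := setP σ a b) (τ := σ) rfl]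
  show relator (setH σ.1 a b) * _ = _
  rw [relator_setH, tailP, mul_assoc]

lemma smooth_tailP {X : Type*} [NormedAddCommGroup X] [NormedSpace ℂ X]
    {σ : X → PRep n s (SLC r)} (hσ : SmoothP σ) : Smooth fun x => (tailP z (σ x)).val := by
  have hS := smooth_stable (r := r) (X := X)
  exact hS.mul _ _ (hS.tailW hσ.1)
    (hS.list_prod (fun j x => pc z (σ x) j) fun j => hS.pc (fun _ => Smooth.const _) hσ j)

lemma endpointP {ρ : PRep n s (SLC r)} (hρ : relP z ρ = 1) (hr : 0 < r)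
    (hg : GoodPair (ρ.1.1 0) (ρ.1.2 0)) : ∃ (h : Mat r) (u : Fin r → ℂ), h.det ≠ 0 ∧
      (eqMat h (tailP z ρ).val).det ≠ 0 ∧
      h * comp' (solP h (tailP z ρ).val) * h⁻¹ = (ρ.1.1 0)⁻¹.val ∧
      handB h (tailP z ρ).val u = (ρ.1.2 0).val := by
  obtain ⟨h, p, hh, hp, hM, -⟩ := hg
  set a := ρ.1.1 0
  set b := ρ.1.2 0
  have hW : tailP z ρ = (a * b * a⁻¹ * b⁻¹)⁻¹ := by
    refine eq_inv_of_mul_eq_one_right ?_
    rw [← hρ, tailP, relP, relator, tailW, commutatorElement_def]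
    group
    rfl
  rw [← hW] at hM
  set W := tailP z ρ with hWdef
  have hu : IsUnit h.det := isUnit_iff_ne_zero.2 hh
  have hx : h * comp' p * h⁻¹ = a⁻¹.val := by
    rw [← hp, Matrix.mul_assoc, Matrix.mul_nonsing_inv _ hu, Matrix.mul_one]
  have hxW : a⁻¹ * W⁻¹ = b * a⁻¹ * b⁻¹ := by rw [hW, inv_inv]; group
  have hsol : p = solP h W.val := by
    refine solP_unique hM ((eqs_eq_zero_iff hh W.2 p).2 ⟨by rw [hx]; exact (a⁻¹).2, ?_⟩)
    rw [hx, ← coe_inv_SL, ← Matrix.SpecialLinearGroup.coe_mul, hxW]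
    simp only [Matrix.SpecialLinearGroup.coe_mul]
    rw [Matrix.mul_assoc, Matrix.charpoly_mul_comm, Matrix.mul_assoc, val_inv_mul,
      Matrix.mul_one]
  rw [hsol] at hx
  refine ⟨h, (b.val * h) *ᵥ Pi.single ⟨0, hr⟩ 1, hh, hM, hx, handB_eq hh hr ?_⟩
  rw [hx, ← coe_inv_SL, ← Matrix.SpecialLinearGroup.coe_mul, ← Matrix.SpecialLinearGroup.coe_mul,
    ← Matrix.SpecialLinearGroup.coe_mul, hxW]
  congr 1
  simp only [mul_assoc, inv_mul_cancel, mul_one]
  rfl

/-- Analytic continuation: the product over the scalar twists of the target vanishes. -/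
lemma prod_twists_vanishP [NeZero r] (hr : 2 ≤ r) {ρ₁ ρ₂ : PRep n s (SLC r)}
    (h1 : relP z ρ₁ = 1) (hg1 : GoodPair (ρ₁.1.1 0) (ρ₁.1.2 0))
    {P : MvPolynomial (PVar n s r) ℂ}
    (hnb : ∀ᶠ g in 𝓝 (coordP ρ₁), ∀ ρ : PRep n s (SLC r), relP z ρ = 1 → coordP ρ = g →
      MvPolynomial.eval g P = 0)
    (h2 : relP z ρ₂ = 1) (hg2 : GoodPair (ρ₂.1.1 0) (ρ₂.1.2 0)) {ζ : ℂ} (hζ : IsPrimitiveRoot ζ r) :
    ∃ i < r, MvPolynomial.eval (gCoordP (ρ₂.1.1 0).val (ζ ^ i • (ρ₂.1.2 0).val) ρ₂) P = 0 := by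
  have hr0 : 0 < r := by omega
  obtain ⟨H₁, u₁, hH1, hM1, hx1, hB1⟩ := endpointP h1 hr0 hg1
  obtain ⟨H₂, u₂, hH2, hM2, hx2, hB2⟩ := endpointP h2 hr0 hg2
  choose fA hfA hfA0 hfA1 using fun i => exists_path hr (ρ₁.1.1 i) (ρ₂.1.1 i)
  choose fB hfB hfB0 hfB1 using fun i => exists_path hr (ρ₁.1.2 i) (ρ₂.1.2 i)
  choose fU hfU hfU0 hfU1 using fun j => exists_path hr (ρ₁.2 j) (ρ₂.2 j)
  let σ : ℂ → PRep n s (SLC r) := fun t₀ => ((fun i => fA i t₀, fun i => fB i t₀), fun j => fU j t₀)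
  have hσ : SmoothP σ := ⟨fun i => ⟨hfA i, hfB i⟩, hfU⟩
  have hσ0 : σ 0 = ρ₁ := Prod.ext (Prod.ext (funext hfA0) (funext hfB0)) (funext hfU0)
  have hσ1 : σ 1 = ρ₂ := Prod.ext (Prod.ext (funext hfA1) (funext hfB1)) (funext hfU1)
  let W : ℂ → SLC r := fun t₀ => tailP z (σ t₀)
  have hW : Smooth fun t₀ => (W t₀).val := smooth_tailP hσ
  let H : ℂ → Mat r := fun t₀ => (1 - t₀) • H₁ + t₀ • H₂
  let u : ℂ → Fin r → ℂ := fun t₀ => (1 - t₀) • u₁ + t₀ • u₂
  have hH : Smooth H := fun i j => by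
    simp only [H, Matrix.add_apply, Matrix.smul_apply, smul_eq_mul]
    fun_prop
  have hu : ∀ i, ContDiff ℂ ω fun t₀ => u t₀ i := fun i => by
    simp only [u, Pi.add_apply, Pi.smul_apply, smul_eq_mul]
    fun_prop
  let M : ℂ → Mat r := fun t₀ => eqMat (H t₀) (W t₀).val
  have hM : Smooth M := smooth_eqMat hH hW
  let d : ℂ → ℂ := fun t₀ => (M t₀).det
  let num : ℂ → Fin r → ℂ := fun t₀ => (M t₀).adjugate *ᵥ eqs (H t₀) (W t₀).val 0
  have hnum : ∀ i, ContDiff ℂ ω fun t₀ => num t₀ i := fun i => by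
    simp only [num, Matrix.mulVec, dotProduct]
    exact ContDiff.sum fun l _ => (hM.adjugate i l).mul (contDiff_eqMat hH hW 0 l)
  let X : ℂ → Mat r := fun t₀ => H t₀ * compD (d t₀) (num t₀) * (H t₀).adjugate
  have hX : Smooth X := (hH.mul (smooth_compD hM.det hnum)).mul hH.adjugate
  let f : ℂ → ℂ := fun t₀ => (H t₀).det * d t₀ * (kry (X t₀ * (W t₀).val.adjugate) (u t₀)).det
  have hf : Differentiable ℂ f :=
    ((hH.det.mul hM.det).mul (smooth_kry (hX.mul hW.adjugate) hu).det).differentiable (by simp)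
  let x : ℂ → Mat r := fun t₀ => H t₀ * comp' (solP (H t₀) (W t₀).val) * (H t₀)⁻¹
  let B : ℂ → Mat r := fun t₀ => handB (H t₀) (W t₀).val (u t₀)
  have hXx : ∀ t₀, (H t₀).det ≠ 0 → d t₀ ≠ 0 → X t₀ = ((H t₀).det * d t₀) • x t₀ := fun t₀ a b => by
    simp only [X, x, d, num, M]
    rw [← smul_comp'_solP _ _ b, Matrix.inv_def, Ring.inverse_eq_inv']
    simp only [mul_smul_comm, smul_mul_assoc, smul_smul]
    congr 1
    field_simp
  have hWadj : ∀ t₀, (W t₀).val.adjugate = ((W t₀).val)⁻¹ := fun t₀ => coe_inv_SL (W t₀)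
  have hkey : ∀ t₀, f t₀ ≠ 0 → (H t₀).det ≠ 0 ∧ d t₀ ≠ 0 ∧ (B t₀).det ≠ 0 := by
    intro t₀ hs
    obtain ⟨⟨a, b⟩, c⟩ : ((H t₀).det ≠ 0 ∧ d t₀ ≠ 0) ∧ _ := by
      simpa only [f, ne_eq, mul_eq_zero, not_or] using hs
    refine ⟨a, b, ?_⟩
    rw [hXx t₀ a b, smul_mul_assoc, kry_smul, Matrix.det_mul] at c
    simp only [B, handB]
    rw [Matrix.det_mul, Matrix.det_nonsing_inv, Ring.inverse_eq_inv', ← hWadj]
    exact mul_ne_zero (fun e => c (by rw [e, zero_mul])) (inv_ne_zero a)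
  have hend : ∀ (t₀ : ℂ) (ρ : PRep n s (SLC r)) (H' : Mat r) (u' : Fin r → ℂ), σ t₀ = ρ →
      H t₀ = H' → u t₀ = u' → H'.det ≠ 0 → (eqMat H' (tailP z ρ).val).det ≠ 0 →
      H' * comp' (solP H' (tailP z ρ).val) * H'⁻¹ = (ρ.1.1 0)⁻¹.val →
      handB H' (tailP z ρ).val u' = (ρ.1.2 0).val →
      f t₀ ≠ 0 ∧ (x t₀).adjugate = (ρ.1.1 0).val ∧ B t₀ = (ρ.1.2 0).val := by
    rintro t₀ ρ H' u' rfl rfl rfl a b hx hB
    refine ⟨?_, ?_, hB⟩
    · have hc : (kry (x t₀ * ((W t₀).val)⁻¹) (u t₀)).det ≠ 0 := fun e => by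
        have := congrArg Matrix.det hB
        rw [handB, Matrix.det_mul, e, zero_mul, ((σ t₀).1.2 0).2] at this
        exact zero_ne_one this
      simp only [f]
      rw [hXx t₀ a b, smul_mul_assoc, kry_smul, Matrix.det_mul, Matrix.det_diagonal, hWadj]
      exact mul_ne_zero (mul_ne_zero a b) (mul_ne_zero hc
        (Finset.prod_ne_zero_iff.2 fun j _ => pow_ne_zero _ (mul_ne_zero a b)))
    · simp only [x, W]
      rw [hx, ← Matrix.SpecialLinearGroup.coe_inv, inv_inv]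
  obtain ⟨hf0, hx0, hB0⟩ := hend 0 ρ₁ H₁ u₁ hσ0 (by simp [H]) (by simp [u]) hH1 hM1 hx1 hB1
  obtain ⟨hf1, hxt, hBt⟩ := hend 1 ρ₂ H₂ u₂ hσ1 (by simp [H]) (by simp [u]) hH2 hM2 hx2 hB2
  -- the domain
  set D := {t₀ | f t₀ ≠ 0} with hD
  have hDo : IsOpen D := isOpen_ne.preimage hf.continuous
  have hDc : IsPreconnected D := by
    have hz : f ⁻¹' {0}ᶜ ∈ Filter.codiscrete ℂ :=
      (hf.differentiableOn.analyticOnNhd isOpen_univ).preimage_zero_mem_codiscrete hf0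
    rw [mem_codiscrete'] at hz
    have hcount : (f ⁻¹' {0}ᶜ)ᶜ.Countable := by
      exact (HereditarilyLindelofSpace.isLindelof _).countable_of_isDiscrete hz.2
    have := hcount.isConnected_compl_of_one_lt_rank (E := ℂ) (by
      rw [Complex.rank_real_complex]; exact Cardinal.one_lt_two)
    rw [compl_compl] at this
    exact this.isPreconnected
  -- analyticity
  have hanX : ∀ {g : ℂ → ℂ}, ContDiff ℂ ω g → ∀ t₀, AnalyticAt ℂ g t₀ := fun hg t₀ =>
    hg.contDiffAt.analyticAt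
  have hxan : ∀ t₀ ∈ D, ∀ i j, AnalyticAt ℂ (fun t => x t i j) t₀ := by
    intro t₀ hs i j
    obtain ⟨a, b, -⟩ := hkey t₀ hs
    refine AnalyticAt.congr (f := fun t => ((H t).det * d t)⁻¹ * X t i j) ?_ ?_
    · exact ((hanX (hH.det.mul hM.det) t₀).inv (mul_ne_zero a b)).mul (hanX (hX i j) t₀)
    · filter_upwards [hDo.mem_nhds hs] with t ht
      obtain ⟨a', b', -⟩ := hkey t ht
      rw [hXx t a' b', Matrix.smul_apply, smul_eq_mul, inv_mul_cancel_left₀ (mul_ne_zero a' b')]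
  have hanmul : ∀ {F G : ℂ → Mat r} {t₀ : ℂ}, (∀ i j, AnalyticAt ℂ (fun t => F t i j) t₀) →
      (∀ i j, AnalyticAt ℂ (fun t => G t i j) t₀) →
      ∀ i j, AnalyticAt ℂ (fun t => (F t * G t) i j) t₀ := fun hF hG i j => by
    simp only [Matrix.mul_apply]
    exact Finset.univ.analyticAt_fun_sum fun l _ => (hF i l).mul (hG l j)
  have handet : ∀ {F : ℂ → Mat r} {t₀ : ℂ}, (∀ i j, AnalyticAt ℂ (fun t => F t i j) t₀) →
      AnalyticAt ℂ (fun t => (F t).det) t₀ := fun hF => by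
    simp only [Matrix.det_apply']
    exact Finset.univ.analyticAt_fun_sum fun q _ =>
      analyticAt_const.mul (Finset.univ.analyticAt_fun_prod fun l _ => hF _ _)
  have hadj : ∀ t₀ ∈ D, ∀ i j, AnalyticAt ℂ (fun t => (x t).adjugate i j) t₀ := fun t₀ hs i j => by
    simp only [Matrix.adjugate_apply]
    refine handet fun a b => ?_
    simp only [Matrix.updateRow_apply]
    split_ifs
    · exact analyticAt_const
    · exact hxan t₀ hs a b
  have hBan : ∀ t₀ ∈ D, ∀ i j, AnalyticAt ℂ (fun t => B t i j) t₀ := by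
    intro t₀ hs
    have hy : ∀ i j, AnalyticAt ℂ (fun t => (x t * ((W t).val)⁻¹) i j) t₀ :=
      hanmul (hxan t₀ hs) fun i j => by
        simp only [← hWadj]
        exact hanX (hW.adjugate i j) t₀
    have hp : ∀ (k : ℕ) i j, AnalyticAt ℂ (fun t => ((x t * ((W t).val)⁻¹) ^ k) i j) t₀ := by
      intro k
      induction k with
      | zero => exact fun i j => by simpa using analyticAt_const
      | succ k ih => simp only [pow_succ]; exact hanmul ih hy
    refine hanmul (fun i j => ?_) fun i j => ?_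
    · simp only [kry, Matrix.of_apply, Matrix.mulVec, dotProduct]
      exact Finset.univ.analyticAt_fun_sum fun l _ => (hp _ i l).mul (hanX (hu l) t₀)
    · simp only [Matrix.inv_def, Ring.inverse_eq_inv', Matrix.smul_apply, smul_eq_mul]
      exact ((hanX hH.det t₀).inv (hkey t₀ hs).1).mul (hanX (hH.adjugate i j) t₀)
  let β : ℂ → ℂ := fun t₀ => (B t₀).det⁻¹
  have hβ : ∀ t₀ ∈ D, AnalyticAt ℂ β t₀ := fun t₀ hs => (handet (hBan t₀ hs)).inv (hkey t₀ hs).2.2
  let G : ℂ → ℂ → PVar n s r → ℂ := fun t₀ w => gCoordP (x t₀).adjugate (w • B t₀) (σ t₀)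
  have hG : ∀ t₀ ∈ D, ∀ w : ℂ → ℂ, AnalyticAt ℂ w t₀ →
      ∀ v, AnalyticAt ℂ (fun t => G t (w t) v) t₀ := by
    rintro t₀ hs w hz (⟨⟨i, c⟩, p, q⟩ | v)
    swap
    · exact hanX (contDiff_pi.1 hσ.coord (.inr v)) t₀
    simp only [G, gCoordP, Sum.elim_inl, gCoord]
    split_ifs
    · exact hz.mul (hBan t₀ hs p q)
    · exact hadj t₀ hs p q
    · exact hanX (contDiff_pi.1 hσ.coord (.inl _)) t₀
  have hev : ∀ {F : ℂ → PVar n s r → ℂ} {t₀ : ℂ}, (∀ v, AnalyticAt ℂ (fun t => F t v) t₀) →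
      AnalyticAt ℂ (fun t => MvPolynomial.eval (F t) P) t₀ := fun hF => by
    simp only [MvPolynomial.eval_eq]
    exact Finset.analyticAt_fun_sum _ fun m _ => analyticAt_const.mul
      (Finset.analyticAt_fun_prod _ fun l _ => (hF l).pow _)
  let Rp : ℂ → ℂ := fun t₀ => ((Polynomial.nthRoots r (β t₀)).map
    fun w => MvPolynomial.eval (G t₀ w) P).prod
  have hbranch : ∀ t₀ ∈ D, ∀ z₀ : ℂ, z₀ ^ r = β t₀ → ∃ w : ℂ → ℂ, AnalyticAt ℂ w t₀ ∧ w t₀ = z₀ ∧
      ∀ᶠ t in 𝓝 t₀, w t ^ r = β t := by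
    intro t₀ hs z₀ hz₀
    have hb0 : β t₀ ≠ 0 := inv_ne_zero (hkey t₀ hs).2.2
    refine ⟨fun t => z₀ * Complex.exp (Complex.log (β t / β t₀) / r), ?_, by simp [hb0], ?_⟩
    · refine analyticAt_const.mul (AnalyticAt.cexp ?_)
      exact ((((hβ t₀ hs).div_const (c := β t₀))).clog (by simp [hb0])).div_const
    · filter_upwards [(hβ t₀ hs).continuousAt.eventually_ne hb0] with t ht
      rw [mul_pow, hz₀, ← Complex.exp_nat_mul, mul_div_cancel₀ _ (Nat.cast_ne_zero.2 hr0.ne'),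
        Complex.exp_log (div_ne_zero ht hb0), mul_div_cancel₀ _ hb0]
  have hRan : AnalyticOnNhd ℂ Rp D := by
    intro t₀ hs
    obtain ⟨z₀, hz₀⟩ := IsAlgClosed.exists_pow_nat_eq (β t₀) hr0
    obtain ⟨w, hz, -, hzr⟩ := hbranch t₀ hs z₀ hz₀
    refine AnalyticAt.congr
      (f := fun t => ∏ i ∈ Finset.range r, MvPolynomial.eval (G t (ζ ^ i * w t)) P) ?_ ?_
    · exact Finset.analyticAt_fun_prod _ fun i _ =>
        hev (hG t₀ hs _ (analyticAt_const.mul hz))
    · filter_upwards [hzr] with t ht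
      simp only [Rp, hζ.nthRoots_eq ht, Multiset.map_map]
      rfl
  have hR0 : Rp =ᶠ[𝓝 0] 0 := by
    obtain ⟨w, hz, hz0, hzr⟩ := hbranch 0 hf0 1 (by simp [β, hB0])
    have hc : ContinuousAt (fun t => G t (w t)) 0 :=
      continuousAt_pi.2 fun v => (hG 0 hf0 w hz v).continuousAt
    have hG0 : G 0 (w 0) = coordP ρ₁ := by
      simp only [G, hz0, hx0, hB0, one_smul, gCoordP_eq]
      rw [hσ0, setP_self]
    have hev' : ∀ᶠ t in 𝓝 0, ∀ ρ : PRep n s (SLC r), relP z ρ = 1 → coordP ρ = G t (w t) →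
        MvPolynomial.eval (G t (w t)) P = 0 := (hc.tendsto.eventually (by rw [hG0]; exact hnb))
    filter_upwards [hev', hzr, hDo.mem_nhds hf0] with t ht htz htD
    obtain ⟨a, -, hBd⟩ := hkey t htD
    obtain ⟨hdet, hint⟩ := handle_spec (h := H t) (W := (W t).val) a (W t).2 (hkey t htD).2.1 (u t)
    let xs : SLC r := ⟨x t, hdet⟩
    let bs : SLC r := ⟨w t • B t, by
      rw [Matrix.det_smul, Fintype.card_fin, htz]
      exact inv_mul_cancel₀ hBd⟩
    have hrel : relP z (setP (σ t) xs⁻¹ bs) = 1 := by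
      have e : bs * xs = xs * (W t)⁻¹ * bs := by
        refine Subtype.ext ?_
        simp only [Matrix.SpecialLinearGroup.coe_mul, coe_inv_SL]
        show w t • B t * x t = x t * ((W t).val)⁻¹ * (w t • B t)
        rw [smul_mul_assoc, mul_smul_comm, hint]
      rw [relP_setP, commutatorElement_def, inv_inv,
        show xs⁻¹ * bs * xs * bs⁻¹ = xs⁻¹ * (bs * xs) * bs⁻¹ by group, e]
      show _ * W t = 1
      group
    have hcoord : coordP (setP (σ t) xs⁻¹ bs) = G t (w t) := by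
      rw [← gCoordP_eq, coe_inv_SL]
      simp only [G]
      rw [show (xs.val)⁻¹ = (x t).adjugate from coe_inv_SL xs ▸ rfl]
    have hPz : MvPolynomial.eval (G t (w t)) P = 0 :=
      ht _ hrel hcoord
    exact Multiset.prod_eq_zero
      (Multiset.mem_map.2 ⟨w t, (Polynomial.mem_nthRoots hr0).2 htz, hPz⟩)
  have hR1 := hRan.eqOn_zero_of_preconnected_of_eventuallyEq_zero hDc hf0 hR0 hf1
  simp only [Rp, β, hBt, Matrix.SpecialLinearGroup.det_coe, inv_one, Pi.zero_apply,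
    hζ.nthRoots_eq (α := (1 : ℂ)) (one_pow r), Multiset.map_map, Multiset.prod_eq_zero_iff,
    Multiset.mem_map, Multiset.mem_range, Function.comp_apply, mul_one] at hR1
  obtain ⟨i, hi, hzero⟩ := hR1
  refine ⟨i, hi, ?_⟩
  simpa [G, hxt, hBt, hσ1] using hzero

/-- Representations in general position lie in the closure. -/
theorem eval_zero_of_goodPairP [NeZero r] (hr : 2 ≤ r) {z : Fin s → SLC r}
    {Q : MvPolynomial (PVar n s r) ℂ} {ρ₁ ρ₂ : PRep n s (SLC r)}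
    (h1 : relP z ρ₁ = 1) (hg1 : GoodPair (ρ₁.1.1 0) (ρ₁.1.2 0))
    (hnb : ∀ᶠ g in 𝓝 (coordP ρ₁), ∀ ρ, relP z ρ = 1 → coordP ρ = g → MvPolynomial.eval g Q = 0)
    (h2 : relP z ρ₂ = 1) (hg2 : GoodPair (ρ₂.1.1 0) (ρ₂.1.2 0)) :
    MvPolynomial.eval (coordP ρ₂) Q = 0 := by
  have hr' : (r : ℂ) ≠ 0 := Nat.cast_ne_zero.2 (by omega)
  obtain ⟨U, lam, hind, ha⟩ : GoodW (ρ₂.1.1 0).val := by
    obtain ⟨_, _, -, -, -, h⟩ := hg2
    exact h
  set c := 2 * (Real.pi : ℂ) * Complex.I with hc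
  let τ : Fin r → ℂ := fun j => c / r - if j = 0 then c else 0
  have hτ : ∑ j, τ j = 0 := by
    simp only [τ, Finset.sum_sub_distrib, Finset.sum_const, Finset.card_univ, Fintype.card_fin,
      nsmul_eq_mul, Finset.sum_ite_eq', Finset.mem_univ, if_true]
    field_simp
    ring
  have hζ := Complex.isPrimitiveRoot_exp r (by omega)
  rw [← hc] at hζ
  set ζ := Complex.exp (c / r)
  let w : ℂ → SLC r := fun t => expM (U.val * Matrix.diagonal (fun j => t * τ j) * U⁻¹.val)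
  have hz : ∀ t, (w t).val = U.val * Matrix.diagonal (fun j => Complex.exp (t * τ j)) * U⁻¹.val :=
    fun t => expM_conj_diag U _ (by rw [← Finset.mul_sum, hτ, mul_zero])
  have hadd : ∀ t₀ t, w (t₀ + t) = w t₀ * w t := fun t₀ t => Subtype.ext (by
    rw [Matrix.SpecialLinearGroup.coe_mul, hz, hz, hz, Matrix.mul_assoc, Matrix.mul_assoc,
      Matrix.mul_assoc, Matrix.mul_assoc, ← Matrix.mul_assoc U⁻¹.val U.val, Units.inv_mul,
      Matrix.one_mul, ← Matrix.mul_assoc (Matrix.diagonal _) (Matrix.diagonal _),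
      Matrix.diagonal_mul_diagonal]
    simp only [add_mul, Complex.exp_add])
  have hnat : ∀ i : ℕ, (w i).val = ζ ^ i • (1 : Mat r) := fun i => by
    have e : (fun j => Complex.exp ((i : ℂ) * τ j)) = fun _ : Fin r => ζ ^ i := funext fun j => by
      simp only [τ, mul_sub, Complex.exp_sub, Complex.exp_nat_mul]
      split_ifs
      · simp [hc, ζ, Complex.exp_two_pi_mul_I]
      · simp [ζ]
    rw [hz, e, ← Matrix.smul_one_eq_diagonal, mul_smul_comm, Matrix.mul_one, smul_mul_assoc,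
      Units.mul_inv]
  have hcomm : ∀ t, Commute (ρ₂.1.1 0) (w t) := fun t => Subtype.ext (by
    simp only [Matrix.SpecialLinearGroup.coe_mul, ha, hz]
    rw [Matrix.mul_assoc, Matrix.mul_assoc, ← Matrix.mul_assoc U⁻¹.val (U.val * _), ←
      Matrix.mul_assoc U⁻¹.val U.val, Units.inv_mul, Matrix.one_mul,
      ← Matrix.mul_assoc (Matrix.diagonal _) (Matrix.diagonal _), Matrix.diagonal_mul_diagonal]
    conv_rhs => rw [Matrix.mul_assoc, Matrix.mul_assoc, ← Matrix.mul_assoc U⁻¹.val (U.val * _), ←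
      Matrix.mul_assoc U⁻¹.val U.val, Units.inv_mul, Matrix.one_mul,
      ← Matrix.mul_assoc (Matrix.diagonal _) (Matrix.diagonal _), Matrix.diagonal_mul_diagonal]
    simp only [mul_comm (lam _)])
  let g : ℕ → ℂ → ℂ := fun i t => MvPolynomial.eval (coordP (ptwist ρ₂ (w (i + t)))) Q
  have hprod : ∀ t, ∃ i < r, g i t = 0 := by
    intro t
    obtain ⟨i, hi, h⟩ := prod_twists_vanishP hr h1 hg1 hnb
      (ρ₂ := ptwist ρ₂ (w t)) (by rw [relP_ptwist ρ₂ (hcomm t), h2]) (by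
        obtain ⟨h, p, a, b, d, e⟩ := hg2
        refine ⟨h, p, a, b, ?_, e⟩
        have hb : (ptwist ρ₂ (w t)).1.2 0 = ρ₂.1.2 0 * w t := by simp [ptwist, twist]
        rw [show (ptwist ρ₂ (w t)).1.1 0 = ρ₂.1.1 0 from rfl, hb]
        rwa [show ρ₂.1.1 0 * (ρ₂.1.2 0 * w t) * (ρ₂.1.1 0)⁻¹ * (ρ₂.1.2 0 * w t)⁻¹ =
            ρ₂.1.1 0 * ρ₂.1.2 0 * (ρ₂.1.1 0)⁻¹ * (ρ₂.1.2 0)⁻¹ by
          rw [show ρ₂.1.1 0 * (ρ₂.1.2 0 * w t) * (ρ₂.1.1 0)⁻¹ =
              ρ₂.1.1 0 * ρ₂.1.2 0 * (ρ₂.1.1 0)⁻¹ *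
              (ρ₂.1.1 0 * w t * (ρ₂.1.1 0)⁻¹) by group, (hcomm t).eq]
          group]) hζ
    refine ⟨i, hi, ?_⟩
    rw [← h]
    simp only [g]
    refine congrArg (fun f => MvPolynomial.eval f Q) ?_
    funext v
    rcases v with ⟨⟨k, b⟩, p, q⟩ | v
    swap
    · rfl
    by_cases hk : k = 0
    · subst hk
      cases b
      · simp [gCoordP, coordP, gCoord, coord, ptwist, twist]
      · have e : (ρ₂.1.2 0 * w (i + t)).val = ζ ^ i • (ρ₂.1.2 0 * w t).val := by
          simp only [Matrix.SpecialLinearGroup.coe_mul, hadd, hnat, smul_mul_assoc, Matrix.one_mul,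
            mul_smul_comm]
        simpa [gCoordP, coordP, gCoord, coord, ptwist, twist] using congrFun (congrFun e p) q
    · cases b <;> simp [gCoordP, coordP, gCoord, coord, ptwist, twist, hk]
  have hg : ∀ i, Differentiable ℂ (g i) := fun i => by
    have hs : SmoothP fun t : ℂ => ptwist ρ₂ (w (i + t)) := by
      refine ⟨fun k => ⟨Smooth.const (ρ₂.1.1 k).val, ?_⟩, fun j => Smooth.const (ρ₂.2 j).val⟩
      by_cases hk : k = 0
      · subst hk
        simp only [ptwist, twist, Function.update_self, Matrix.SpecialLinearGroup.coe_mul, hz]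
        refine (Smooth.const _).mul (((Smooth.const _).mul fun a b => ?_).mul (Smooth.const _))
        simp only [Matrix.diagonal_apply]
        split_ifs
        · exact ((contDiff_const.add contDiff_id).mul contDiff_const).cexp
        · exact contDiff_const
      · simp only [ptwist, twist, Function.update_of_ne hk]
        exact Smooth.const _
    exact (contDiff_eval (fun v => contDiff_pi.1 hs.coord v) Q).differentiable (by simp)
  obtain ⟨i, hi⟩ : ∃ i : Fin r, ∀ t, g i t = 0 := by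
    by_contra hcon
    push Not at hcon
    obtain ⟨t, ht⟩ := (dense_avoid' (fun i : Fin r => g i) (fun i => hg i) hcon).nonempty
    obtain ⟨i, hi, h⟩ := hprod t
    exact ht ⟨i, hi⟩ h
  have := hi (-(i : ℕ))
  simp only [g, add_neg_cancel] at this
  have hz0 : w 0 = 1 := Subtype.ext (by simpa using hnat 0)
  simpa [hz0, ptwist, twist] using this

/-- Representations in general position lie in the closure. -/
theorem mem_of_goodPairP [NeZero r] (hr : 2 ≤ r) {R : Subring ℂ} {ρ₁ ρ₂ : PRep n s (SLC r)}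
    (h1 : relP z ρ₁ = 1) (hg1 : GoodPair (ρ₁.1.1 0) (ρ₁.1.2 0))
    (hnb : ∀ᶠ g in 𝓝 (coordP ρ₁), ∀ ρ, relP z ρ = 1 → coordP ρ = g → ρ ∈ ZdP R n z)
    (h2 : relP z ρ₂ = 1) (hg2 : GoodPair (ρ₂.1.1 0) (ρ₂.1.2 0)) : ρ₂ ∈ ZdP R n z :=
  ⟨h2, fun P hP => eval_zero_of_goodPairP hr h1 hg1
    (hnb.mono fun _ hg ρ hρ hc => hc ▸ (hg ρ hρ hc).2 P hP) h2 hg2⟩

end Vale.Agent.P002
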