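import Vale.Agent.P002.Punct.Slot
import Vale.Agent.P002.Irreducible

/-!
Irreducible representations of punctured surface groups with prescribed boundary classes are
limits of representations at which the last handles and the punctures have scalar centraliser.
-/

namespace Vale.Agent.P002

open Matrix Polynomial Filter Topology
open scoped ContDiff commutatorElement

variable {r n s : ℕ}

section Group

variable {G : Type*} [Group G]

/-- Conjugate the first handle. -/
def cjHead (C : G) (ρ : Handles n G) : Handles n G :=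
  (Function.update ρ.1 0 (C * ρ.1 0 * C⁻¹), Function.update ρ.2 0 (C * ρ.2 0 * C⁻¹))

/-- Move the first handle behind the last one, past the punctures. -/
def rotP (z : Fin s → G) (σ : PRep n s G) : PRep n s G := (rot (cjHead (pprod z σ) σ.1), σ.2)

/-- The inverse of the move of the handles. -/
def rotPInv (z : Fin s → G) (σ : PRep n s G) : PRep n s G :=
  (cjHead (pprod z σ)⁻¹ (rotInv σ.1), σ.2)

lemma cjHead_cjHead (C D : G) (ρ : Handles n G) : cjHead C (cjHead D ρ) = cjHead (C * D) ρ := by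
  simp [cjHead, mul_assoc]

lemma cjHead_one (ρ : Handles n G) : cjHead (1 : G) ρ = ρ := by
  simp [cjHead]

lemma tailComm_cjHead (C : G) (ρ : Handles n G) : tailComm (cjHead C ρ) = tailComm ρ := by
  simp [tailComm, cjHead, Fin.succ_ne_zero]

variable {z : Fin s → G}

lemma rotP_rotPInv (σ : PRep n s G) : rotP z (rotPInv z σ) = σ := by
  rw [rotP, pprod_congr (show (rotPInv z σ).2 = σ.2 from rfl)]
  simp [rotPInv, cjHead_cjHead, cjHead_one, rot_rotInv]

lemma rotPInv_rotP (σ : PRep n s G) : rotPInv z (rotP z σ) = σ := by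
  rw [rotPInv, pprod_congr (show (rotP z σ).2 = σ.2 from rfl)]
  simp [rotP, rotInv_rot, cjHead_cjHead, cjHead_one]

lemma relator_rot (ρ : Handles n G) :
    relator (rot ρ) = (tailComm ρ).prod * ⁅ρ.1 0, ρ.2 0⁆ := by
  rw [relator_ofFn, List.ofFn_succ', List.prod_concat]
  simp [rot, tailComm, commutatorElement_def, Fin.coeSucc_eq_succ, finRotate_apply]

lemma relP_rotP {σ : PRep n s G} (h : relP z σ = 1) : relP z (rotP z σ) = 1 := by
  rw [relP, pprod_congr (show (rotP z σ).2 = σ.2 from rfl)]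
  show relator (rot (cjHead (pprod z σ) σ.1)) * pprod z σ = 1
  rw [relator_rot, tailComm_cjHead]
  rw [relP, relator, mul_assoc] at h
  have h' := mul_eq_one_comm.1 h
  rw [← h']
  simp only [cjHead, Function.update_self, commutatorElement_def]
  group

lemma relP_rotPInv {σ : PRep n s G} (h : relP z σ = 1) : relP z (rotPInv z σ) = 1 := by
  rw [relP, pprod_congr (show (rotPInv z σ).2 = σ.2 from rfl)]
  show relator (cjHead (pprod z σ)⁻¹ (rotInv σ.1)) * pprod z σ = 1
  rw [relator, tailComm_cjHead]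
  rw [relP, ← rot_rotInv σ.1, relator_rot, mul_assoc] at h
  have h' := mul_eq_one_comm.1 h
  calc _ = (pprod z σ)⁻¹ * (⁅(rotInv σ.1).1 0, (rotInv σ.1).2 0⁆ * pprod z σ *
        (tailComm (rotInv σ.1)).prod) * pprod z σ := by
        simp only [cjHead, Function.update_self, commutatorElement_def]
        group
    _ = 1 := by rw [h', mul_one, inv_mul_cancel]

end Group

section Stable

variable {X G : Type*} [Group G] {S : (X → G) → Prop} {z : Fin s → G}

lemma Stable.pprod (hS : Stable S) (hz : ∀ j, S fun _ => z j) {ρ : X → PRep n s G}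
    (h : AllP S ρ) : S fun x => P002.pprod z (ρ x) :=
  hS.list_prod (fun j x => P002.pc z (ρ x) j) fun j => hS.pc hz h j

lemma Stable.rotP (hS : Stable S) (hz : ∀ j, S fun _ => z j) {ρ : X → PRep n s G}
    (h : AllP S ρ) : AllP S fun x => P002.rotP z (ρ x) := by
  have hC := hS.pprod hz h
  have hc := AllS.update hS h.1 0 (hS.mul _ _ (hS.mul _ _ hC (h.1 0).1) (hS.inv _ hC))
    (hS.mul _ _ (hS.mul _ _ hC (h.1 0).2) (hS.inv _ hC))
  exact ⟨fun i => hc (finRotate (n + 1) i), h.2⟩

lemma Stable.rotPInv (hS : Stable S) (hz : ∀ j, S fun _ => z j) {ρ : X → PRep n s G}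
    (h : AllP S ρ) : AllP S fun x => P002.rotPInv z (ρ x) := by
  have hC := hS.inv _ (hS.pprod hz h)
  have hr : AllS S fun x => rotInv (ρ x).1 := fun i => h.1 ((finRotate (n + 1)).symm i)
  exact ⟨AllS.update hS hr 0 (hS.mul _ _ (hS.mul _ _ hC (hr 0).1) (hS.inv _ hC))
    (hS.mul _ _ (hS.mul _ _ hC (hr 0).2) (hS.inv _ hC)), h.2⟩

end Stable

variable {z : Fin s → SLC r}

lemma goodP_top_z (j : Fin s) :
    GoodP (⊤ : Subring ℂ) fun _ : PRep n s (SLC r) => z j :=
  goodP_const (mem_inR.2 fun _ _ => trivial)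

lemma exists_hasD_goodP {f : PRep n s (SLC r) → SLC r} (hf : GoodP (⊤ : Subring ℂ) f)
    {γ : ℂ → PRep n s (SLC r)} (hγ : DifferentiableAt ℂ (fun t => coordP (γ t)) 0) :
    ∃ v, HasD (fun t => (f (γ t)).val) v := by
  obtain ⟨Q, hQ⟩ := hf.1
  have h : ∀ a b, DifferentiableAt ℂ (fun t => (f (γ t)).val a b) 0 := fun a b => by
    simp only [hQ, RingHom.mapMatrix_apply, Matrix.map_apply]
    have hp : ContDiff ℂ ω fun x : PVar n s r → ℂ => MvPolynomial.eval x (Q a b) :=
      contDiff_eval (fun i => contDiff_apply ℂ ℂ i) _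
    exact ((hp.differentiable (by simp)) _).comp (0 : ℂ) hγ
  exact ⟨Matrix.of fun a b => deriv (fun t => (f (γ t)).val a b) 0, fun a b => (h a b).hasDerivAt⟩

lemma differentiable_rotP {γ : ℂ → PRep n s (SLC r)}
    (hγ : DifferentiableAt ℂ (fun t => coordP (γ t)) 0) :
    DifferentiableAt ℂ (fun t => coordP (rotP z (γ t))) 0 := by
  obtain ⟨P, hP, hPe⟩ := exists_extP (goodP_stable.rotP (z := z) goodP_top_z allP_id)
  rw [funext fun t => hPe (γ t)]
  exact ((hP.differentiable (by simp)) _).comp (0 : ℂ) hγ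

lemma differentiable_rotPInv {γ : ℂ → PRep n s (SLC r)}
    (hγ : DifferentiableAt ℂ (fun t => coordP (γ t)) 0) :
    DifferentiableAt ℂ (fun t => coordP (rotPInv z (γ t))) 0 := by
  obtain ⟨P, hP, hPe⟩ := exists_extP (goodP_stable.rotPInv (z := z) goodP_top_z allP_id)
  rw [funext fun t => hPe (γ t)]
  exact ((hP.differentiable (by simp)) _).comp (0 : ℂ) hγ

lemma contM_gens {γ : ℂ → PRep n s (SLC r)}
    (hγ : DifferentiableAt ℂ (fun t => coordP (γ t)) 0) (v : Fin (n + 1) × Bool) :
    ContM (fun t => gens (γ t).1 v) 0 := by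
  obtain ⟨i, b⟩ := v
  cases b
  · obtain ⟨d, hd⟩ := exists_hasD_goodP (allP_id.1 i).1 hγ
    simpa [gens] using hd.contM
  · obtain ⟨d, hd⟩ := exists_hasD_goodP (allP_id.1 i).2 hγ
    simpa [gens] using hd.contM

lemma contM_gensP {γ : ℂ → PRep n s (SLC r)}
    (hγ : DifferentiableAt ℂ (fun t => coordP (γ t)) 0) :
    ∀ v, ContM (fun t => gensP z (γ t) v) 0
  | .inl v => contM_gens hγ v
  | .inr j => by
    obtain ⟨d, hd⟩ := exists_hasD_goodP (goodP_stable.pc goodP_top_z allP_id j) hγ
    exact hd.contM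

/-- Curves of representations with prescribed velocity, differentiable in all coordinates. -/
lemma exists_curvePd [NeZero r] {σ : PRep n s (SLC r)} (hσ : relP z σ = 1)
    (hT : Triv (gensP z σ)) {q : PVar n s r → ℂ} (hq : relDP z σ q = 0) :
    ∃ γ : ℂ → PRep n s (SLC r), γ 0 = σ ∧ (∀ᶠ t in 𝓝 0, relP z (γ t) = 1) ∧
      DifferentiableAt ℂ (fun t => coordP (γ t)) 0 ∧
      ∀ v, HasD (fun t => gens (γ t).1 v) (gens σ.1 v * tl (matOf (matH q) v)) := by
  have hf := hasStrict_relMapP (z := z) σ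
  have hr := range_relMapP hσ hT
  let κ := (fderiv ℂ (relMapP z σ) 0 : (PVar n s r → ℂ) →ₗ[ℂ] (Idx r → ℂ)).ker
  have hqk : q ∈ κ := by
    rw [LinearMap.mem_ker]
    change fderiv ℂ (relMapP z σ) 0 q = 0
    rw [fderiv_relMapP hσ q, hq]
    rfl
  let c : ℂ → PVar n s r → ℂ := fun t =>
    hf.implicitFunction _ _ hr (relMapP z σ 0) (t • (⟨q, hqk⟩ : κ))
  have hline : HasDerivAt (fun t : ℂ => t • (⟨q, hqk⟩ : κ)) (⟨q, hqk⟩ : κ) 0 := by
    simpa using (hasDerivAt_id (0 : ℂ)).smul_const (⟨q, hqk⟩ : κ)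
  have hc : HasDerivAt c q 0 :=
    (hf.to_implicitFunction hr).hasFDerivAt.comp_hasDerivAt_of_eq 0 hline (zero_smul ℂ _).symm
  have hc0 : c 0 = 0 := by
    simp only [c, zero_smul]
    exact hf.implicitFunction_apply_image hr
  have hsp := smooth_parP (smoothP_const (X := PVar n s r → ℂ) σ) contDiff_id
  refine ⟨fun t => parP σ (c t), by simp only [hc0, parP_zero], ?_,
    ((hsp.coord.differentiable (by simp)) _).comp (0 : ℂ) hc.differentiableAt, ?_⟩
  · have hev := hf.map_implicitFunction_eq hr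
    have hcont : Tendsto (fun t : ℂ => (relMapP z σ 0, t • (⟨q, hqk⟩ : κ))) (𝓝 0)
        (𝓝 (relMapP z σ 0, 0)) :=
      tendsto_const_nhds.prodMk_nhds (by simpa using hline.continuousAt.tendsto)
    filter_upwards [hcont.eventually hev] with t ht
    refine eq_one_of_idx fun p => ?_
    have := congrFun ht p
    simpa [relMapP, parP_zero, hσ, c] using this
  · rintro ⟨i, b⟩ x y
    have hm : ∀ (t : ℂ) w, matOf (t • matH q) w = t • matOf (matH q) w := fun t w => by
      ext; simp [matOf]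
    have hF : ContDiff ℂ ω fun w : PVar n s r → ℂ => gens (parP σ w).1 (i, b) x y := by
      cases b <;> simp only [gens, Bool.false_eq_true, if_true, if_false]
      exacts [(hsp.1 i).1 x y, (hsp.1 i).2 x y]
    have hv : HasDerivAt (fun t : ℂ => gens (parP σ (t • q)).1 (i, b) x y)
        ((gens σ.1 (i, b) * tl (matOf (matH q) (i, b))) x y) 0 := by
      cases b <;>
        · simp only [gens, parP, matH_smul, par, hm, Matrix.SpecialLinearGroup.coe_mul, if_true,
            if_false, Bool.false_eq_true]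
          exact ((hasD_const _).mul (hasD_expM _)).congr (by simp) x y
    have hd := (hF.differentiable (by simp) 0).hasFDerivAt
    have h1 := hd.comp_hasDerivAt_of_eq 0 hc hc0.symm
    have h2 := hd.comp_hasDerivAt_of_eq 0
      (by simpa using (hasDerivAt_id (0 : ℂ)).smul_const q) (zero_smul ℂ q).symm
    rw [← h2.unique hv]
    exact h1

lemma relDP_handle (σ : PRep n s (SLC r)) (τ : Var n r → ℂ) :
    relDP z σ (Sum.elim τ 0) = relD σ.1 τ := by
  have hz : prodD (pc z σ) 0 = 0 := by simpa using prodD_smul (pc z σ) (0 : ℂ) 0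
  have e : (fun j => pcD (pc z σ j) (tl (matU (Sum.elim τ 0 : PVar n s r → ℂ) j))) = 0 :=
    funext fun j => by
      rw [show matU (Sum.elim τ 0 : PVar n s r → ℂ) j = 0 from rfl]
      simp [tl, pcD]
  rw [relDP, e, hz, map_zero, add_zero]
  rfl

lemma trace_relDP [NeZero r] (σ : PRep n s (SLC r)) (q : PVar n s r → ℂ) :
    (relDP z σ q).trace = 0 := by
  have hadj : ∀ (g : SLC r) (X : Mat r), (adj g X).trace = X.trace := fun g X => by
    rw [adj_apply, Matrix.trace_mul_comm, ← Matrix.mul_assoc, val_inv_mul, Matrix.one_mul]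
  rw [relDP, Matrix.trace_add, trace_relD, zero_add, hadj, trace_prodD]
  intro j
  rw [pcD, Matrix.trace_sub, hadj, sub_self]

lemma commute_pprod {σ : PRep n s (SLC r)} {Y : Mat r}
    (h : ∀ j, Commute (pc z σ j).val Y) : Commute (pprod z σ).val Y :=
  commute_list_prod _ h

lemma commute_comm_zeroP {σ : PRep n s (SLC r)} (hσ : relP z σ = 1) {Y : Mat r}
    (h : ∀ v, Commute (tgensP z σ v) Y) : Commute (comm σ.1 0).val Y := by
  rw [relP, relator_comm, List.ofFn_succ, List.prod_cons, mul_assoc,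
    mul_eq_one_iff_eq_inv] at hσ
  rw [hσ]
  refine commute_inv_val ?_
  rw [Matrix.SpecialLinearGroup.coe_mul]
  exact (commute_list_prod _ fun i => commute_comm (h (.inl (i, false))) (h (.inl (i, true)))).mul_left
    (commute_pprod fun j => h (.inr j))

lemma gens_rotP (σ : PRep n s (SLC r)) (i : Fin (n + 1)) (b : Bool) :
    gens (rotP z σ).1 (i, b) = if finRotate (n + 1) i = 0 then
      (pprod z σ).val * gens σ.1 (0, b) * (pprod z σ)⁻¹.val
    else gens σ.1 (finRotate (n + 1) i, b) := by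
  show gens (rot (cjHead (pprod z σ) σ.1)) (i, b) = _
  rw [gens_rot]
  dsimp only
  split_ifs with h
  · rw [h]; cases b <;> simp [gens, cjHead, -Matrix.SpecialLinearGroup.coe_inv]
  · cases b <;> simp [gens, cjHead, Function.update_of_ne h, -finRotate_apply]

lemma gensP_rotP_inr (σ : PRep n s (SLC r)) (j : Fin s) :
    gensP z (rotP z σ) (.inr j) = gensP z σ (.inr j) := rfl

lemma triv_of_rotP {σ : PRep n s (SLC r)} (h : Triv (gensP z (rotP z σ))) :
    Triv (gensP z σ) := by
  intro Y hY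
  have hC : Commute (pprod z σ).val Y := commute_pprod fun j => hY (.inr j)
  refine h Y ?_
  rintro (⟨i, b⟩ | j)
  · show Commute (gens (rotP z σ).1 (i, b)) Y
    rw [gens_rotP]
    split_ifs
    · exact ((hC.mul_left (hY (.inl (0, b)))).mul_left (commute_inv_val hC))
    · exact hY (.inl (_, b))
  · exact hY (.inr j)

/-- With two handles: neither commutator of a handle is scalar. -/
def NS2 (σ : PRep n s (SLC r)) : Prop := NonScalar σ.1 ∧ NonScalar (rot σ.1)

lemma comm_cjHead_zero (C : SLC r) (ρ : Handles n (SLC r)) :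
    comm (cjHead C ρ) 0 = C * comm ρ 0 * C⁻¹ := by
  simp only [comm, cjHead, Function.update_self]
  group

lemma nonScalar_of_comm_conj [NeZero r] {ρ ρ' : Handles n (SLC r)} {C : SLC r}
    (hC : comm ρ' 0 = C * comm ρ 0 * C⁻¹) : NonScalar ρ' ↔ NonScalar ρ := by
  refine ⟨fun h c hc => h c ?_, fun h c hc => h c ?_⟩
  · rw [hC, Matrix.SpecialLinearGroup.coe_mul, Matrix.SpecialLinearGroup.coe_mul, hc,
      mul_smul_comm, Matrix.mul_one, smul_mul_assoc, val_mul_inv]
  · have e : comm ρ 0 = C⁻¹ * comm ρ' 0 * C := by rw [hC]; group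
    rw [e, Matrix.SpecialLinearGroup.coe_mul, Matrix.SpecialLinearGroup.coe_mul, hc,
      mul_smul_comm, Matrix.mul_one, smul_mul_assoc, val_inv_mul]

lemma nonScalar_rotP_fst {z : Fin s → SLC r} (σ : PRep 1 s (SLC r)) :
    NonScalar (rotP z σ).1 ↔ NonScalar (rot σ.1) := by
  have h : comm (rotP z σ).1 0 = comm (rot σ.1) 0 := by
    show comm (rot (cjHead (pprod z σ) σ.1)) 0 = _
    simp [comm, rot, cjHead, finRotate_apply]
  simp [NonScalar, h]

lemma ns2_rotP [NeZero r] {z : Fin s → SLC r} (σ : PRep 1 s (SLC r)) :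
    NS2 (rotP z σ) ↔ NS2 σ := by
  have h2 : comm (rot (rotP z σ).1) 0 = comm (cjHead (pprod z σ) σ.1) 0 := by
    show comm (rot (rot (cjHead (pprod z σ) σ.1))) 0 = _
    simp only [comm, rot, Function.comp_apply]
    rw [show finRotate 2 (finRotate 2 0) = 0 by decide]
  rw [comm_cjHead_zero] at h2
  rw [NS2, NS2, nonScalar_rotP_fst, nonScalar_of_comm_conj h2, and_comm]

lemma comm_one_ne {σ : PRep n s (SLC r)} (h : NS2 σ) (c : ℂ) : (comm σ.1 1).val ≠ c • 1 := by
  have e : comm (rot σ.1) 0 = comm σ.1 1 := by simp [comm, rot, finRotate_apply]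
  rw [← e]
  exact h.2 c

/-- The total of the ranks to be maximised. -/
noncomputable def rankTotP (z : Fin s → SLC r) (m : ℕ) (σ : PRep n s (SLC r)) : ℕ :=
  rankL (commL fun _ : Unit => (σ.1.1 0).val) + rankL (commL (tgens σ.1)) +
    rankL (commL (tgens (rotP z σ).1)) + ∑ k ∈ Finset.range (r + 2), rankL (qN (σ.1.1 0).val m k)

lemma rankTotP_le (z : Fin s → SLC r) (m : ℕ) (σ : PRep n s (SLC r)) :
    rankTotP z m σ ≤ Module.finrank ℂ (Unit → Mat r) +
      2 * Module.finrank ℂ (Fin n × Bool → Mat r) + (r + 2) * Module.finrank ℂ (Fin r → ℂ) := by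
  have h : ∀ k ∈ Finset.range (r + 2),
      rankL (qN (σ.1.1 0).val m k) ≤ Module.finrank ℂ (Fin r → ℂ) :=
    fun k _ => Submodule.finrank_le _
  have h1 := Finset.sum_le_card_nsmul _ _ _ h
  rw [Finset.card_range, smul_eq_mul] at h1
  have h2 := Submodule.finrank_le (LinearMap.range (commL fun _ : Unit => (σ.1.1 0).val))
  have h3 := Submodule.finrank_le (LinearMap.range (commL (tgens σ.1)))
  have h4 := Submodule.finrank_le (LinearMap.range (commL (tgens (rotP z σ).1)))
  unfold rankTotP rankL at *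
  omega

/-- Velocities of a matrix with locally maximal spectral ranks are orthogonal to the traceless
part of its centraliser. -/
lemma orth_of_max {A : ℂ → Mat r} {δ : Mat r} (ha' : HasD A δ) {a : Mat r} (hA0 : A 0 = a)
    {Λ : Finset ℂ} {P : ℂ → Mat r} (hS : Spec a Λ P) {p : ℕ} (hp : Λ.card = p)
    (hA : ∀ᶠ s in 𝓝 0, rankL (commL fun _ : Unit => A s) ≤ rankL (commL fun _ : Unit => a))
    (hQ : ∀ k < r + 2, ∀ᶠ s in 𝓝 0, rankL (qN (A s) p k) ≤ rankL (qN a p k)) :
    ∀ Z, Commute a Z → (∀ l ∈ Λ, (Z * P l).trace = 0) → (Z * δ).trace = 0 := by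
  have hdet : (hank a p).det ≠ 0 := hp ▸ hS.det_hank_ne
  have hq : qpoly a p = ∏ l ∈ Λ, (X - C l) := hp ▸ hS.qpoly_eq
  have hPa : ∀ l ∈ Λ, Commute (P l) a := fun l hl => hS.commute hl (Commute.refl a)
  have hcm : ∀ X Y, Commute a X → Commute a Y → ((X * Y - Y * X) * δ).trace = 0 := by
    intro X Y hX hY
    let φ : (Unit → Mat r) →ₗ[ℂ] ℂ :=
      Matrix.traceLinearMap (Fin r) ℂ ℂ ∘ₗ LinearMap.mulLeft ℂ X ∘ₗ LinearMap.proj ()
    have := first_order (M := fun s => commL fun _ : Unit => (A s))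
      (M' := fun u _ => u * δ - δ * u) (commL_deriv fun _ => ha')
      (by simpa only [hA0] using hA) (y := Y)
      (by rw [hA0]; exact commL_eq_zero.2 fun _ => hY) (φ := φ) (fun u => by
        rw [hA0]
        simp only [φ, commL, LinearMap.comp_apply, LinearMap.mulLeft_apply, LinearMap.proj_apply,
          LinearMap.coe_mk, AddHom.coe_mk, Matrix.traceLinearMap_apply, mul_sub, Matrix.trace_sub]
        rw [← Matrix.mul_assoc X a u, ← hX.eq, Matrix.mul_assoc a, Matrix.trace_mul_comm a,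
          Matrix.mul_assoc, sub_self])
    simp only [φ, LinearMap.comp_apply, LinearMap.mulLeft_apply, LinearMap.proj_apply,
      Matrix.traceLinearMap_apply, mul_sub, Matrix.trace_sub] at this
    rw [sub_mul, Matrix.trace_sub, Matrix.mul_assoc, Matrix.mul_assoc Y, Matrix.trace_mul_comm Y,
      Matrix.mul_assoc X δ]
    exact this
  obtain ⟨dN, qd, hN, hNX⟩ := hasD_qpoly ha' (m := p) (by rw [hA0]; exact hdet)
  simp only [hA0] at hNX
  let Γ : Mat r →ₗ[ℂ] ℂ := Matrix.traceLinearMap (Fin r) ℂ ℂ ∘ₗ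
    (LinearMap.mulLeft ℂ (aeval a qd) +
      LinearMap.mulRight ℂ δ ∘ₗ LinearMap.mulLeft ℂ (aeval a (derivative (qpoly a p))))
  have hΓ : ∀ X, Γ X = (aeval a qd * X).trace +
      (aeval a (derivative (qpoly a p)) * X * δ).trace := fun X => by
    simp [Γ, Matrix.trace_add]
  intro Z hZ hZP
  rw [← Matrix.mul_one Z, ← hS.sum, Finset.mul_sum, Finset.sum_mul, Matrix.trace_sum]
  refine Finset.sum_eq_zero fun l hl => ?_
  have hc := hPa l hl
  obtain ⟨g, hg⟩ : X - C l ∣ qpoly a p := hq ▸ Finset.dvd_prod_of_mem _ hl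
  have hq' : (derivative (qpoly a p)).eval l ≠ 0 := by
    obtain ⟨u, w, huw⟩ := (hq ▸ Polynomial.separable_prod_X_sub_C_iff'.2
      (fun x _ y _ h => h) : (qpoly a p).Separable)
    have h0 : (qpoly a p).eval l = 0 := by rw [hg]; simp
    intro h1
    have := congrArg (Polynomial.eval l) huw
    simp [h0, h1] at this
  have hgl : g.eval l ≠ 0 := by
    intro h1; refine hq' ?_; rw [hg]; simp [h1]
  set N := aeval a (qpoly a p) with hNdef
  have hNP : N ^ (r + 1) * P l = 0 := by
    have h := hS.nil l hl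
    have h1 : Commute (a - l • 1) (P l) :=
      hc.symm.sub_left ((Commute.one_left _).smul_left l)
    have h2 : Commute (a - l • 1) (aeval a g) :=
      ((commute_aeval (Commute.refl a) g).symm).sub_left ((Commute.one_left _).smul_left l)
    rw [h1.mul_pow, show P l ^ (r + 1) = P l from
      IsIdempotentElem.pow_succ_eq r (hS.idem hl)] at h
    rw [hNdef, hg, map_mul, show aeval a (X - C l) = a - l • 1 by
      simp [Algebra.algebraMap_eq_smul_one], h2.mul_pow, Matrix.mul_assoc,
      ((commute_aeval hc.symm g).pow_left _).eq, ← Matrix.mul_assoc, h, Matrix.zero_mul]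
  have hNa : ∀ Y, Commute N Y → P l * Y * P l = Y → Commute a Y := by
    intro Y hY hPY
    obtain ⟨h, u, hu⟩ := exists_comp_eq _ g l hg hgl (r + 1)
    have e : a * P l = aeval N h * P l := by
      conv_lhs => rw [show a = aeval a (X : ℂ[X]) from (aeval_X a).symm, hu]
      rw [map_add, add_mul, aeval_comp, map_mul, Matrix.mul_assoc, (commute_aeval hc.symm u).eq,
        ← Matrix.mul_assoc, map_pow, show aeval a (X - C l) = a - l • 1 by
          simp [Algebra.algebraMap_eq_smul_one]]
      have h1 : Commute (a - l • 1) (P l) :=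
        hc.symm.sub_left ((Commute.one_left _).smul_left l)
      have hn := hS.nil l hl
      rw [h1.mul_pow, IsIdempotentElem.pow_succ_eq r (hS.idem hl)] at hn
      rw [hn, Matrix.zero_mul, add_zero, hNdef]
    have hl1 : P l * Y = Y := by rw [← hPY, ← Matrix.mul_assoc, ← Matrix.mul_assoc, hS.idem hl]
    have hl2 : Y * P l = Y := by rw [← hPY, Matrix.mul_assoc, hS.idem hl]
    show a * Y = Y * a
    calc a * Y = aeval N h * Y := by
          conv_lhs => rw [← hl1, ← Matrix.mul_assoc, e, Matrix.mul_assoc, hl1]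
      _ = Y * aeval N h * P l := by rw [← (commute_aeval hY h).eq, Matrix.mul_assoc, hl2]
      _ = Y * (a * P l) := by rw [e, Matrix.mul_assoc]
      _ = Y * a := by rw [← hc.eq, ← Matrix.mul_assoc, hl2]
  have hΓ0 : ∀ Y, Commute a Y → P l * Y * P l = Y → Γ Y = 0 := fun Y hY hPY => by
    refine centraliser_functional N (P l) (hS.idem hl) (commute_aeval hc.symm _) hNP Γ ?_ ?_ Y
      (commute_aeval hY _) hPY
    · intro U W hU hW hPU hPW
      have hUa := hNa U hU hPU
      have hWa := hNa W hW hPW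
      have hq1 : Commute (aeval a (derivative (qpoly a p))) U := commute_aeval hUa _
      have hq2 : Commute (aeval a (derivative (qpoly a p))) W := commute_aeval hWa _
      rw [hΓ, mul_sub (aeval a qd), Matrix.trace_sub, ← Matrix.mul_assoc,
        (commute_aeval hUa qd).eq, Matrix.mul_assoc, Matrix.trace_mul_comm U, Matrix.mul_assoc,
        sub_self, zero_add]
      have h := hcm (aeval a (derivative (qpoly a p)) * U) W
        ((commute_aeval (Commute.refl a) _).symm.mul_right hUa) hWa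
      rw [← Matrix.mul_assoc W, ← hq2.eq, Matrix.mul_assoc _ W U,
        Matrix.mul_assoc _ U W, ← mul_sub] at h
      exact h
    · intro k v w hk hv hw hPv hwP
      obtain ⟨dk, hdk, hdkM⟩ := hasD_pow_block hN k
      simp only [hA0, ← hNdef] at hdkM
      let φ : (Fin r → ℂ) →ₗ[ℂ] ℂ := dotProductBilin ℂ ℂ w
      have h := first_order (M := fun s => qN (A s) p k) (M' := fun u => dk *ᵥ u)
        (fun u φ => by
          simp only [qN, Matrix.mulVecLin_apply]
          rw [funext fun s : ℂ =>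
            lin_sum φ ((aeval (A s) (qpoly (A s) p) ^ k) *ᵥ u),
            lin_sum φ (dk *ᵥ u)]
          simp only [Matrix.mulVec, dotProduct]
          exact HasDerivAt.fun_sum fun i _ => (HasDerivAt.fun_sum fun j _ =>
            (hdk i j).mul_const _).mul_const _)
        (by simpa only [hA0] using hQ k (by omega)) (y := v)
        (by simpa only [hA0, qN, Matrix.mulVecLin_apply, ← hNdef] using hv) (φ := φ)
        (fun u => by
          simp only [φ, hA0, qN, Matrix.mulVecLin_apply, ← hNdef]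
          change w ⬝ᵥ (N ^ k *ᵥ u) = 0
          rw [Matrix.dotProduct_mulVec, hw, zero_dotProduct])
      have hTN : Commute N (blockT N k (vecMulVec v w)) := blockT_comm N
        (by rw [Matrix.mul_vecMulVec, hv, Matrix.zero_vecMulVec])
        (by rw [Matrix.vecMulVec_mul, hw, Matrix.vecMulVec_zero])
      have hPN : ∀ j, Commute (P l) (N ^ j) := fun j => ((commute_aeval hc.symm _).pow_left j).symm
      have hTP : P l * blockT N k (vecMulVec v w) * P l = blockT N k (vecMulVec v w) := by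
        simp only [blockT, Finset.mul_sum, Finset.sum_mul]
        refine Finset.sum_congr rfl fun i _ => ?_
        rw [← Matrix.mul_assoc (P l), ← Matrix.mul_assoc (P l), (hPN i).eq,
          Matrix.mul_assoc _ (N ^ (k - 1 - i)) (P l), ← (hPN (k - 1 - i)).eq, ← Matrix.mul_assoc,
          Matrix.mul_assoc (N ^ i) (P l), Matrix.mul_vecMulVec, hPv,
          Matrix.mul_assoc (N ^ i) _ (P l), Matrix.vecMulVec_mul, hwP]
      rw [hΓ, ← hNX _ (hNa _ hTN hTP), ← hdkM, Matrix.mul_vecMulVec, Matrix.trace_vecMulVec,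
        dotProduct_comm]
      exact h
  obtain ⟨u, w, huw⟩ : IsCoprime ((X - C l) ^ (r + 1)) (derivative (qpoly a p)) :=
    (((Polynomial.irreducible_X_sub_C l).coprime_iff_not_dvd).2 fun h =>
      hq' (Polynomial.dvd_iff_isRoot.1 h)).pow_left
  have hZl : Commute a (Z * P l) := hZ.mul_right hc.symm
  have hw1 : aeval a (derivative (qpoly a p)) * aeval a w * P l = P l := by
    have h := congrArg (fun f : ℂ[X] => aeval a f * P l) huw
    simp only [map_add, map_mul, map_one, Matrix.one_mul, add_mul] at h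
    rw [Matrix.mul_assoc (aeval a u), map_pow, show aeval a (X - C l) = a - l • 1 by
      simp [Algebra.algebraMap_eq_smul_one]] at h
    have h1 : Commute (a - l • 1) (P l) :=
      hc.symm.sub_left ((Commute.one_left _).smul_left l)
    have hn := hS.nil l hl
    rw [h1.mul_pow, IsIdempotentElem.pow_succ_eq r (hS.idem hl)] at hn
    rw [hn, Matrix.mul_zero, zero_add, (commute_aeval (commute_aeval (Commute.refl a) w).symm
      (derivative (qpoly a p))).symm.eq] at h
    exact h
  have hz := hΓ0 (aeval a w * (Z * P l)) ((commute_aeval (Commute.refl a) w).symm.mul_right hZl)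
    (by
      have hl1 : P l * Z = Z * P l := (hS.commute hl hZ).eq
      rw [← Matrix.mul_assoc (P l), ← (commute_aeval hc.symm w).eq,
        Matrix.mul_assoc (aeval a w) (P l), ← Matrix.mul_assoc (P l) Z, hl1,
        Matrix.mul_assoc Z (P l) (P l), hS.idem hl, Matrix.mul_assoc,
        Matrix.mul_assoc Z (P l) (P l), hS.idem hl])
  rw [hΓ, ← Matrix.mul_assoc (aeval a qd) (aeval a w), ← map_mul, hS.trace_block hl hZ,
    hZP l hl, mul_zero, zero_add] at hz
  rw [← Matrix.mul_assoc (aeval a (derivative (qpoly a p))) (aeval a w),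
    ← (hS.commute hl hZ).eq, ← Matrix.mul_assoc _ (P l) Z, hw1, (hS.commute hl hZ).eq] at hz
  exact hz

lemma exists_triv_rotP [NeZero r] (hn : 1 ≤ n) {σ₀ : PRep n s (SLC r)} (hσ₀ : relP z σ₀ = 1)
    (hF₀ : Full (gensP z σ₀)) (hNS₀ : 2 ≤ n ∨ NS2 σ₀) {ε : ℝ} (hε : 0 < ε) :
    ∃ σ : PRep n s (SLC r), relP z σ = 1 ∧ dist (coordP (rotP z σ)) (coordP σ₀) < ε ∧
      Triv (tgensP z (rotP z σ)) := by
  classical
  let V : Set (PRep n s (SLC r)) := {σ | relP z σ = 1 ∧
    dist (coordP (rotP z σ)) (coordP σ₀) < ε ∧ Full (gensP z (rotP z σ)) ∧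
    (2 ≤ n ∨ NS2 (rotP z σ))}
  have hb : BddAbove ((fun σ : PRep n s (SLC r) => pA (σ.1.1 0).val) '' V) :=
    ⟨r, by rintro _ ⟨σ, -, rfl⟩; exact Nat.findGreatest_le r⟩
  obtain ⟨σ₁, hσ₁, hp₁⟩ := Nat.sSup_mem
    (Set.Nonempty.image (fun σ : PRep n s (SLC r) => pA (σ.1.1 0).val)
      ⟨rotPInv z σ₀, show rotPInv z σ₀ ∈ V from ⟨relP_rotPInv hσ₀,
        by rw [rotP_rotPInv]; simpa using hε, by rwa [rotP_rotPInv],
          by rwa [rotP_rotPInv]⟩⟩) hb
  simp only at hp₁
  set p := sSup ((fun σ : PRep n s (SLC r) => pA (σ.1.1 0).val) '' V)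
  let V₁ : Set (PRep n s (SLC r)) := {σ | σ ∈ V ∧ (hank (σ.1.1 0).val p).det ≠ 0}
  have hV₁p : ∀ σ ∈ V₁, pA (σ.1.1 0).val = p := by
    rintro σ ⟨hσ, hd⟩
    refine le_antisymm (le_csSup hb ⟨σ, hσ, rfl⟩) (Nat.le_findGreatest ?_ hd)
    rw [← hp₁]; exact Nat.findGreatest_le r
  have hσ₁V : σ₁ ∈ V₁ := by
    refine ⟨hσ₁, ?_⟩
    obtain ⟨Λ, P, hS⟩ := exists_spec (σ₁.1.1 0).val
    rw [← hp₁, hS.card_eq]; exact hS.det_hank_ne
  have hb' : BddAbove (rankTotP z p '' V₁) :=
    ⟨_, by rintro _ ⟨σ, -, rfl⟩; exact rankTotP_le z p σ⟩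
  obtain ⟨σ, hσV, hmax⟩ := Nat.sSup_mem (Set.Nonempty.image (rankTotP z p) ⟨σ₁, hσ₁V⟩) hb'
  obtain ⟨⟨hσ, hdist, hFull, hNSr⟩, hdet⟩ := hσV
  refine ⟨σ, hσ, hdist, ?_⟩
  have hTr := hFull.triv
  have hT : Triv (gensP z σ) := triv_of_rotP hTr
  have hσr : relP z (rotP z σ) = 1 := relP_rotP hσ
  set a := (σ.1.1 0).val with ha
  -- curves stay in the set and have no larger ranks
  have hev : ∀ γ : ℂ → PRep n s (SLC r), γ 0 = σ → (∀ᶠ s in 𝓝 0, relP z (γ s) = 1) →
      DifferentiableAt ℂ (fun s => coordP (γ s)) 0 →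
      (∀ᶠ s in 𝓝 0, rankL (commL fun _ : Unit => ((γ s).1.1 0).val) ≤
          rankL (commL fun _ : Unit => a)) ∧
      (∀ᶠ s in 𝓝 0, rankL (commL (tgens (γ s).1)) ≤ rankL (commL (tgens σ.1))) ∧
      (∀ᶠ s in 𝓝 0, rankL (commL (tgens (rotP z (γ s)).1)) ≤
          rankL (commL (tgens (rotP z σ).1))) ∧
      ∀ k < r + 2, ∀ᶠ s in 𝓝 0, rankL (qN ((γ s).1.1 0).val p k) ≤ rankL (qN a p k) := by
    intro γ hγ0 hγ hγc
    have hγr := differentiable_rotP (z := z) hγc
    obtain ⟨δ, ha'⟩ := exists_hasD_goodP (allP_id.1 0).1 hγc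
    have h1 : ∀ᶠ s in 𝓝 0, γ s ∈ V₁ := by
      have e1 : ∀ᶠ s in 𝓝 0, dist (coordP (rotP z (γ s))) (coordP σ₀) < ε :=
        (hγr.continuousAt.dist continuousAt_const).eventually_lt_const (by simpa [hγ0] using hdist)
      have e2 : ∀ᶠ s in 𝓝 0, (hank ((γ s).1.1 0).val p).det ≠ 0 :=
        (differentiableAt_det fun i j => differentiable_hank ha' _).continuousAt.eventually_ne
          (by rw [hγ0]; exact hdet)
      have e3 : ∀ᶠ s in 𝓝 0, Full (gensP z (rotP z (γ s))) :=
        full_open (contM_gensP hγr) (by rw [hγ0]; exact hFull)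
      have e4 : ∀ᶠ s in 𝓝 0, 2 ≤ n ∨ NS2 (rotP z (γ s)) := by
        rcases hNSr with h | h
        · exact Eventually.of_forall fun _ => Or.inl h
        · have h' : NS2 (rotP z (γ 0)) := by rw [hγ0]; exact h
          filter_upwards [nonScalar_open (γ := fun s => (rotP z (γ s)).1) (contM_gens hγr) h'.1,
            nonScalar_open (γ := fun s => rot (rotP z (γ s)).1)
              (fun v => contM_gens hγr (finRotate (n + 1) v.1, v.2)) h'.2] with s a b
            using Or.inr ⟨a, b⟩
      filter_upwards [hγ, e1, e2, e3, e4] with s a b c d e using ⟨⟨a, b, d, e⟩, c⟩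
    have h2 : ∀ᶠ s in 𝓝 0, rankTotP z p (γ s) ≤ rankTotP z p σ := h1.mono fun s hs =>
      hmax ▸ le_csSup hb' ⟨_, hs, rfl⟩
    have l1 := rank_lsc (M := fun s => commL fun _ : Unit => ((γ s).1.1 0).val) (x₀ := 0)
      (commL_cont fun _ => ha'.contM)
    have l2 := rank_lsc (M := fun s => commL (tgens (γ s).1)) (x₀ := 0)
      (commL_cont fun v => contM_gens hγc (v.1.succ, v.2))
    have l3 := rank_lsc (M := fun s => commL (tgens (rotP z (γ s)).1)) (x₀ := 0)
      (commL_cont fun v => contM_gens hγr (v.1.succ, v.2))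
    have l4 : ∀ k, ∀ᶠ s in 𝓝 0, rankL (qN a p k) ≤ rankL (qN ((γ s).1.1 0).val p k) := fun k => by
      obtain ⟨dN, qd, hN, -⟩ := hasD_qpoly ha' (m := p) (by rw [hγ0]; exact hdet)
      obtain ⟨dk, hk, -⟩ := hasD_pow_block hN k
      have := rank_lsc (M := fun s => qN ((γ s).1.1 0).val p k) (x₀ := 0) fun u φ => by
        simp only [qN, Matrix.mulVecLin_apply]
        rw [funext fun s : ℂ =>
          lin_sum φ ((aeval ((γ s).1.1 0).val (qpoly ((γ s).1.1 0).val p) ^ k) *ᵥ u)]
        simp only [Matrix.mulVec, dotProduct]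
        exact tendsto_finsetSum _ fun i _ => (tendsto_finsetSum _ fun j _ =>
          (hk i j).continuousAt.tendsto.mul tendsto_const_nhds).mul tendsto_const_nhds
      simpa only [hγ0] using this
    simp only [hγ0, ← ha] at l1 l2 l3
    have l4' : ∀ᶠ s in 𝓝 0, ∀ k ∈ Finset.range (r + 2),
        rankL (qN a p k) ≤ rankL (qN ((γ s).1.1 0).val p k) :=
      (Finset.eventually_all _).2 fun k _ => l4 k
    have main := h2.and (l1.and (l2.and (l3.and l4')))
    refine ⟨?_, ?_, ?_, fun k hk => ?_⟩ <;> filter_upwards [main] with s hs <;>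
      obtain ⟨t, t1, t2, t3, t4⟩ := hs <;> unfold rankTotP at t <;> rw [← ha] at t <;>
      have t5 := Finset.sum_le_sum t4
    · omega
    · omega
    · omega
    · by_contra hlt
      have := Finset.sum_lt_sum t4 ⟨k, Finset.mem_range.2 hk, not_le.1 hlt⟩
      omega
  -- first-order properties
  have hFO : FirstOrd σ.1 := fun τ hτ e he φ hφ => by
    obtain ⟨γ, hγ0, hγ, hγc, hγd⟩ := exists_curvePd hσ hT (q := Sum.elim τ 0)
      ((relDP_handle σ τ).trans hτ)
    obtain ⟨-, h, -, -⟩ := hev γ hγ0 hγ hγc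
    exact first_order (M := fun s => commL (tgens (γ s).1))
      (M' := fun u v => u * (tgens σ.1 v * tl (matOf τ (v.1.succ, v.2))) -
        tgens σ.1 v * tl (matOf τ (v.1.succ, v.2)) * u)
      (commL_deriv fun v => hγd _) (by simpa only [hγ0] using h)
      (by rw [hγ0]; exact commL_eq_zero.2 he) (by simpa only [hγ0] using hφ)
  have hFOr : FirstOrd (rotP z σ).1 := fun τ hτ e he φ hφ => by
    obtain ⟨γ, hγ0, hγ, hγc, hγd⟩ := exists_curvePd hσr hTr (q := Sum.elim τ 0)
      ((relDP_handle (rotP z σ) τ).trans hτ)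
    obtain ⟨-, -, h, -⟩ := hev (fun s => rotPInv z (γ s)) (by simp only [hγ0, rotPInv_rotP])
      (hγ.mono fun s hs => relP_rotPInv hs) (differentiable_rotPInv hγc)
    simp only [rotP_rotPInv] at h
    exact first_order (M := fun s => commL (tgens (γ s).1))
      (M' := fun u v => u * (tgens (rotP z σ).1 v * tl (matOf τ (v.1.succ, v.2))) -
        tgens (rotP z σ).1 v * tl (matOf τ (v.1.succ, v.2)) * u)
      (commL_deriv fun v => hγd _) (by simpa only [hγ0] using h)
      (by rw [hγ0]; exact commL_eq_zero.2 he) (by simpa only [hγ0] using hφ)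
  obtain ⟨Λ, P, hS⟩ := exists_spec a
  have hp : Λ.card = p := by rw [← hS.card_eq]; exact hV₁p σ ⟨⟨hσ, hdist, hFull, hNSr⟩, hdet⟩
  have hPa : ∀ l ∈ Λ, Commute (P l) a := fun l hl => hS.commute hl (Commute.refl a)
  -- variations of the first generator are orthogonal to the traceless centraliser
  have hmain : ∀ q, relDP z σ q = 0 → ∀ Z, Commute a Z → (∀ l ∈ Λ, (Z * P l).trace = 0) →
      (Z * (a * tl (matOf (matH q) (0, false)))).trace = 0 := by
    intro q hq
    obtain ⟨γ, hγ0, hγ, hγc, hγd⟩ := exists_curvePd hσ hT hq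
    obtain ⟨hA, -, -, hQ⟩ := hev γ hγ0 hγ hγc
    exact orth_of_max (A := fun s => ((γ s).1.1 0).val)
      (by simpa only [gens_zero, ← ha] using hγd (0, false))
      (by simp only [hγ0]; rfl) hS hp hA hQ
  -- the centraliser of the first generator and the last handles
  let D₀ : Submodule ℂ (Mat r) :=
    { carrier := {Z | Commute a Z ∧ ∀ l ∈ Λ, (Z * P l).trace = 0}
      zero_mem' := ⟨Commute.zero_right a, fun l _ => by simp⟩
      add_mem' := fun h h' => ⟨h.1.add_right h'.1, fun l hl => by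
        rw [add_mul, Matrix.trace_add, h.2 l hl, h'.2 l hl, add_zero]⟩
      smul_mem' := fun c Z h => ⟨h.1.smul_right c, fun l hl => by
        rw [smul_mul_assoc, Matrix.trace_smul, h.2 l hl, smul_zero]⟩ }
  let R : Submodule ℂ (Mat r) :=
    { carrier := {Y | Commute a Y ∧ (∀ v, Commute (tgensP z σ v) Y) ∧ Y.trace = 0}
      zero_mem' := ⟨Commute.zero_right a, fun v => Commute.zero_right _, Matrix.trace_zero _ _⟩
      add_mem' := fun h h' => ⟨h.1.add_right h'.1, fun v => (h.2.1 v).add_right (h'.2.1 v), by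
        rw [Matrix.trace_add, h.2.2, h'.2.2, add_zero]⟩
      smul_mem' := fun c Y h => ⟨h.1.smul_right c, fun v => (h.2.1 v).smul_right c, by
        rw [Matrix.trace_smul, h.2.2, smul_zero]⟩ }
  have hlocal : ∀ (σ' : PRep n s (SLC r)), relP z σ' = 1 → (2 ≤ n ∨ NS2 σ') →
      FirstOrd σ'.1 → ∀ Y : Mat r,
      (∀ v, Commute (tgensP z σ' v) Y) → ∃ l : ℂ, (Y - l • 1) ^ (r + 1) = 0 := by
    intro σ' hσ' hNS' hFO' Y hY
    obtain ⟨ΛY, PY, hSY⟩ := exists_spec Y
    obtain ⟨l, hl⟩ : ΛY.Nonempty := Finset.nonempty_iff_ne_empty.2 fun h => by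
      have := hSY.sum; rw [h, Finset.sum_empty] at this; exact zero_ne_one this
    refine ⟨l, ?_⟩
    have hPY : ∀ v, Commute (tgensP z σ' v) (PY l) := fun v => (hSY.commute hl (hY v).symm).symm
    rcases no_idem_of hn (hNS'.imp_right fun h c => comm_one_ne h c) hFO' (hSY.idem hl) (fun v => hPY (.inl v))
      (commute_comm_zeroP hσ' hPY) with h | h
    · exact absurd h (hSY.ne l hl)
    · simpa [h] using hSY.nil l hl
  have hNS : 2 ≤ n ∨ NS2 σ := by
    rcases hNSr with h | h
    · exact Or.inl h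
    · obtain rfl | h2 : n = 1 ∨ 2 ≤ n := by omega
      · exact Or.inr ((ns2_rotP σ).1 h)
      · exact Or.inl h2
  have hnil : ∀ Y ∈ R, IsNilpotent Y := fun Y hY => by
    obtain ⟨l, hl⟩ := hlocal σ hσ hNS hFO Y hY.2.1
    have h0 := trace_nilpotent ⟨_, hl⟩
    rw [Matrix.trace_sub, hY.2.2, Matrix.trace_smul, Matrix.trace_one, zero_sub, neg_eq_zero,
      smul_eq_zero] at h0
    rw [h0.resolve_right (by simp [NeZero.ne r]), zero_smul, sub_zero] at hl
    exact ⟨_, hl⟩
  have hmul : ∀ Y ∈ R, ∀ W ∈ R, Y * W ∈ R := fun Y hY W hW => by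
    refine ⟨hY.1.mul_right hW.1, fun v => (hY.2.1 v).mul_right (hW.2.1 v), ?_⟩
    obtain ⟨l, hl⟩ := hlocal σ hσ hNS hFO (Y * W) fun v => (hY.2.1 v).mul_right (hW.2.1 v)
    rcases eq_or_ne l 0 with rfl | hl0
    · exact trace_nilpotent ⟨_, by simpa using hl⟩
    · exfalso
      have hu : IsUnit (Y * W) := by
        have : IsUnit (l • (1 : Mat r) + (Y * W - l • 1)) :=
          IsNilpotent.isUnit_add_left_of_commute ⟨_, hl⟩
            (Units.isUnit (Units.mk0 l hl0) |>.map (Matrix.scalar (Fin r)) |> fun h => by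
              simpa [Matrix.scalar_apply, Matrix.smul_one_eq_diagonal] using h)
            ((Commute.one_right _).smul_right l)
        simpa using this
      obtain ⟨k, hk⟩ := hnil Y hY
      have hdY : Y.det ^ k = 0 := by rw [← Matrix.det_pow, hk, Matrix.det_zero]
      have := (Matrix.isUnit_iff_isUnit_det _).1 hu
      rw [Matrix.det_mul, eq_zero_of_pow_eq_zero hdY, zero_mul] at this
      exact not_isUnit_zero this
  have hRD : R ≤ D₀ := fun Y hY => ⟨hY.1, fun l hl =>
    trace_nilpotent ((show Commute Y (P l) from (hS.commute hl hY.1).symm).isNilpotent_mul_right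
      (hnil Y hY))⟩
  let ψ : R →ₗ[ℂ] Mat r :=
    R.subtype - (LinearMap.mulLeft ℂ (σ.1.2 0)⁻¹.val ∘ₗ LinearMap.mulRight ℂ (σ.1.2 0).val) ∘ₗ R.subtype
  have hψ : ∀ Y : R, ψ Y = Y - (σ.1.2 0)⁻¹.val * Y * (σ.1.2 0).val := fun Y => by
    simp [ψ, Matrix.mul_assoc]
  have hsur : D₀ ≤ LinearMap.range ψ := by
    rintro Z ⟨hZ, hZP⟩
    have ha0 : ∀ l ∈ Λ, l ≠ 0 := by
      rintro l hl rfl
      have h := hS.nil 0 hl
      rw [zero_smul, sub_zero, (hPa 0 hl).symm.mul_pow,
        IsIdempotentElem.pow_succ_eq r (hS.idem hl)] at h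
      refine hS.ne 0 hl ?_
      have := congrArg (((σ.1.1 0)⁻¹.val) ^ (r + 1) * ·) h
      simpa [← Matrix.mul_assoc, ← Matrix.SpecialLinearGroup.coe_pow,
        ← Matrix.SpecialLinearGroup.coe_mul, ha, -Matrix.SpecialLinearGroup.coe_inv] using this
    let φ : (PVar n s r → ℂ) →ₗ[ℂ] ℂ :=
      { toFun := fun τ => (Z * tl (matOf (matH τ) (0, false))).trace
        map_add' := fun τ τ' => by
          rw [show matOf (matH (τ + τ')) ((0 : Fin (n + 1)), false) =
            matOf (matH τ) (0, false) + matOf (matH τ') (0, false) from rfl]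
          simp [tl, add_div, add_smul, mul_add, mul_sub]
          abel
        map_smul' := fun c τ => by
          rw [show matOf (matH (c • τ)) ((0 : Fin (n + 1)), false) =
            c • matOf (matH τ) (0, false) from rfl, tl_smul]
          simp }
    have hφ : ∀ τ, relDP z σ τ = 0 → φ τ = 0 := fun τ hτ => by
      have h := hmain τ hτ (Z * (σ.1.1 0)⁻¹.val) (hZ.mul_right (commute_inv_val (Commute.refl _)).symm)
        fun l hl => by
          have h1 := hS.trace_block hl (Z := Z * (σ.1.1 0)⁻¹.val)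
            (hZ.mul_right (commute_inv_val (Commute.refl _)).symm) Polynomial.X
          rw [aeval_X, eval_X, ← Matrix.mul_assoc a, ← Matrix.mul_assoc a, hZ.eq,
            Matrix.mul_assoc Z a, ha, val_mul_inv, Matrix.mul_one, hZP l hl, zero_eq_mul] at h1
          exact h1.resolve_left (ha0 l hl)
      rwa [Matrix.mul_assoc, ← Matrix.mul_assoc _ a, ha, val_inv_mul, Matrix.one_mul] at h
    let G : (PVar n s r → ℂ) →ₗ[ℂ] (Idx r → ℂ) := fderiv ℂ (relMapP z σ) 0
    have hker : φ ∈ (LinearMap.ker G).dualAnnihilator := by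
      rw [Submodule.mem_dualAnnihilator]
      intro τ hτ
      refine hφ τ ?_
      have h := LinearMap.mem_ker.1 hτ
      change fderiv ℂ (relMapP z σ) 0 τ = 0 at h
      rw [fderiv_relMapP hσ] at h
      refine Matrix.ext fun i j => ?_
      by_cases hij : (i, j) = (0, 0)
      · obtain ⟨rfl, rfl⟩ := Prod.mk.injEq .. ▸ hij
        have htr : (relDP z σ τ).trace = 0 := trace_relDP σ τ
        rw [Matrix.trace, Finset.sum_eq_single 0 (fun k _ hk => by
          have := congrFun h ⟨(k, k), fun e => hk (congrArg Prod.fst e)⟩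
          simpa using this) (by simp)] at htr
        simpa using htr
      · simpa using congrFun h ⟨(i, j), hij⟩
    rw [← LinearMap.range_dualMap_eq_dualAnnihilator_ker] at hker
    obtain ⟨ψ', hψ'⟩ := hker
    obtain ⟨Y, -, hY⟩ := exists_trace_rep ψ'
    have hpair : ∀ τ, (Y * relDP z σ τ).trace =
        (Z * tl (matOf (matH τ) (0, false))).trace := fun τ => by
      rw [← hY, ← fderiv_relMapP hσ τ]
      exact LinearMap.congr_fun hψ' τ
    have htail := commute_of_relDP_tail (z := z) σ (Y := Y) fun τ hτ => by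
      rw [hpair, show matOf (matH τ) ((0 : Fin (n + 1)), false) = 0 from
        Matrix.ext fun i j => hτ _ (i, j)]
      simp [tl]
    set C₀ := comm σ.1 0 with hC₀
    have hC : Commute C₀.val (C₀⁻¹.val * Y * C₀.val) := commute_comm_zeroP hσ htail
    have hY' : C₀⁻¹.val * Y * C₀.val = Y := by
      have := fix_of_commute hC
      have e := congrArg (fun W => C₀.val * W * C₀⁻¹.val) this
      simp only [← Matrix.mul_assoc, val_mul_inv, Matrix.one_mul] at e
      simp only [Matrix.mul_assoc, val_mul_inv, Matrix.mul_one] at e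
      simp only [Matrix.mul_assoc]
      exact e
    rw [hY'] at htail
    set a₀ := σ.1.1 0
    set b₀ := σ.1.2 0
    have hzt : Z.trace = 0 := by
      rw [← Matrix.mul_one Z, ← hS.sum, Finset.mul_sum, Matrix.trace_sum]
      exact Finset.sum_eq_zero hZP
    have hslot : ∀ α β : Mat r, α.trace = 0 → β.trace = 0 →
        (Y * pairD a₀ b₀ α β).trace = (Z * α).trace := by
      intro α β hα hβ
      let τ : Var n r → ℂ := fun v => Fin.cases (motive := fun _ => ℂ)
        (if v.1.2 then β v.2.1 v.2.2 else α v.2.1 v.2.2) (fun _ => 0) v.1.1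
      have e0 : matOf τ (0, false) = α := by ext; simp [matOf, τ]
      have e1 : matOf τ (0, true) = β := by ext; simp [matOf, τ]
      have e2 : ∀ (i : Fin n) b, matOf τ (i.succ, b) = 0 := fun i b => by ext; simp [matOf, τ]
      have h := hpair (Sum.elim τ 0)
      rw [show matH (Sum.elim τ 0 : PVar n s r → ℂ) = τ from rfl, e0, tl_of_trace hα,
        relDP_handle] at h
      rw [← h]
      simp only [relD, prodD, e0, e1, e2, tl_of_trace hα, tl_of_trace hβ,
        tl_of_trace (Matrix.trace_zero (Fin r) ℂ)]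
      simp only [pairD, map_zero, add_zero, sub_zero]
      rw [show (fun _ : Fin n => (0 : Mat r)) = (0 : ℂ) • (0 : Fin n → Mat r) by simp; rfl,
        prodD_smul, zero_smul, map_zero, add_zero]
    set u := (a₀ * b₀)⁻¹.val * Y * (a₀ * b₀).val with hu
    have hua : Commute a₀.val u := by
      have h2 : u = (a₀⁻¹)⁻¹.val * u * a₀⁻¹.val :=
        eq_of_trace_pair (trace_conj_eq a₀⁻¹ u).symm fun β hβ => by
          have := hslot 0 β (Matrix.trace_zero _ _) hβ
          rwa [trace_pairD, conj_conj (a₀ * b₀) a₀⁻¹, ← hu, mul_zero, mul_zero, Matrix.trace_zero,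
            zero_add, sub_mul, Matrix.trace_sub, sub_eq_zero] at this
      rw [inv_inv] at h2
      show a₀.val * u = u * a₀.val
      conv_rhs => rw [h2]
      rw [Matrix.mul_assoc, val_inv_mul, Matrix.mul_one]
    set v := a₀⁻¹.val * Y * a₀.val with hv
    have hub : u = b₀⁻¹.val * v * b₀.val := conj_conj a₀ b₀ Y
    have hZv : Z = v - u := eq_of_trace_pair
      (by rw [Matrix.trace_sub, hv, hu, trace_conj_eq, trace_conj_eq, sub_self, hzt])
      fun α hα => by
        have := hslot α 0 hα (Matrix.trace_zero _ _)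
        rw [trace_pairD, ← hu, ← hv, mul_zero, Matrix.trace_zero, add_zero] at this
        exact this.symm
    have hab : a₀ * b₀ = C₀ * (b₀ * a₀) := by simp [hC₀, comm, a₀, b₀, mul_assoc]
    have hu' : u = a₀⁻¹.val * (b₀⁻¹.val * Y * b₀.val) * a₀.val := by
      rw [hu, hab, conj_conj, hY', conj_conj]
    have huY : b₀⁻¹.val * Y * b₀.val = u := by
      have h := fix_of_commute hua
      have c1 : ∀ W : Mat r, a₀.val * (a₀⁻¹.val * W * a₀.val) * a₀⁻¹.val = W := fun W => by
        simp only [← Matrix.mul_assoc, val_mul_inv, Matrix.one_mul]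
        rw [Matrix.mul_assoc, val_mul_inv, Matrix.mul_one]
      have := congrArg (fun W => a₀.val * W * a₀⁻¹.val) (hu'.symm.trans h.symm)
      simp only [c1] at this
      exact this
    have hvY : v = Y := by
      have h := hub.symm.trans huY.symm
      have := congrArg (fun W => b₀.val * W * b₀⁻¹.val) h
      simp only [← Matrix.mul_assoc, val_mul_inv, Matrix.one_mul] at this
      simp only [Matrix.mul_assoc, val_mul_inv, Matrix.mul_one] at this
      exact this
    have hYa : Commute a Y := adj_fix hvY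
    refine ⟨⟨tl Y, (show Commute a (tl Y) from hYa.sub_right ((Commute.one_right a).smul_right _)),
      fun w => (htail w).sub_right ((Commute.one_right _).smul_right _),
      trace_tl (NeZero.ne r) Y⟩, ?_⟩
    rw [hψ, hZv, hvY, ← huY]
    simp only [tl, mul_sub, sub_mul, mul_smul_comm, smul_mul_assoc, Matrix.mul_one, val_inv_mul]
    abel
  have hdim : LinearMap.range ψ = D₀ ∧ R = D₀ := by
    have h1 := Submodule.finrank_mono hsur
    have h2 := LinearMap.finrank_range_le ψ
    exact ⟨(Submodule.eq_of_le_of_finrank_le hsur (h2.trans (Submodule.finrank_mono hRD))).symm,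
      Submodule.eq_of_le_of_finrank_le hRD (h1.trans h2)⟩
  obtain ⟨v, hv0, hv⟩ := exists_common_kernel (Nat.pos_of_ne_zero (NeZero.ne r)) R hnil hmul
  let K : Submodule ℂ (Fin r → ℂ) :=
    { carrier := {v | ∀ Y ∈ R, Y *ᵥ v = 0}
      zero_mem' := fun Y _ => Matrix.mulVec_zero Y
      add_mem' := fun h h' Y hY => by rw [Matrix.mulVec_add, h Y hY, h' Y hY, add_zero]
      smul_mem' := fun c v h Y hY => by rw [Matrix.mulVec_smul, h Y hY, smul_zero] }
  have hfix : ∀ A : Mat r, (∀ Y ∈ R, Commute A Y) → ∀ w ∈ K, A *ᵥ w ∈ K := fun A hA w hw Y hY => by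
    rw [Matrix.mulVec_mulVec, ← (hA Y hY).eq, ← Matrix.mulVec_mulVec, hw Y hY, Matrix.mulVec_zero]
  have hK : ∀ g, ∀ w ∈ K, gensP z σ g *ᵥ w ∈ K := by
    rintro (⟨i, b⟩ | j) w hw
    · induction i using Fin.cases with
      | succ i => exact hfix _ (fun Y hY => hY.2.1 (.inl (i, b))) w hw
      | zero =>
        cases b
        · refine hfix _ (fun Y hY => ?_) w hw
          show Commute (gens σ.1 (0, false)) Y
          rw [gens_zero]
          exact hY.1
        · intro Y hY
          show Y *ᵥ ((σ.1.2 0).val *ᵥ w) = 0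
          have h1 : ψ ⟨Y, hY⟩ ∈ R := hdim.2.ge (hdim.1.le (LinearMap.mem_range_self ψ _))
          have h2 : (σ.1.2 0)⁻¹.val * Y * (σ.1.2 0).val ∈ R := by
            have := R.sub_mem hY h1
            rwa [hψ, sub_sub_cancel] at this
          have h3 := hw _ h2
          rw [← Matrix.mulVec_mulVec, ← Matrix.mulVec_mulVec] at h3
          have := congrArg ((σ.1.2 0).val *ᵥ ·) h3
          simpa [Matrix.mulVec_mulVec, ← Matrix.mul_assoc, val_mul_inv,
            -Matrix.SpecialLinearGroup.coe_inv] using this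
    · exact hfix _ (fun Y hY => hY.2.1 (.inr j)) w hw
  have hKr : ∀ g, ∀ w ∈ K, gensP z (rotP z σ) g *ᵥ w ∈ K := by
    rintro (⟨i, b⟩ | j) w hw
    · have hC : ∀ Y ∈ R, Commute (pprod z σ).val Y := fun Y hY =>
        commute_pprod fun j => hY.2.1 (.inr j)
      show gens (rotP z σ).1 (i, b) *ᵥ w ∈ K
      rw [gens_rotP]
      split_ifs
      · rw [← Matrix.mulVec_mulVec, ← Matrix.mulVec_mulVec]
        exact hfix _ hC _ (hK (.inl (0, b)) _ (hfix _ (fun Y hY => commute_inv_val (hC Y hY)) w hw))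
      · exact hK (.inl (_, b)) w hw
    · exact hK (.inr j) w hw
  have hR0 : ∀ Y ∈ R, Y = 0 := fun Y hY => by
    rcases hFull.invariant hKr with h | h
    · exact absurd (show v ∈ (⊥ : Submodule ℂ (Fin r → ℂ)) from h ▸ hv) (by simpa using hv0)
    · refine Matrix.ext_of_mulVec_single fun i => ?_
      rw [(h ▸ Submodule.mem_top : (Pi.single i 1 : Fin r → ℂ) ∈ K) Y hY, Matrix.zero_mulVec]
  have hD : ∀ X, Commute a X → X = ∑ l ∈ Λ, ((X * P l).trace / (P l).trace) • P l := fun X hX => by
    refine sub_eq_zero.1 (hR0 _ (hdim.2.ge (show _ ∈ D₀ from ⟨?_, fun l hl => ?_⟩)))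
    · exact hX.sub_right (Commute.sum_right _ _ _ fun l hl => (hPa l hl).symm.smul_right _)
    · rw [sub_mul, Matrix.trace_sub, Finset.sum_mul, Matrix.trace_sum,
        Finset.sum_eq_single l (fun m hm hml => by
          rw [smul_mul_assoc, hS.mul m hm l hl, if_neg hml, smul_zero, Matrix.trace_zero])
          (fun h => absurd hl h), smul_mul_assoc, hS.idem hl, Matrix.trace_smul, smul_eq_mul,
        div_mul_cancel₀ _ (hS.trace_ne hl), sub_self]
  intro Y hY
  have hC : Commute (pprod z σ).val Y := commute_pprod fun j => hY (.inr j)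
  have hYa : Commute a Y := by
    have hlast : Fin.last n = (⟨n - 1, by omega⟩ : Fin n).succ := by
      ext; simp [Fin.last]; omega
    have h : Commute ((pprod z σ).val * a * (pprod z σ)⁻¹.val) Y := by
      have h : Commute (gens (rotP z σ).1 (Fin.last n, false)) Y := by
        rw [hlast]; exact hY (.inl (⟨n - 1, by omega⟩, false))
      rwa [gens_rotP, if_pos finRotate_last, gens_zero, ← ha] at h
    have h' := ((commute_inv_val hC).mul_left h).mul_left hC
    simp only [← Matrix.mul_assoc, val_inv_mul, Matrix.one_mul] at h'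
    rwa [Matrix.mul_assoc, val_inv_mul, Matrix.mul_one] at h'
  obtain ⟨l, hl⟩ := hlocal (rotP z σ) hσr hNSr hFOr Y hY
  refine ⟨l, ?_⟩
  set c : ℂ → ℂ := fun m => (Y * P m).trace / (P m).trace
  have hYc : Y = ∑ m ∈ Λ, c m • P m := hD Y hYa
  rw [hYc]
  conv_rhs => rw [← hS.sum, Finset.smul_sum]
  refine Finset.sum_congr rfl fun m hm => ?_
  congr 1
  have hkey : ∀ k : ℕ, (Y - l • 1) ^ k * P m = (c m - l) ^ k • P m := by
    intro k
    induction k with
    | zero => simp
    | succ k ih =>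
      have h1 : (Y - l • 1) * P m = (c m - l) • P m := by
        rw [hYc, sub_mul, Finset.sum_mul, Finset.sum_eq_single m (fun x hx hxm => by
          rw [smul_mul_assoc, hS.mul x hx m hm, if_neg hxm, smul_zero]) (fun h => absurd hm h),
          smul_mul_assoc, hS.idem hm, smul_mul_assoc, Matrix.one_mul, sub_smul]
      rw [pow_succ, Matrix.mul_assoc, h1, mul_smul_comm, ih, smul_smul, pow_succ']
  have := hkey (r + 1)
  rw [hl, Matrix.zero_mul, eq_comm, smul_eq_zero] at this
  exact sub_eq_zero.1 (eq_zero_of_pow_eq_zero (this.resolve_right (hS.ne m hm)))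

/-- Irreducible representations, with two handles having both commutators non-scalar, are limits
of representations whose last handles and punctures have scalar centraliser. -/
theorem exists_near_trivP_of [NeZero r] (hn : 1 ≤ n) {z : Fin s → SLC r}
    {σ₀ : PRep n s (SLC r)} (hσ₀ : relP z σ₀ = 1) (hF : Full (gensP z σ₀))
    (hNS : 2 ≤ n ∨ NS2 σ₀) {ε : ℝ} (hε : 0 < ε) :
    ∃ σ, relP z σ = 1 ∧ dist (coordP σ) (coordP σ₀) < ε ∧ Triv (tgensP z σ) := by
  obtain ⟨σ, hσ, hd, hT⟩ := exists_triv_rotP hn hσ₀ hF hNS hε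
  exact ⟨rotP z σ, relP_rotP hσ, hd, hT⟩

/-- Irreducible representations are limits of representations whose last handles and punctures
have scalar centraliser. -/
theorem exists_near_trivP [NeZero r] (hn : 2 ≤ n) {z : Fin s → SLC r}
    {σ₀ : PRep n s (SLC r)} (hσ₀ : relP z σ₀ = 1) (hF : Full (gensP z σ₀)) {ε : ℝ} (hε : 0 < ε) :
    ∃ σ, relP z σ = 1 ∧ dist (coordP σ) (coordP σ₀) < ε ∧ Triv (tgensP z σ) :=
  exists_near_trivP_of (by omega) hσ₀ hF (Or.inl hn) hε

end Vale.Agent.P002
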