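import Vale.Agent.P002.Punct.Nbhd
import Vale.Agent.P002.Punct.Continue
import Vale.Agent.P002.Punct.Irred

/-!
Polynomials vanishing at the irreducible points over a ring of cyclotomic integers vanish on the
whole representation variety with prescribed boundary classes.
-/

namespace Vale.Agent.P002

open Matrix MvPolynomial Filter Topology

variable {r n s : ℕ} {z : Fin s → SLC r} {R : Subring ℂ}

lemma inv_mulVec_mem {U : Submodule ℂ (Fin r → ℂ)} {g : SLC r}
    (h : ∀ u ∈ U, g.val *ᵥ u ∈ U) : ∀ u ∈ U, g⁻¹.val *ᵥ u ∈ U := by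
  intro u hu
  let f : U →ₗ[ℂ] U := (Matrix.mulVecLin g.val).restrict h
  have hf : Function.Injective f := fun x y hxy => by
    have h1 : g.val *ᵥ (x : Fin r → ℂ) = g.val *ᵥ (y : Fin r → ℂ) := congrArg Subtype.val hxy
    have := congrArg (g⁻¹.val *ᵥ ·) h1
    simp only [Matrix.mulVec_mulVec, val_inv_mul, Matrix.one_mulVec] at this
    exact Subtype.ext this
  obtain ⟨x, hx⟩ := LinearMap.injective_iff_surjective.1 hf ⟨u, hu⟩
  have hx' : g.val *ᵥ (x : Fin r → ℂ) = u := congrArg Subtype.val hx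
  rw [← hx', Matrix.mulVec_mulVec, val_inv_mul, Matrix.one_mulVec]
  exact x.2

/-- The stabiliser of a subspace. -/
def stabU (U : Submodule ℂ (Fin r → ℂ)) : Subgroup (SLC r) where
  carrier := {g | ∀ u ∈ U, g.val *ᵥ u ∈ U}
  one_mem' := fun u hu => by simpa using hu
  mul_mem' := fun {g h} hg hh u hu => by
    rw [Matrix.SpecialLinearGroup.coe_mul, ← Matrix.mulVec_mulVec]
    exact hg _ (hh u hu)
  inv_mem' := fun {g} hg => inv_mulVec_mem hg

lemma comm_mem {H : Subgroup (SLC r)} {a b : SLC r} (ha : a ∈ H) (hb : b ∈ H) :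
    a * b * a⁻¹ * b⁻¹ ∈ H :=
  mul_mem (mul_mem (mul_mem ha hb) (inv_mem ha)) (inv_mem hb)

lemma xlet_mem (H : Subgroup (SLC r)) {σ : PRep n s (SLC r)}
    (ha : ∀ k : Fin n, σ.1.1 k.succ ∈ H ∧ σ.1.2 k.succ ∈ H) (hc : ∀ j, pc z σ j ∈ H) :
    ∀ m : Lt n s, xlet z σ m ∈ H := by
  have hmid : ∀ k, mid σ.1 k ∈ H := fun k => by
    simp only [take_tail, commutatorElement_def]
    refine list_prod_mem fun x hx => ?_
    obtain ⟨i, rfl⟩ := (List.mem_ofFn' _ _).1 hx
    exact comm_mem (ha _).1 (ha _).2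
  have hW : (tailComm σ.1).prod ∈ H := by
    simp only [tailComm, commutatorElement_def]
    refine list_prod_mem fun x hx => ?_
    obtain ⟨i, rfl⟩ := (List.mem_ofFn' _ _).1 hx
    exact comm_mem (ha _).1 (ha _).2
  rintro (⟨k, _ | _⟩ | j) <;> simp only [xlet]
  · exact mul_mem (mul_mem (hmid k) (ha k).1) (inv_mem (hmid k))
  · exact mul_mem (mul_mem (hmid k) (mul_mem (mul_mem (ha k).1 (ha k).2) (inv_mem (ha k).1)))
      (inv_mem (hmid k))
  · have hK : pmid z σ j ∈ H := mul_mem hW (list_prod_mem fun x hx => by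
      obtain ⟨i, rfl⟩ := (List.mem_ofFn' _ _).1 (List.mem_of_mem_take hx)
      exact hc i)
    exact mul_mem (mul_mem hK (hc j)) (inv_mem hK)

/-- A point whose letters span all matrices is absolutely irreducible. -/
lemma full_gensP [NeZero r] {σ : PRep n s (SLC r)}
    (hspan : Full fun m : Lt n s => (xlet z σ m)⁻¹.val) : Full (gensP z σ) := by
  refine Irred.full fun U hU => hspan.invariant (W := U) fun m u hu => ?_
  have h := inv_mem (xlet_mem (stabU U)
    (fun k => ⟨fun u hu => by simpa [gensP, gens] using hU (.inl (k.succ, false)) u hu,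
      fun u hu => by simpa [gensP, gens] using hU (.inl (k.succ, true)) u hu⟩)
    (fun j u hu => hU (.inr j) u hu) m)
  exact h u hu

/-- The polynomial in the coordinates giving the entries of a generator. -/
noncomputable def genPoly (z : Fin s → SLC r) : Sl n s →
    Matrix (Fin r) (Fin r) (MvPolynomial (PVar n s r) ℂ)
  | .inl v => Matrix.of fun a b => X (.inl (v, a, b))
  | .inr j => (Matrix.of fun a b => X (.inr (j, a, b))) * (z j).val.map C *
      (Matrix.of fun a b => X (.inr (j, a, b))).adjugate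

lemma eval_genPoly (σ : PRep n s (SLC r)) (v : Sl n s) :
    (eval (coordP σ)).mapMatrix (genPoly z v) = gensP z σ v := by
  rcases v with ⟨i, b⟩ | j
  · cases b <;> ext <;> simp [genPoly, gensP, gens, coordP, coord]
  · have hU : (eval (coordP σ)).mapMatrix (Matrix.of fun a b =>
        (X (.inr (j, a, b)) : MvPolynomial (PVar n s r) ℂ)) = (σ.2 j).val := by
      ext; simp [coordP]
    have hz : (eval (coordP σ)).mapMatrix ((z j).val.map C) = (z j).val := by ext; simp
    simp only [genPoly, map_mul, RingHom.map_adjugate, hU, hz, gensP, Sum.elim_inr, pc,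
      Matrix.SpecialLinearGroup.coe_mul, Matrix.SpecialLinearGroup.coe_inv]

/-- The pull back of a polynomial in the generators to the coordinates. -/
noncomputable def pullP (z : Fin s → SLC r)
    (P : MvPolynomial (Sl n s × Fin r × Fin r) ℂ) : MvPolynomial (PVar n s r) ℂ :=
  bind₁ (fun v => genPoly z v.1 v.2.1 v.2.2) P

lemma eval_pullP (σ : PRep n s (SLC r)) (P : MvPolynomial (Sl n s × Fin r × Fin r) ℂ) :
    eval (coordP σ) (pullP z P) = eval (fun v => gensP z σ v.1 v.2.1 v.2.2) P := by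
  rw [pullP, eval, eval₂Hom_bind₁]
  refine congrArg (fun f => eval₂Hom (RingHom.id ℂ) f P) (funext fun v => ?_)
  rw [← eval_genPoly]
  rfl

/-- A polynomial certifying absolute irreducibility. -/
lemma exists_fullPoly {σ : PRep n s (SLC r)} (hF : Full (gensP z σ)) :
    ∃ D : MvPolynomial (PVar n s r) ℂ, eval (coordP σ) D ≠ 0 ∧
      ∀ τ : PRep n s (SLC r), eval (coordP τ) D ≠ 0 → Full (gensP z τ) := by
  classical
  obtain ⟨f, hfmem, hfspan, hli⟩ := Submodule.exists_fun_fin_finrank_span_eq ℂ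
    (Set.range fun l : List (Sl n s) => (l.map (gensP z σ)).prod)
  have hN : Module.finrank ℂ (Submodule.span ℂ
      (Set.range fun l : List (Sl n s) => (l.map (gensP z σ)).prod)) =
      Fintype.card (Fin r × Fin r) := by
    rw [show Submodule.span ℂ (Set.range fun l : List (Sl n s) => (l.map (gensP z σ)).prod) = ⊤
      from hF, finrank_top, Module.finrank_matrix]
    simp
  choose l hl using hfmem
  let e : Fin r × Fin r ≃ Fin (Module.finrank ℂ (Submodule.span ℂ
      (Set.range fun l : List (Sl n s) => (l.map (gensP z σ)).prod))) :=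
    (Fintype.equivFin _).trans (finCongr hN.symm)
  let M : Matrix (Fin r × Fin r) (Fin r × Fin r) (MvPolynomial (PVar n s r) ℂ) :=
    Matrix.of fun p k => ((l (e k)).map (genPoly z)).prod p.1 p.2
  have hM : ∀ τ : PRep n s (SLC r), eval (coordP τ) M.det =
      (Matrix.of fun p k => ((l (e k)).map (gensP z τ)).prod p.1 p.2 :
        Matrix (Fin r × Fin r) (Fin r × Fin r) ℂ).det := fun τ => by
    rw [RingHom.map_det]
    congr 1
    ext p k
    have := congrFun (congrFun (map_list_prod ((eval (coordP τ)).mapMatrix :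
      Matrix (Fin r) (Fin r) (MvPolynomial (PVar n s r) ℂ) →+* Matrix (Fin r) (Fin r) ℂ)
      ((l (e k)).map (genPoly z))) p.1) p.2
    simp only [List.map_map, Function.comp_def, eval_genPoly] at this
    simpa [M] using this
  have hiff : ∀ τ : PRep n s (SLC r), eval (coordP τ) M.det ≠ 0 ↔
      LinearIndependent ℂ (fun k : Fin r × Fin r => ((l (e k)).map (gensP z τ)).prod) := fun τ => by
    rw [hM, ← isUnit_iff_ne_zero, ← Matrix.isUnit_iff_isUnit_det,
      ← Matrix.linearIndependent_cols_iff_isUnit]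
    let φ : Mat r ≃ₗ[ℂ] (Fin r × Fin r → ℂ) := (LinearEquiv.curry ℂ ℂ (Fin r) (Fin r)).symm
    exact LinearMap.linearIndependent_iff (v := fun k => ((l (e k)).map (gensP z τ)).prod)
      φ.toLinearMap φ.ker
  refine ⟨M.det, (hiff σ).2 ?_, fun τ hτ => ?_⟩
  · have : (fun k : Fin r × Fin r => ((l (e k)).map (gensP z σ)).prod) = f ∘ e :=
      funext fun k => hl (e k)
    rw [this]
    exact hli.comp e e.injective
  · have hspan := ((hiff τ).1 hτ).span_eq_top_of_card_eq_finrank' (by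
      rw [Module.finrank_matrix]; simp)
    rw [Full, eq_top_iff, ← hspan]
    exact Submodule.span_mono (Set.range_comp_subset_range (fun k => l (e k))
      fun l => (l.map (gensP z τ)).prod)

/-- A good base point near the seed. -/
lemma exists_baseP [NeZero r] (hr : 2 ≤ r) (hz : ∀ j, z j ∈ inR R r) {σ : PRep n s (SLC r)}
    (hb : σ.1.2 0 = 1) (hrel : relP z σ = 1) (hint : IntP R σ)
    (hspan : Full fun m : Lt n s => (xlet z σ m)⁻¹.val)
    {Q : MvPolynomial (PVar n s r) ℂ}
    (hQ : ∀ τ, relP z τ = 1 → IntP R τ → Full (gensP z τ) → eval (coordP τ) Q = 0) :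
    ∃ ρ : PRep n s (SLC r), relP z ρ = 1 ∧ GoodPair (ρ.1.1 0) (ρ.1.2 0) ∧
      ∀ᶠ g in 𝓝 (coordP ρ), ∀ τ, relP z τ = 1 → coordP τ = g → eval g Q = 0 := by
  obtain ⟨p, hp, hpspan, hT, hnb⟩ := exists_nbhdP hr hz hb hrel hint hspan
  obtain ⟨D, hD, hDfull⟩ := exists_fullPoly (full_gensP (z := z) hpspan)
  have hQD : ∀ y ∈ intPtsP R n z, eval y (Q * D) = 0 := by
    rintro y ⟨τ, hτ, hτi, rfl⟩
    by_cases h : eval (coordP τ) D = 0
    · rw [map_mul, h, mul_zero]
    · rw [map_mul, hQ τ hτ hτi (hDfull τ h), zero_mul]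
  have hDne : ∀ᶠ g in 𝓝 (coordP p), eval g D ≠ 0 :=
    (MvPolynomial.continuous_eval D).continuousAt.eventually_ne hD
  obtain ⟨ε, hε, hball⟩ := Metric.eventually_nhds_iff.1
    (eventually_eventually_nhds.2 (hnb.and hDne))
  obtain ⟨q, hq, hqd, hqg⟩ := exists_near_goodP hr hp hT hε
  refine ⟨q, hq, hqg, (hball hqd).mono fun g hg τ hτ he => ?_⟩
  have h0 : eval (coordP τ) (Q * D) = 0 := (hg.1 τ hτ he).2 _ hQD
  rw [he, map_mul] at h0
  exact (mul_eq_zero.1 h0).resolve_right hg.2

/-- Continuation from a good base point to all points with scalar centraliser of the tail. -/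
theorem eval_zero_of_baseP [NeZero r] (hr : 2 ≤ r) {Q : MvPolynomial (PVar n s r) ℂ}
    (hbase : ∃ ρ : PRep n s (SLC r), relP z ρ = 1 ∧ GoodPair (ρ.1.1 0) (ρ.1.2 0) ∧
      ∀ᶠ g in 𝓝 (coordP ρ), ∀ τ, relP z τ = 1 → coordP τ = g → eval g Q = 0)
    {σ : PRep n s (SLC r)} (hσ : relP z σ = 1) (hT : Triv (tgensP z σ)) :
    eval (coordP σ) Q = 0 := by
  obtain ⟨ρ, hρ, hρg, hnb⟩ := hbase
  by_contra hne
  obtain ⟨ε, hε, hball⟩ := Metric.eventually_nhds_iff.1
    ((MvPolynomial.continuous_eval Q).continuousAt.eventually_ne hne)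
  obtain ⟨σ', h1, h2, h3⟩ := exists_near_goodP hr hσ hT hε
  exact hball h2 (eval_zero_of_goodPairP hr hρ hρg hnb h1 h3)

/-- Vanishing at all points with scalar centraliser of the tail. -/
theorem eval_zero_of_trivP [NeZero r] (hr : 2 ≤ r) (hz : ∀ j, z j ∈ inR R r)
    {σ₀ : PRep n s (SLC r)} (hb : σ₀.1.2 0 = 1) (hrel : relP z σ₀ = 1) (hint : IntP R σ₀)
    (hspan : Full fun m : Lt n s => (xlet z σ₀ m)⁻¹.val) {Q : MvPolynomial (PVar n s r) ℂ}
    (hQ : ∀ τ, relP z τ = 1 → IntP R τ → Full (gensP z τ) → eval (coordP τ) Q = 0)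
    {σ : PRep n s (SLC r)} (hσ : relP z σ = 1) (hT : Triv (tgensP z σ)) :
    eval (coordP σ) Q = 0 :=
  eval_zero_of_baseP hr (exists_baseP hr hz hb hrel hint hspan hQ) hσ hT

/-- Vanishing at all absolutely irreducible points. -/
theorem eval_zero_of_fullP [NeZero r] (hr : 2 ≤ r) (hn : 2 ≤ n) (hz : ∀ j, z j ∈ inR R r)
    {σ₀ : PRep n s (SLC r)} (hb : σ₀.1.2 0 = 1) (hrel : relP z σ₀ = 1) (hint : IntP R σ₀)
    (hspan : Full fun m : Lt n s => (xlet z σ₀ m)⁻¹.val) {Q : MvPolynomial (PVar n s r) ℂ}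
    (hQ : ∀ τ, relP z τ = 1 → IntP R τ → Full (gensP z τ) → eval (coordP τ) Q = 0)
    {σ : PRep n s (SLC r)} (hσ : relP z σ = 1) (hF : Full (gensP z σ)) :
    eval (coordP σ) Q = 0 := by
  by_contra hne
  obtain ⟨ε, hε, hball⟩ := Metric.eventually_nhds_iff.1
    ((MvPolynomial.continuous_eval Q).continuousAt.eventually_ne hne)
  obtain ⟨σ', h1, h2, h3⟩ := exists_near_trivP hn hσ hF hε
  exact hball h2 (eval_zero_of_trivP hr hz hb hrel hint hspan hQ h1 h3)

end Vale.Agent.P002
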