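import Vale.Agent.P002.Punct.Tangent

/-!
A base point for the punctured surface groups: handles `(D, P)` and `(d, u)` with `D`, `d` diagonal
of finite order, `P` monomial and `u` unitriangular, the boundary loops being the given upper
triangular representatives.
-/

namespace Vale.Agent.P002

open Matrix
open scoped commutatorElement

variable {r n s : ℕ}

section Triangular

open Module

/-- A basis of an invariant subspace which a map sends, up to diagonal terms, to earlier vectors. -/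
lemma exists_chain_basis (f : (Fin r → ℂ) →ₗ[ℂ] (Fin r → ℂ)) :
    ∀ (d : ℕ) (W : Submodule ℂ (Fin r → ℂ)), finrank ℂ W = d → (∀ v ∈ W, f v ∈ W) →
      ∃ (B : Set (Fin r → ℂ)) (ρ : (Fin r → ℂ) → ℕ), LinearIndepOn ℂ id B ∧
        Submodule.span ℂ B = W ∧
        ∀ v ∈ B, ∃ μ : ℂ, f v - μ • v = 0 ∨ (f v - μ • v ∈ B ∧ ρ (f v - μ • v) < ρ v) := by
  classical
  intro d
  induction d using Nat.strong_induction_on with
  | _ d ih =>
  intro W hd hinv
  rcases eq_or_ne W ⊥ with rfl | hW
  · exact ⟨∅, fun _ => 0, linearIndepOn_empty ℂ id, Submodule.span_empty, by simp⟩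
  have : Nontrivial W := Submodule.nontrivial_iff_ne_bot.2 hW
  obtain ⟨μ, hμ⟩ := Module.End.exists_eigenvalue (f.restrict hinv)
  obtain ⟨w, hw⟩ := hμ.exists_hasEigenvector
  have hwe : f w.1 = μ • w.1 := congrArg Subtype.val hw.apply_eq_smul
  set g : (Fin r → ℂ) →ₗ[ℂ] (Fin r → ℂ) := f - μ • LinearMap.id with hg
  have hgap : ∀ v, g v = f v - μ • v := fun v => by simp [hg]
  have hgW : ∀ v ∈ W, g v ∈ W := fun v hv => by
    rw [hgap]; exact sub_mem (hinv v hv) (W.smul_mem _ hv)
  have hle : W.map g ≤ W := Submodule.map_le_iff_le_comap.2 hgW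
  have hlt : W.map g < W := by
    refine lt_of_le_of_ne hle fun he => hw.2 ?_
    have hs : Function.Surjective (g.restrict hgW) := fun y => by
      obtain ⟨x, hx, hxy⟩ := Submodule.mem_map.1 (le_of_eq he.symm y.2)
      exact ⟨⟨x, hx⟩, Subtype.ext hxy⟩
    refine LinearMap.injective_iff_surjective.2 hs (Subtype.ext ?_)
    show g w.1 = (g.restrict hgW 0).1
    rw [hgap, hwe, sub_self]
    simp
  obtain ⟨B', ρ, hli, hsp, hprop⟩ := ih _ (hd ▸ Submodule.finrank_lt_finrank_of_lt hlt) (W.map g)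
    rfl fun v hv => by
      obtain ⟨x, hx, rfl⟩ := Submodule.mem_map.1 hv
      exact Submodule.mem_map.2 ⟨f x, hinv x hx, by simp [hgap]⟩
  set T : Set (Fin r → ℂ) := B' ∪ {x | x ∈ W ∧ (g x ∈ B' ∨ g x = 0)} with hT
  have hB'W : B' ⊆ W := fun v hv => hle (hsp ▸ Submodule.subset_span hv)
  have hTW : Submodule.span ℂ T = W := by
    refine le_antisymm (Submodule.span_le.2 (Set.union_subset hB'W fun x hx => hx.1)) fun x hx => ?_
    set S : Set (Fin r → ℂ) := {x | x ∈ W ∧ g x ∈ B'} with hS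
    have himg : g '' S = B' := by
      refine Set.Subset.antisymm (Set.image_subset_iff.2 fun y hy => hy.2) fun y hy => ?_
      obtain ⟨x, hx, rfl⟩ := Submodule.mem_map.1 (hsp ▸ Submodule.subset_span hy : y ∈ W.map g)
      exact ⟨x, ⟨hx, hy⟩, rfl⟩
    have : g x ∈ (Submodule.span ℂ S).map g := by
      rw [Submodule.map_span, himg, hsp]
      exact Submodule.mem_map_of_mem hx
    obtain ⟨y, hy, hgy⟩ := Submodule.mem_map.1 this
    have h1 : y ∈ Submodule.span ℂ T :=
      Submodule.span_mono (fun v hv => Or.inr ⟨hv.1, Or.inl hv.2⟩) hy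
    have h2 : x - y ∈ T := Or.inr ⟨sub_mem hx
      (Submodule.span_le.2 (fun v (hv : v ∈ S) => hv.1) hy), Or.inr (by simp [hgy])⟩
    simpa using add_mem h1 (Submodule.subset_span h2)
  have hB'T : B' ⊆ T := Set.subset_union_left
  refine ⟨hli.extend hB'T, fun v => if v ∈ B' then ρ v else ρ (g v) + 1,
    hli.linearIndepOn_extend hB'T, (hli.span_extend_eq_span hB'T).trans hTW, fun v hv => ?_⟩
  by_cases hvB : v ∈ B'
  · obtain ⟨ν, h | ⟨h1, h2⟩⟩ := hprop v hvB
    · exact ⟨ν, Or.inl h⟩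
    · exact ⟨ν, Or.inr ⟨hli.subset_extend hB'T h1, by simpa [h1, hvB] using h2⟩⟩
  · refine ⟨μ, ?_⟩
    rw [← hgap]
    rcases hli.extend_subset hB'T hv with h | ⟨-, h | h⟩
    · exact absurd h hvB
    · exact Or.inr ⟨hli.subset_extend hB'T h, by simp [hvB, h]⟩
    · exact Or.inl h

/-- Every matrix is conjugate to an upper triangular one with off-diagonal entries `0` and `1`. -/
theorem exists_tri_rep (g : Mat r) : ∃ (U : (Mat r)ˣ) (J : Mat r), g = U.val * J * U⁻¹.val ∧
    J.BlockTriangular id ∧ ∀ a b, a ≠ b → J a b = 0 ∨ J a b = 1 := by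
  classical
  obtain ⟨B, ρ, hli, hsp, hprop⟩ := exists_chain_basis (Matrix.toLin' g) _ ⊤ rfl fun _ _ => trivial
  let b : Module.Basis B ℂ (Fin r → ℂ) :=
    Module.Basis.mk hli.linearIndependent (by simpa using hsp.ge)
  have := Module.Finite.finite_basis b
  have := Fintype.ofFinite B
  have hc : Fintype.card B = r := by
    rw [← Module.finrank_eq_card_basis b, Module.finrank_fin_fun]
  let e0 : Fin r ≃ B := (Fintype.equivFinOfCardEq hc).symm
  let e : Fin r ≃ B := (Tuple.sort fun i => ρ (e0 i)).trans e0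
  have hmono : Monotone fun i => ρ (e i) := Tuple.monotone_sort fun i => ρ (e0 i)
  have hcol : ∀ i, ∃ (μ : ℂ) (t : Option (Fin r)), (∀ a, t = some a → a < i) ∧
      g *ᵥ (e i).1 = μ • (e i).1 + t.elim 0 fun a => (e a).1 := fun i => by
    obtain ⟨μ, h | ⟨h1, h2⟩⟩ := hprop _ (e i).2
    · exact ⟨μ, none, by simp, by simpa [sub_eq_zero] using h⟩
    · refine ⟨μ, some (e.symm ⟨_, h1⟩), fun a ha => ?_, by simp⟩
      cases ha
      by_contra hlt
      have := hmono (not_lt.1 hlt)
      simp at this h2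
      omega
  choose μ t ht hmul using hcol
  let U : Mat r := Matrix.of fun a i => (e i).1 a
  have hU : IsUnit U := Matrix.linearIndependent_cols_iff_isUnit.1
    (hli.linearIndependent.comp e e.injective)
  let J : Mat r := Matrix.of fun a i =>
    (if a = i then μ i else 0) + if t i = some a then 1 else 0
  have hJ : g * U = U * J := by
    ext x i
    rw [show (g * U) x i = (g *ᵥ (e i).1) x from rfl, hmul, Matrix.mul_apply]
    cases hti : t i with
    | none => simp [J, U, hti, mul_comm]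
    | some a => simp [J, U, hti, add_mul, Finset.sum_add_distrib, mul_comm]
  refine ⟨hU.unit, J, ?_, fun a i hai => ?_, fun a i hai => ?_⟩
  · exact (Units.eq_mul_inv_iff_mul_eq _).2 (by simpa using hJ)
  · have h1 : a ≠ i := ne_of_gt hai
    have h2 : t i ≠ some a := fun h => lt_asymm (ht i a h) hai
    simp [J, h1, h2]
  · by_cases h : t i = some a <;> simp [J, hai, h]

end Triangular

section Roots

variable {M : ℕ}

lemma root_mem_cycInt_of_dvd (hM : 0 < M) {w : ℂ} {k : ℕ} (h : w ^ k = 1) (hk : k ∣ M) :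
    w ∈ cycInt M := by
  obtain ⟨c, rfl⟩ := hk
  have hw : w ^ (k * c) = 1 := by rw [pow_mul, h, one_pow]
  have : NeZero (k * c) := ⟨hM.ne'⟩
  obtain ⟨i, -, rfl⟩ := (Complex.isPrimitiveRoot_exp (k * c) hM.ne').eq_pow_of_pow_eq_one hw
  refine mem_cycInt.2 ⟨pow_mem (IntermediateField.mem_adjoin_simple_self ℚ _) i, ?_⟩
  exact IsIntegral.of_pow hM (by rw [hw]; exact isIntegral_one)

/-- `x - 1` is a unit when the order of `x` has two coprime nontrivial factors. -/
lemma inv_sub_one_mem {R : Subring ℂ} {x : ℂ} {p q : ℕ} (hx : x ∈ R) (hpq : Nat.Coprime p q)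
    (h : x ^ (p * q) = 1) (hp : x ^ p ≠ 1) (hq : x ^ q ≠ 1) : (x - 1)⁻¹ ∈ R := by
  have key : ∀ a b : ℕ, x ^ (a * b) = 1 → x ^ a ≠ 1 → ∃ c ∈ R, (b : ℂ) = (x - 1) * c := by
    intro a b hab ha
    have h0 : ∑ i ∈ Finset.range b, (x ^ a) ^ i = 0 := by
      rw [geom_sum_eq ha, ← pow_mul, hab, sub_self, zero_div]
    refine ⟨∑ i ∈ Finset.range b, -∑ l ∈ Finset.range (a * i), x ^ l,
      sum_mem fun i _ => neg_mem (sum_mem fun l _ => pow_mem hx l), ?_⟩
    rw [Finset.mul_sum]
    calc (b : ℂ) = ∑ i ∈ Finset.range b, (1 - (x ^ a) ^ i) := by simp [h0]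
      _ = _ := Finset.sum_congr rfl fun i _ => by rw [mul_neg, mul_geom_sum, ← pow_mul, neg_sub]
  obtain ⟨c, hc, hqc⟩ := key p q h hp
  obtain ⟨c', hc', hpc⟩ := key q p (by rwa [mul_comm]) hq
  have hcop : IsCoprime (p : ℤ) (q : ℤ) := Nat.isCoprime_iff_coprime.2 hpq
  obtain ⟨u, v, huv⟩ := hcop
  have h1 : (u : ℂ) * p + v * q = 1 := by exact_mod_cast huv
  rw [inv_eq_of_mul_eq_one_right (b := (u : ℂ) * c' + v * c)
    (by linear_combination h1 - (u : ℂ) * hpc - (v : ℂ) * hqc)]
  exact add_mem (mul_mem (intCast_mem R u) hc') (mul_mem (intCast_mem R v) hc)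

/-- A matrix with determinant a root of unity, scaled into the special linear group. -/
lemma exists_smul_SL (hr : 0 < r) (A : Mat r) {k : ℕ} (hk : 0 < k) (hA : A.det ^ k = 1) :
    ∃ (g : SLC r) (c : ℂ), c ^ (r * k) = 1 ∧ c ≠ 0 ∧ g.val = c • A := by
  have hne : A.det ≠ 0 := fun h => by simp [h, hk.ne'] at hA
  obtain ⟨c, hc⟩ := IsAlgClosed.exists_pow_nat_eq A.det⁻¹ hr
  refine ⟨⟨c • A, ?_⟩, c, ?_, fun h => ?_, rfl⟩
  · rw [Matrix.det_smul, Fintype.card_fin, hc, inv_mul_cancel₀ hne]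
  · rw [pow_mul, hc, inv_pow, hA, inv_one]
  · rw [h, zero_pow hr.ne'] at hc
    exact inv_ne_zero hne hc.symm

end Roots

section Recursion

/-- Entries of the unitriangular solution of `u d = T d u` for diagonal `d`. -/
noncomputable def solU (T : Mat r) (δ : Fin r → ℂ) (i j : Fin r) : ℂ :=
  if i = j then 1
  else if i < j then
    (δ j - δ i)⁻¹ * ∑ k ∈ (Finset.Ioc i j).attach, T i k.1 * δ k.1 * solU T δ k.1 j
  else 0
termination_by (j : ℕ) - i
decreasing_by
  have := Finset.mem_Ioc.1 k.2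
  omega

lemma solU_self (T : Mat r) (δ : Fin r → ℂ) (i : Fin r) : solU T δ i i = 1 := by
  rw [solU, if_pos rfl]

lemma solU_gt (T : Mat r) (δ : Fin r → ℂ) {i j : Fin r} (h : j < i) : solU T δ i j = 0 := by
  rw [solU, if_neg h.ne', if_neg (lt_asymm h)]

lemma solU_lt (T : Mat r) (δ : Fin r → ℂ) {i j : Fin r} (h : i < j) :
    solU T δ i j = (δ j - δ i)⁻¹ * ∑ k ∈ Finset.Ioc i j, T i k * δ k * solU T δ k j := by
  rw [solU, if_neg h.ne, if_pos h,
    ← Finset.sum_attach (Finset.Ioc i j) fun k => T i k * δ k * solU T δ k j]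

lemma solU_eq {T : Mat r} (hT : T.BlockTriangular id) (h1 : ∀ i, T i i = 1) {δ : Fin r → ℂ}
    (hδ : Function.Injective δ) :
    Matrix.of (solU T δ) * Matrix.diagonal δ =
      T * (Matrix.diagonal δ * Matrix.of (solU T δ)) := by
  ext i j
  rw [Matrix.mul_diagonal, Matrix.mul_apply]
  simp only [Matrix.diagonal_mul, Matrix.of_apply]
  have hz : ∀ k, k < i ∨ j < k → T i k * (δ k * solU T δ k j) = 0 := by
    rintro k (hk | hk)
    · simp [hT hk]
    · simp [solU_gt T δ hk]
  rcases lt_trichotomy i j with h | h | h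
  · have hne : δ j - δ i ≠ 0 := sub_ne_zero.2 fun e => h.ne' (hδ e)
    have hins : insert i (Finset.Ioc i j) = Finset.Icc i j := Finset.Ioc_insert_left h.le
    rw [← Finset.sum_subset (Finset.subset_univ (Finset.Icc i j))
      (fun k _ hk => hz k (by simp only [Finset.mem_Icc, not_and_or, not_le] at hk; exact hk)),
      ← hins, Finset.sum_insert (by simp), h1, one_mul]
    have := solU_lt T δ h
    have e : solU T δ i j * (δ j - δ i) = ∑ k ∈ Finset.Ioc i j, T i k * (δ k * solU T δ k j) := by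
      rw [this, mul_comm _ (δ j - δ i), ← mul_assoc, mul_inv_cancel₀ hne, one_mul]
      exact Finset.sum_congr rfl fun k _ => by ring
    linear_combination e
  · subst h
    rw [Finset.sum_eq_single i (fun k _ hk => hz k (lt_or_gt_of_ne hk)) (by simp), solU_self, h1]
    ring
  · rw [solU_gt T δ h, zero_mul, Finset.sum_eq_zero fun k _ => hz k ?_]
    rcases lt_or_ge k i with hk | hk
    exacts [Or.inl hk, Or.inr (h.trans_le hk)]

lemma solU_mem {R : Subring ℂ} {T : Mat r} {δ : Fin r → ℂ} (hT : ∀ i k, T i k ∈ R)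
    (hδ : ∀ i, δ i ∈ R) (hinv : ∀ i j, i < j → (δ j - δ i)⁻¹ ∈ R) :
    ∀ i j, solU T δ i j ∈ R
  | i, j => by
    rcases lt_trichotomy i j with h | h | h
    · rw [solU_lt T δ h]
      refine mul_mem (hinv i j h) (sum_mem fun k hk => ?_)
      exact mul_mem (mul_mem (hT i k) (hδ k)) (solU_mem hT hδ hinv k j)
    · rw [h, solU_self]; exact one_mem R
    · rw [solU_gt T δ h]; exact zero_mem R
termination_by i j => (j : ℕ) - i
decreasing_by
  have := Finset.mem_Ioc.1 hk
  omega

end Recursion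

/-- A diagonal matrix with distinct entries and a monomial cycle span all matrices by words. -/
lemma full_of_diag_cycle {κ : Type*} {g : κ → Mat r} (k₁ k₂ : κ) {δ : Fin r → ℂ}
    (hδ : Function.Injective δ) (h₁ : g k₁ = Matrix.diagonal δ) (τ : Fin r → Fin r)
    (hτ : ∀ i j, ∃ a : ℕ, τ^[a] i = j) (hne : ∀ i, g k₂ i (τ i) ≠ 0)
    (hz : ∀ i j, j ≠ τ i → g k₂ i j = 0) : Full g := by
  classical
  set S := Submodule.span ℂ (Set.range fun l : List κ => (l.map g).prod) with hS
  have hmul : ∀ {A B : Mat r}, A ∈ S → B ∈ S → A * B ∈ S := by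
    intro A B hA hB
    have h : A * B ∈ S * S := Submodule.mul_mem_mul hA hB
    rw [hS, Submodule.span_mul_span] at h
    refine Submodule.span_mono ?_ h
    rintro _ ⟨_, ⟨l, rfl⟩, _, ⟨l', rfl⟩, rfl⟩
    exact ⟨l ++ l', by simp⟩
  have h1 : (1 : Mat r) ∈ S := Submodule.subset_span ⟨[], by simp⟩
  have hg : ∀ k, g k ∈ S := fun k => Submodule.subset_span ⟨[k], by simp⟩
  have hdiag : ∀ i, ∀ K : Finset (Fin r), i ∉ K →
      ∃ f : Fin r → ℂ, Matrix.diagonal f ∈ S ∧ f i ≠ 0 ∧ ∀ k ∈ K, f k = 0 := by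
    intro i K
    induction K using Finset.induction with
    | empty => exact fun _ => ⟨fun _ => 1, by simpa using h1, by simp, by simp⟩
    | insert k K _ ih =>
      intro hi
      simp only [Finset.mem_insert, not_or] at hi
      obtain ⟨f, hf, hfi, hfK⟩ := ih hi.2
      refine ⟨fun a => f a * (δ a - δ k), ?_, mul_ne_zero hfi (sub_ne_zero.2 (hδ.ne hi.1)), ?_⟩
      · rw [← Matrix.diagonal_mul_diagonal]
        refine hmul hf ?_
        have : Matrix.diagonal (fun a => δ a - δ k) = g k₁ - δ k • (1 : Mat r) := by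
          rw [h₁, ← Matrix.diagonal_one, ← Matrix.diagonal_smul, Matrix.diagonal_sub]
          simp
        rw [this]
        exact sub_mem (hg k₁) (S.smul_mem _ h1)
      · intro a ha
        rcases Finset.mem_insert.1 ha with rfl | ha
        · simp
        · simp [hfK a ha]
  have hii : ∀ i, Matrix.single i i (1 : ℂ) ∈ S := fun i => by
    obtain ⟨f, hf, hfi, hfK⟩ := hdiag i (Finset.univ.erase i) (by simp)
    have : Matrix.single i i (1 : ℂ) = (f i)⁻¹ • Matrix.diagonal f := by
      ext a b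
      by_cases hab : a = b
      · subst hab
        by_cases ha : a = i
        · subst ha; simp [hfi]
        · simp [hfK a (by simp [ha]), Ne.symm ha]
      · rw [Matrix.single_apply, if_neg (by rintro ⟨rfl, rfl⟩; exact hab rfl)]
        simp [hab]
    rw [this]
    exact S.smul_mem _ hf
  have hstep : ∀ i j, Matrix.single i j (1 : ℂ) ∈ S → Matrix.single i (τ j) (1 : ℂ) ∈ S := by
    intro i j h
    have e : Matrix.single i (τ j) (1 : ℂ) =
        (g k₂ j (τ j))⁻¹ • (Matrix.single i j (1 : ℂ) * g k₂) := by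
      ext a b
      by_cases ha : a = i
      · subst ha
        by_cases hb : b = τ j
        · subst hb; simp [hne j]
        · simp [hz j b hb, Ne.symm hb]
      · simp [Matrix.single_mul_apply_of_ne _ _ _ _ _ ha, Ne.symm ha]
    rw [e]
    exact S.smul_mem _ (hmul h (hg k₂))
  have hall : ∀ i (a : ℕ), Matrix.single i (τ^[a] i) (1 : ℂ) ∈ S := fun i a => by
    induction a with
    | zero => simpa using hii i
    | succ a ih => rw [Function.iterate_succ_apply']; exact hstep _ _ ih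
  rw [Full, eq_top_iff]
  intro A _
  rw [Matrix.matrix_eq_sum_single A]
  refine sum_mem fun i _ => sum_mem fun j _ => ?_
  obtain ⟨a, rfl⟩ := hτ i j
  rw [show Matrix.single i (τ^[a] i) (A i (τ^[a] i)) =
    A i (τ^[a] i) • Matrix.single i (τ^[a] i) (1 : ℂ) by simp [Matrix.smul_single]]
  exact S.smul_mem _ (hall i a)

lemma finRotate_iterate (i : Fin r) (a : ℕ) : ((finRotate r)^[a] i : ℕ) = (i + a) % r := by
  obtain ⟨r', rfl⟩ := Nat.exists_eq_succ_of_ne_zero (by have := i.pos; omega : r ≠ 0)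
  induction a with
  | zero => simp [Nat.mod_eq_of_lt i.isLt]
  | succ a ih =>
    rw [Function.iterate_succ_apply', finRotate_apply, Fin.val_add, ih, Fin.val_one',
      ← Nat.add_mod, add_assoc]

/-- The base point. -/
theorem exists_seedP [NeZero r] (hr : 2 ≤ r) (hn : 2 ≤ n) (z : Fin s → SLC r) (m : ℕ) (hm : 0 < m)
    (htri : ∀ j, (z j).val.BlockTriangular id)
    (hoff : ∀ j a b, a ≠ b → (z j).val a b = 0 ∨ (z j).val a b = 1)
    (hroot : ∀ j a, (z j).val a a ^ m = 1) :
    ∃ M, 0 < M ∧ (∀ j, z j ∈ inR (cycInt M) r) ∧ ∃ σ : PRep n s (SLC r), σ.1.2 0 = 1 ∧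
      relP z σ = 1 ∧ IntP (cycInt M) σ ∧ Full (fun l : Lt n s => (xlet z σ l)⁻¹.val) := by
  classical
  obtain ⟨n, rfl⟩ : ∃ n', n = n' + 2 := ⟨n - 2, by omega⟩
  have hr0 : 0 < r := by omega
  obtain ⟨p, hpr, hp⟩ := Nat.exists_infinite_primes r
  obtain ⟨q, hqp, hq⟩ := Nat.exists_infinite_primes (p + 1)
  set N := p * q with hN
  have hN0 : 0 < N := Nat.mul_pos hp.pos hq.pos
  set M := r * (2 * (m * N)) with hMdef
  have hM : 0 < M := by positivity
  set R := cycInt M
  have dmem : ∀ {w : ℂ} {k : ℕ}, w ^ k = 1 → k ∣ 2 * (m * N) → w ∈ R := fun h hd =>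
    root_mem_cycInt_of_dvd hM h (dvd_mul_of_dvd_right hd r)
  have rmem : ∀ {w : ℂ} {k : ℕ}, w ^ (r * k) = 1 → k ∣ 2 * (m * N) → w ∈ R := fun h hd =>
    root_mem_cycInt_of_dvd hM h (mul_dvd_mul_left r hd)
  have dm : m ∣ 2 * (m * N) := dvd_mul_of_dvd_right (dvd_mul_right m N) 2
  have dN : N ∣ 2 * (m * N) := dvd_mul_of_dvd_right (dvd_mul_left N m) 2
  have hzR : ∀ j, z j ∈ inR R r := fun j => mem_inR.2 fun a b => by
    by_cases h : a = b
    · subst h; exact dmem (hroot j a) dm
    · rcases hoff j a b h with h | h <;> rw [h]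
      exacts [zero_mem R, one_mem R]
  -- the product of the boundary loops
  set Z : SLC r := (List.ofFn z).prod with hZ
  have hZR : Z ∈ inR R r := list_prod_mem fun x hx => by
    obtain ⟨j, rfl⟩ := List.mem_ofFn.1 hx
    exact hzR j
  have hZtri : Z.val.BlockTriangular id ∧ ∀ a, Z.val a a ^ m = 1 := by
    refine List.prod_induction (fun x : SLC r => x.val.BlockTriangular id ∧ ∀ a, x.val a a ^ m = 1)
      (fun x y ⟨hx, hx'⟩ ⟨hy, hy'⟩ => ⟨hx.mul hy, fun a => ?_⟩)
      ⟨Matrix.blockTriangular_one, fun a => by simp⟩ (fun x hx => ?_)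
    · rw [Matrix.SpecialLinearGroup.coe_mul, Matrix.mul_apply,
        Finset.sum_eq_single a (fun b _ hb => ?_) (by simp), mul_pow, hx', hy', one_mul]
      rcases lt_or_gt_of_ne hb with h | h
      · simp [hx h]
      · simp [hy h]
    · obtain ⟨j, rfl⟩ := List.mem_ofFn.1 hx
      exact ⟨htri j, hroot j⟩
  obtain ⟨hZt, hZd⟩ := hZtri
  set e : Fin r → ℂ := fun a => Z.val a a ^ (m - 1) with he
  have heZ : ∀ a, Z.val a a * e a = 1 := fun a => by
    rw [he, ← pow_succ', Nat.sub_add_cancel hm, hZd]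
  have hem : ∀ a, e a ^ m = 1 := fun a => by rw [he, ← pow_mul, mul_comm, pow_mul, hZd, one_pow]
  have he0 : ∀ a, e a ≠ 0 := fun a => right_ne_zero_of_mul_eq_one (heZ a)
  have heprod : ∏ a, e a = 1 := by
    have h : ∏ a, Z.val a a = 1 := (Matrix.det_of_isUpperTriangular hZt).symm.trans Z.2
    have := Finset.prod_congr rfl (fun a (_ : a ∈ Finset.univ) => heZ a)
    rwa [Finset.prod_mul_distrib, h, one_mul, Finset.prod_const_one] at this
  have heR : ∀ a, e a ∈ R := fun a => dmem (hem a) dm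
  -- the first handle
  set σc := finRotate r with hσc
  set pD : Fin r → ℂ := fun a => ∏ j ∈ Finset.Ici a, e j with hpD
  have hpDstep : ∀ a, pD a = e a * pD (σc a) := fun a => by
    obtain ⟨r', rfl⟩ := Nat.exists_eq_succ_of_ne_zero hr0.ne'
    by_cases ha : a = Fin.last r'
    · subst ha
      have h0 : pD 0 = 1 := by
        rw [hpD, ← heprod]
        exact Finset.prod_congr (by ext; simp) fun _ _ => rfl
      rw [hσc, finRotate_last, h0, mul_one]
      exact Finset.prod_eq_single_of_mem _ (by simp) fun j hj hne =>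
        absurd (le_antisymm (Fin.le_last j) (Finset.mem_Ici.1 hj)) hne
    · have hlt : (a : ℕ) < r' :=
        lt_of_le_of_ne (Nat.lt_succ_iff.1 a.isLt) fun h => ha (Fin.ext h)
      have hs : ((σc a : Fin (r' + 1)) : ℕ) = a + 1 := coe_finRotate_of_ne_last ha
      have hset : Finset.Ici a = insert a (Finset.Ici (σc a)) := by
        ext j
        simp only [Finset.mem_Ici, Finset.mem_insert, Fin.le_def, Fin.ext_iff, hs]
        omega
      rw [hpD]
      simp only
      rw [hset, Finset.prod_insert (by simp [Fin.le_def, hs])]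
  have hpDm : ∀ a, pD a ^ m = 1 := fun a => by
    rw [hpD, ← Finset.prod_pow]
    exact Finset.prod_eq_one fun j _ => hem j
  obtain ⟨D, cD, hcD, hcD0, hDv⟩ := exists_smul_SL hr0 (Matrix.diagonal pD) hm
    (by rw [Matrix.det_diagonal, ← Finset.prod_pow]; exact Finset.prod_eq_one fun j _ => hpDm j)
  obtain ⟨P, cP, hcP, hcP0, hPv⟩ := exists_smul_SL hr0 (σc.permMatrix ℂ) two_pos (by
    rw [Matrix.det_permutation]
    rcases Int.units_eq_one_or (Equiv.Perm.sign σc) with h | h <;> simp [h])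
  have hE : (⁅D, P⁆ : SLC r).val = Matrix.diagonal e := by
    let E' : SLC r := ⟨Matrix.diagonal e, by rw [Matrix.det_diagonal, heprod]⟩
    have h1 : D * P = E' * (P * D) := Subtype.ext (by
      simp only [Matrix.SpecialLinearGroup.coe_mul, hDv, hPv]
      ext a b
      simp [E', Matrix.diagonal_mul, Matrix.mul_diagonal, PEquiv.toMatrix_apply,
        Equiv.toPEquiv_apply]
      split_ifs with h
      · subst h
        rw [hpDstep a]
        ring
      · simp)
    have h2 : ⁅D, P⁆ = E' := by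
      calc ⁅D, P⁆ = D * P * (P * D)⁻¹ := by group
        _ = E' := by rw [h1, mul_inv_cancel_right]
    rw [h2]
  set E : SLC r := ⁅D, P⁆ with hEdef
  -- the second handle
  set ζ : ℂ := Complex.exp (2 * Real.pi * Complex.I / N) with hζdef
  have hζ : IsPrimitiveRoot ζ N := Complex.isPrimitiveRoot_exp N hN0.ne'
  obtain ⟨d, cd, hcd, hcd0, hdv⟩ := exists_smul_SL hr0 (Matrix.diagonal fun a : Fin r => ζ ^ (a : ℕ))
    hN0 (by
      rw [Matrix.det_diagonal, ← Finset.prod_pow]
      exact Finset.prod_eq_one fun j _ => by rw [← pow_mul, mul_comm, pow_mul, hζ.pow_eq_one, one_pow])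
  set δ : Fin r → ℂ := fun a => cd * ζ ^ (a : ℕ) with hδdef
  have hdval : d.val = Matrix.diagonal δ := by rw [hdv, ← Matrix.diagonal_smul]; rfl
  have hrN : r ≤ N := hpr.trans (Nat.le_mul_of_pos_right p hq.pos)
  have hδinj : Function.Injective δ := fun a b h =>
    Fin.ext (hζ.pow_inj (a.isLt.trans_le hrN) (b.isLt.trans_le hrN) (mul_left_cancel₀ hcd0 h))
  have hζR : ζ ∈ R := dmem hζ.pow_eq_one dN
  have hcdR : cd ∈ R := rmem hcd dN
  have hδR : ∀ a, δ a ∈ R := fun a => mul_mem hcdR (pow_mem hζR _)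
  have hinv : ∀ i j, i < j → (δ j - δ i)⁻¹ ∈ R := fun i j hij => by
    have hk0 : 0 < (j : ℕ) - i := Nat.sub_pos_of_lt hij
    have hkr : (j : ℕ) - i < r := lt_of_le_of_lt (Nat.sub_le _ _) j.isLt
    set k := (j : ℕ) - i
    have hne : ∀ t, Nat.Prime t → r ≤ t → ∀ t', N = t' * t → 0 < t' → (ζ ^ k) ^ t' ≠ 1 := by
      intro t ht hrt t' hNt ht' hone
      rw [← pow_mul] at hone
      have h := (hζ.pow_eq_one_iff_dvd _).1 hone
      rw [hNt, mul_comm k t'] at h
      have := Nat.le_of_dvd hk0 ((Nat.mul_dvd_mul_iff_left ht').1 h)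
      omega
    have hsub : δ j - δ i = cd * ζ ^ (i : ℕ) * (ζ ^ k - 1) := by
      have : ζ ^ (j : ℕ) = ζ ^ (i : ℕ) * ζ ^ k := by
        rw [← pow_add]
        congr 1
        have : (i : ℕ) < j := hij
        omega
      simp only [hδdef, this]
      ring
    rw [hsub, mul_inv, mul_inv]
    refine mul_mem (mul_mem (rmem (k := N) ?_ dN) (dmem (k := N) ?_ dN))
      (inv_sub_one_mem (pow_mem hζR _) ((Nat.coprime_primes hp hq).2 (by omega)) ?_
        (hne q hq (by omega) p rfl hp.pos) (hne p hp hpr q (mul_comm p q) hq.pos))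
    · rw [inv_pow, hcd, inv_one]
    · rw [inv_pow, ← pow_mul, mul_comm, pow_mul, hζ.pow_eq_one, one_pow, inv_one]
    · rw [← pow_mul, mul_comm, pow_mul, hζ.pow_eq_one, one_pow]
  set T : Mat r := Z.val * Matrix.diagonal e with hTdef
  have hTt : T.BlockTriangular id := hZt.mul (Matrix.blockTriangular_diagonal e)
  have hT1 : ∀ a, T a a = 1 := fun a => by rw [hTdef, Matrix.mul_diagonal, heZ]
  have hTR : ∀ a b, T a b ∈ R := fun a b => by
    rw [hTdef, Matrix.mul_diagonal]; exact mul_mem (mem_inR.1 hZR a b) (heR b)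
  let u : SLC r := ⟨Matrix.of (solU T δ), by
    rw [Matrix.det_of_isUpperTriangular (M := Matrix.of (solU T δ))
      (fun i j h => solU_gt T δ h)]
    simp [solU_self]⟩
  have hud : u * d = Z * E * (d * u) := Subtype.ext (by
    simp only [Matrix.SpecialLinearGroup.coe_mul, hE, hdval]
    exact solU_eq hTt hT1 hδinj)
  -- membership
  have hdiagR : ∀ {g : SLC r} {c : ℂ} {f : Fin r → ℂ}, g.val = c • Matrix.diagonal f →
      c ∈ R → (∀ a, f a ∈ R) → g ∈ inR R r := fun hg hc hf => mem_inR.2 fun a b => by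
    by_cases h : a = b
    · subst h; simpa [hg] using mul_mem hc (hf a)
    · simp [hg, h]
  have hDR : D ∈ inR R r := hdiagR hDv (rmem hcD dm) fun a => dmem (hpDm a) dm
  have hdR : d ∈ inR R r := hdiagR hdv hcdR fun a => pow_mem hζR _
  have hPR : P ∈ inR R r := mem_inR.2 fun a b => by
    rw [hPv, Matrix.smul_apply, smul_eq_mul]
    refine mul_mem (rmem hcP (dvd_mul_right 2 _)) ?_
    simp only [PEquiv.toMatrix_apply]
    split_ifs
    exacts [one_mem R, zero_mem R]
  have huR : u ∈ inR R r := mem_inR.2 fun a b => solU_mem hTR hδR hinv a b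
  -- the point
  let A : Fin (n + 2 + 1) → SLC r := Fin.cons 1 (Fin.cons D (Fin.cons d fun _ => 1))
  let B : Fin (n + 2 + 1) → SLC r := Fin.cons 1 (Fin.cons P (Fin.cons u fun _ => 1))
  let σ : PRep (n + 2) s (SLC r) := ((A, B), fun _ => 1)
  have hpc : pc z σ = z := funext fun j => by simp [pc, σ]
  have htail : tailComm (A, B) = E :: ⁅d, u⁆ :: List.replicate n 1 := by
    simp [tailComm, A, B, List.ofFn_succ, E, List.ofFn_const, commutatorElement_def]
  refine ⟨M, hM, hzR, σ, rfl, ?_, ⟨fun i => ?_, fun j => one_mem _⟩, ?_⟩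
  · have hF : ⁅d, u⁆ = (Z * E)⁻¹ := by
      rw [commutatorElement_def, eq_inv_iff_mul_eq_one]
      have : Z * E = u * d * u⁻¹ * d⁻¹ := by rw [hud]; group
      rw [this]
      group
    rw [relP, pprod, hpc, ← hZ, relator, htail]
    simp [σ, A, B, hF]
  · refine Fin.cases ⟨one_mem _, one_mem _⟩ (fun i => ?_) i
    refine Fin.cases ⟨hDR, hPR⟩ (fun i => ?_) i
    refine Fin.cases ⟨hdR, huR⟩ (fun i => ?_) i
    simp [σ, A, B]
  · let l₁ : Lt (n + 2) s := .inl (1, false)
    let l₂ : Lt (n + 2) s := .inl (0, true)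
    have hx₁ : xlet z σ l₁ = d := by
      have hc : E * d = d * E := Subtype.ext (by
        simp only [Matrix.SpecialLinearGroup.coe_mul, hE, hdval, Matrix.diagonal_mul_diagonal]
        simp [mul_comm])
      have hm1 : mid σ.1 (1 : Fin (n + 2)) = E := by
        show ((tailComm (A, B)).take 1).prod = E
        simp [htail]
      show mid σ.1 (1 : Fin (n + 2)) * d * (mid σ.1 (1 : Fin (n + 2)))⁻¹ = d
      rw [hm1, hc, mul_inv_cancel_right]
    have hx₂ : xlet z σ l₂ = E * P := by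
      have hm0 : mid σ.1 (0 : Fin (n + 2)) = 1 := by simp [mid]
      show mid σ.1 (0 : Fin (n + 2)) * (D * P * D⁻¹) * (mid σ.1 (0 : Fin (n + 2)))⁻¹ = E * P
      rw [hm0, hEdef]
      group
    have hPi : (P⁻¹).val = cP⁻¹ • (σc⁻¹).permMatrix ℂ := by
      refine left_inv_eq_right_inv (a := P.val) ?_ ?_
      · rw [← Matrix.SpecialLinearGroup.coe_mul, inv_mul_cancel, Matrix.SpecialLinearGroup.coe_one]
      · rw [hPv, smul_mul_smul_comm, ← Matrix.permMatrix_mul, inv_mul_cancel, mul_inv_cancel₀ hcP0,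
          Matrix.permMatrix_one, one_smul]
    have hinvdiag : ∀ {g : SLC r} {f : Fin r → ℂ}, g.val = Matrix.diagonal f → (∀ a, f a ≠ 0) →
        g⁻¹.val = Matrix.diagonal fun a => (f a)⁻¹ := fun {g f} hg hf => by
      refine left_inv_eq_right_inv (a := g.val) ?_ ?_
      · rw [← Matrix.SpecialLinearGroup.coe_mul, inv_mul_cancel, Matrix.SpecialLinearGroup.coe_one]
      · rw [hg, Matrix.diagonal_mul_diagonal, ← Matrix.diagonal_one]
        exact congrArg _ (funext fun a => mul_inv_cancel₀ (hf a))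
    have hδ0 : ∀ a, δ a ≠ 0 := fun a => mul_ne_zero hcd0 (pow_ne_zero _ (hζ.ne_zero hN0.ne'))
    have hX : ∀ a b, (xlet z σ l₂)⁻¹.val a b =
        if σc.symm a = b then cP⁻¹ * (e b)⁻¹ else 0 := fun a b => by
      rw [hx₂, _root_.mul_inv_rev, Matrix.SpecialLinearGroup.coe_mul, hPi, hinvdiag hE he0,
        Matrix.mul_diagonal, Matrix.smul_apply]
      simp [PEquiv.toMatrix_apply, Equiv.toPEquiv_apply]
    refine full_of_diag_cycle l₁ l₂ (δ := fun a => (δ a)⁻¹)
      (fun a b h => hδinj (inv_injective h)) (by simp [hx₁, hinvdiag hdval hδ0]) σc.symm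
      (fun i j => ?_) (fun i => ?_) fun i j hij => ?_
    · obtain ⟨a, ha⟩ : ∃ a, σc^[a] j = i := ⟨(r + i - j) % r, Fin.ext (by
        rw [hσc, finRotate_iterate, Nat.add_mod_mod]
        have := i.isLt
        have := j.isLt
        rw [show (j : ℕ) + (r + i - j) = i + r by omega, Nat.add_mod_right,
          Nat.mod_eq_of_lt i.isLt])⟩
      refine ⟨a, ?_⟩
      rw [← ha]
      exact Function.LeftInverse.iterate σc.symm_apply_apply a j
    · show (xlet z σ l₂)⁻¹.val i (σc.symm i) ≠ 0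
      rw [hX, if_pos rfl]
      exact mul_ne_zero (inv_ne_zero hcP0) (inv_ne_zero (he0 _))
    · show (xlet z σ l₂)⁻¹.val i j = 0
      rw [hX, if_neg (Ne.symm hij)]

end Vale.Agent.P002
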