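import Vale.Agent.P002.Density

/-!
Punctured surface groups with prescribed boundary classes: the closure of the points over a
subring, and the moves along the handles and along the punctures.

A representation with boundary classes given by representatives `z j` is recorded by its handles
and by conjugators `u j`, the loop around the puncture `j` going to `u j * z j * (u j)⁻¹`.
-/

namespace Vale.Agent.P002

open Matrix MvPolynomial
open scoped commutatorElement

variable {r n s : ℕ}

/-- Handles together with conjugators for the punctures. -/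
abbrev PRep (n s : ℕ) (G : Type*) := Handles n G × (Fin s → G)

section Group

variable {G : Type*} [Group G]

/-- The loop around a puncture. -/
def pc (z : Fin s → G) (σ : PRep n s G) (j : Fin s) : G := σ.2 j * z j * (σ.2 j)⁻¹

/-- The product of the loops around the punctures. -/
def pprod (z : Fin s → G) (σ : PRep n s G) : G := (List.ofFn (pc z σ)).prod

/-- The relation of the punctured surface. -/
def relP (z : Fin s → G) (σ : PRep n s G) : G := relator σ.1 * pprod z σ

/-- The product of everything strictly between the first handle and the puncture `j`. -/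
def pmid (z : Fin s → G) (σ : PRep n s G) (j : Fin s) : G :=
  (tailComm σ.1).prod * ((List.ofFn (pc z σ)).take j).prod

/-- Turn a handle: `(a, b) ↦ (a b a⁻¹, a⁻¹)`. -/
def hrot (k : Fin n) (ρ : Handles n G) : Handles n G :=
  (Function.update ρ.1 k.succ (ρ.1 k.succ * ρ.2 k.succ * (ρ.1 k.succ)⁻¹),
   Function.update ρ.2 k.succ (ρ.1 k.succ)⁻¹)

/-- Its inverse. -/
def hrotInv (k : Fin n) (ρ : Handles n G) : Handles n G :=
  (Function.update ρ.1 k.succ (ρ.2 k.succ)⁻¹,
   Function.update ρ.2 k.succ (ρ.2 k.succ * ρ.1 k.succ * (ρ.2 k.succ)⁻¹))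

/-- The substitution along a puncture. -/
def pslide (z : Fin s → G) (j : Fin s) (σ : PRep n s G) : PRep n s G :=
  let K := pmid z σ j
  let x := K * pc z σ j * K⁻¹
  let b := x⁻¹ * σ.1.2 0 * x
  ((Function.update σ.1.1 0 (σ.1.1 0 * x), Function.update σ.1.2 0 b),
   Function.update σ.2 j (K⁻¹ * b * K * σ.2 j))

/-- Its inverse. -/
def pslideInv (z : Fin s → G) (j : Fin s) (σ : PRep n s G) : PRep n s G :=
  let K := pmid z σ j
  let b' := σ.1.2 0
  let x := b'⁻¹ * (K * pc z σ j * K⁻¹) * b'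
  ((Function.update σ.1.1 0 (σ.1.1 0 * x⁻¹), Function.update σ.1.2 0 (x * b' * x⁻¹)),
   Function.update σ.2 j (K⁻¹ * b'⁻¹ * K * σ.2 j))

/-- The letters: two substitutions for each of the last handles, one for each puncture. -/
abbrev Lt (n s : ℕ) := (Fin n × Bool) ⊕ Fin s

/-- The substitution of a letter. -/
def pfwd (z : Fin s → G) : Lt n s → PRep n s G → PRep n s G
  | .inl (k, false), σ => (fwd k σ.1, σ.2)
  | .inl (k, true), σ => (hrotInv k (fwd k (hrot k σ.1)), σ.2)
  | .inr j, σ => pslide z j σ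

/-- Its inverse. -/
def pbwd (z : Fin s → G) : Lt n s → PRep n s G → PRep n s G
  | .inl (k, false), σ => (bwd k σ.1, σ.2)
  | .inl (k, true), σ => (hrotInv k (bwd k (hrot k σ.1)), σ.2)
  | .inr j, σ => pslideInv z j σ

/-- Composite substitution along a word. -/
def pfwds (z : Fin s → G) : List (Lt n s) → PRep n s G → PRep n s G
  | [], σ => σ
  | m :: l, σ => pfwds z l (pfwd z m σ)

/-- Inverse of the composite substitution. -/
def pbwds (z : Fin s → G) : List (Lt n s) → PRep n s G → PRep n s G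
  | [], σ => σ
  | m :: l, σ => pbwd z m (pbwds z l σ)

/-- Multiply `b₀` on the right. -/
def ptwist (σ : PRep n s G) (w : G) : PRep n s G := (twist σ.1 w, σ.2)

/-- The element by which a letter multiplies `a₀` at a point with `b₀ = 1`. -/
def xlet (z : Fin s → G) (σ : PRep n s G) : Lt n s → G
  | .inl (k, false) => mid σ.1 k * σ.1.1 k.succ * (mid σ.1 k)⁻¹
  | .inl (k, true) =>
    mid σ.1 k * (σ.1.1 k.succ * σ.1.2 k.succ * (σ.1.1 k.succ)⁻¹) * (mid σ.1 k)⁻¹
  | .inr j => pmid z σ j * pc z σ j * (pmid z σ j)⁻¹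

lemma tailComm_hrot (k : Fin n) (ρ : Handles n G) : tailComm (hrot k ρ) = tailComm ρ := by
  simp only [tailComm]
  congr 1
  funext i
  by_cases h : i = k
  · subst h
    simp [hrot, commutatorElement_def, mul_assoc]
  · simp [hrot, Fin.succ_inj, h]

lemma tailComm_hrotInv (k : Fin n) (ρ : Handles n G) : tailComm (hrotInv k ρ) = tailComm ρ := by
  simp only [tailComm]
  congr 1
  funext i
  by_cases h : i = k
  · subst h
    simp [hrotInv, commutatorElement_def, mul_assoc]
  · simp [hrotInv, Fin.succ_inj, h]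

lemma hrot_relator (k : Fin n) (ρ : Handles n G) : relator (hrot k ρ) = relator ρ := by
  rw [relator, relator, tailComm_hrot]
  simp [hrot, (Fin.succ_ne_zero k).symm]

lemma hrotInv_relator (k : Fin n) (ρ : Handles n G) : relator (hrotInv k ρ) = relator ρ := by
  rw [relator, relator, tailComm_hrotInv]
  simp [hrotInv, (Fin.succ_ne_zero k).symm]

lemma hrot_hrotInv (k : Fin n) (ρ : Handles n G) : hrot k (hrotInv k ρ) = ρ := by
  refine Prod.ext (funext fun i => ?_) (funext fun i => ?_) <;>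
    by_cases h : i = k.succ <;> simp [hrot, hrotInv, h, mul_assoc]

lemma hrotInv_hrot (k : Fin n) (ρ : Handles n G) : hrotInv k (hrot k ρ) = ρ := by
  refine Prod.ext (funext fun i => ?_) (funext fun i => ?_) <;>
    by_cases h : i = k.succ <;> simp [hrot, hrotInv, h, mul_assoc]

variable {z : Fin s → G}

lemma pprod_congr {σ τ : PRep n s G} (h : σ.2 = τ.2) : pprod z σ = pprod z τ := by
  simp only [pprod]
  congr 2
  funext j
  simp [pc, h]

lemma take_pc_update (σ : PRep n s G) (ρ : Handles n G) (j : Fin s) (v : G) :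
    (List.ofFn (pc z (ρ, Function.update σ.2 j v))).take j = (List.ofFn (pc z σ)).take j := by
  refine List.ext_getElem (by simp) fun i h1 h2 => ?_
  simp only [List.getElem_take, List.getElem_ofFn]
  have hij : i < (j : ℕ) := by simp at h1; omega
  simp [pc, Fin.ext_iff, hij.ne]

lemma drop_pc_update (σ : PRep n s G) (ρ : Handles n G) (j : Fin s) (v : G) :
    (List.ofFn (pc z (ρ, Function.update σ.2 j v))).drop (j + 1) =
      (List.ofFn (pc z σ)).drop (j + 1) := by
  refine List.ext_getElem (by simp) fun i h1 h2 => ?_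
  simp [List.getElem_drop, pc, Fin.ext_iff, show (j : ℕ) + 1 + i ≠ j by omega]

lemma relP_split (σ : PRep n s G) (j : Fin s) :
    relP z σ = ⁅σ.1.1 0, σ.1.2 0⁆ * (pmid z σ j * pc z σ j) *
      ((List.ofFn (pc z σ)).drop (j + 1)).prod := by
  have hl : (j : ℕ) < (List.ofFn (pc z σ)).length := by simp
  rw [relP, pprod]
  conv_lhs => rw [← List.take_append_drop (j : ℕ) (List.ofFn (pc z σ)), List.prod_append,
    List.drop_eq_getElem_cons hl, List.prod_cons]
  simp [relator, pmid, mul_assoc]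

lemma pmid_update (σ : PRep n s G) (j : Fin s) (a b v : G) :
    pmid z ((Function.update σ.1.1 0 a, Function.update σ.1.2 0 b), Function.update σ.2 j v) j =
      pmid z σ j := by
  simp [pmid, take_pc_update, tailComm, Fin.succ_ne_zero]

lemma pslide_relP (j : Fin s) (σ : PRep n s G) : relP z (pslide z j σ) = relP z σ := by
  rw [relP_split _ j, relP_split σ j]
  simp only [pslide, pmid_update, drop_pc_update, Function.update_self]
  congr 1
  simp only [pc, Function.update_self, commutatorElement_def]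
  group

lemma pslideInv_pslide (j : Fin s) (σ : PRep n s G) : pslideInv z j (pslide z j σ) = σ := by
  set K := pmid z σ j with hK
  simp only [pslideInv, pslide, pmid_update, ← hK, Function.update_self, Function.update_idem]
  refine Prod.ext (Prod.ext (funext fun i => ?_) (funext fun i => ?_)) (funext fun i => ?_)
  · by_cases h : i = 0
    · subst h; simp only [Function.update_self, pc]; group
    · simp [h]
  · by_cases h : i = 0
    · subst h; simp only [Function.update_self, pc]; group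
    · simp [h]
  · by_cases h : i = j
    · subst h; simp only [Function.update_self, pc]; group
    · simp [h]

lemma pslide_pslideInv (j : Fin s) (σ : PRep n s G) : pslide z j (pslideInv z j σ) = σ := by
  set K := pmid z σ j with hK
  simp only [pslideInv, pslide, pmid_update, ← hK, Function.update_self, Function.update_idem]
  refine Prod.ext (Prod.ext (funext fun i => ?_) (funext fun i => ?_)) (funext fun i => ?_)
  · by_cases h : i = 0
    · subst h; simp only [Function.update_self, pc]; group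
    · simp [h]
  · by_cases h : i = 0
    · subst h; simp only [Function.update_self, pc]; group
    · simp [h]
  · by_cases h : i = j
    · subst h; simp only [Function.update_self, pc]; group
    · simp [h]

lemma pfwd_pbwd : ∀ (m : Lt n s) (σ : PRep n s G), pfwd z m (pbwd z m σ) = σ
  | .inl (k, false), σ => by simp [pfwd, pbwd, fwd_bwd]
  | .inl (k, true), σ => by simp [pfwd, pbwd, hrot_hrotInv, fwd_bwd, hrotInv_hrot]
  | .inr j, σ => pslide_pslideInv j σ

lemma pbwd_pfwd : ∀ (m : Lt n s) (σ : PRep n s G), pbwd z m (pfwd z m σ) = σ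
  | .inl (k, false), σ => by simp [pfwd, pbwd, bwd_fwd]
  | .inl (k, true), σ => by simp [pfwd, pbwd, hrot_hrotInv, bwd_fwd, hrotInv_hrot]
  | .inr j, σ => pslideInv_pslide j σ

lemma pfwds_pbwds : ∀ (l : List (Lt n s)) (σ : PRep n s G), pfwds z l (pbwds z l σ) = σ
  | [], _ => rfl
  | m :: l, σ => by simp [pfwds, pbwds, pfwd_pbwd, pfwds_pbwds l]

lemma relP_pfwd : ∀ (m : Lt n s) (σ : PRep n s G), relP z (pfwd z m σ) = relP z σ
  | .inl (k, false), σ => by
    simp only [relP, pfwd]
    rw [fwd_relator]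
    rfl
  | .inl (k, true), σ => by
    simp only [relP, pfwd]
    rw [hrotInv_relator, fwd_relator, hrot_relator]
    rfl
  | .inr j, σ => pslide_relP j σ

lemma relP_pbwd (m : Lt n s) (σ : PRep n s G) : relP z (pbwd z m σ) = relP z σ := by
  conv_rhs => rw [← pfwd_pbwd (z := z) m σ, relP_pfwd]

lemma relP_pfwds : ∀ (l : List (Lt n s)) (σ : PRep n s G), relP z (pfwds z l σ) = relP z σ
  | [], _ => rfl
  | m :: l, σ => by rw [pfwds, relP_pfwds l, relP_pfwd]

lemma relP_pbwds : ∀ (l : List (Lt n s)) (σ : PRep n s G), relP z (pbwds z l σ) = relP z σ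
  | [], _ => rfl
  | m :: l, σ => by rw [pbwds, relP_pbwd, relP_pbwds l]

lemma relP_ptwist (σ : PRep n s G) {w : G} (hw : Commute (σ.1.1 0) w) :
    relP z (ptwist σ w) = relP z σ := by
  simp only [relP, ptwist]
  rw [twist_relator σ.1 hw]
  rfl

/-- At a point with `b₀ = 1` a substitution only multiplies `a₀`. -/
lemma pfwd_base : ∀ (m : Lt n s) (σ : PRep n s G), σ.1.2 0 = 1 →
    pfwd z m σ = ((Function.update σ.1.1 0 (σ.1.1 0 * xlet z σ m), σ.1.2), σ.2)
  | .inl (k, c), σ, hb => by
    have h0 : (k.succ : Fin (n + 1)) ≠ 0 := Fin.succ_ne_zero k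
    have hm : mid (hrot k σ.1) k = mid σ.1 k := by simp only [mid, tailComm_hrot]
    simp only [hrot, mul_assoc] at hm
    refine Prod.ext (Prod.ext (funext fun i => ?_) (funext fun i => ?_)) ?_
    · by_cases hi : i = 0
      · subst hi
        cases c <;> simp [pfwd, fwd, slide, theta, xlet, hrot, hrotInv, hm, h0.symm, mul_assoc]
      · by_cases hk : i = k.succ
        · subst hk
          cases c <;> simp [pfwd, fwd, slide, theta, hrot, hrotInv, hm, hb, h0, h0.symm, mul_assoc]
        · cases c <;> simp [pfwd, fwd, slide, hrot, hrotInv, hi, hk]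
    · by_cases hi : i = 0
      · subst hi
        cases c <;> simp [pfwd, fwd, slide, theta, hrot, hrotInv, hm, hb, h0.symm, mul_assoc]
      · by_cases hk : i = k.succ
        · subst hk
          cases c <;> simp [pfwd, fwd, slide, theta, hrot, hrotInv, hm, hb, h0, h0.symm, mul_assoc]
        · cases c <;> simp [pfwd, fwd, slide, hrot, hrotInv, hi, hk]
    · cases c <;> rfl
  | .inr j, σ, hb => by
    simp only [pfwd, pslide, xlet, hb, mul_one, inv_mul_cancel, one_mul,
      Function.update_eq_self]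
    refine Prod.ext (Prod.ext rfl ?_) rfl
    conv_rhs => rw [← Function.update_eq_self (0 : Fin (n + 1)) σ.1.2, hb]

lemma xlet_update0 (a : G) : ∀ (m : Lt n s) (σ : PRep n s G),
    xlet z ((Function.update σ.1.1 0 a, σ.1.2), σ.2) m = xlet z σ m
  | .inl (k, c), σ => by cases c <;> simp [xlet, take_tail, Fin.succ_ne_zero]
  | .inr j, σ => by
    have hp : pmid z ((Function.update σ.1.1 0 a, σ.1.2), σ.2) j = pmid z σ j := by
      simp [pmid, tailComm, Fin.succ_ne_zero]
      rfl
    simp only [xlet, hp]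
    rfl

lemma pbwd_base (m : Lt n s) (σ : PRep n s G) (hb : σ.1.2 0 = 1) :
    pbwd z m σ = ((Function.update σ.1.1 0 (σ.1.1 0 * (xlet z σ m)⁻¹), σ.1.2), σ.2) := by
  set τ : PRep n s G := ((Function.update σ.1.1 0 (σ.1.1 0 * (xlet z σ m)⁻¹), σ.1.2), σ.2)
  have h : pfwd z m τ = σ := by
    rw [pfwd_base m τ hb, show xlet z τ m = xlet z σ m from xlet_update0 _ m σ]
    simp [τ]
  conv_lhs => rw [← h, pbwd_pfwd]

end Group

/-- Integral matrices of a subring as complex ones. -/
noncomputable def castR (R : Subring ℂ) (r : ℕ) :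
    Matrix.SpecialLinearGroup (Fin r) R →* SLC r :=
  Matrix.SpecialLinearGroup.map R.subtype

/-- Matrices with entries in a subring. -/
noncomputable def inR (R : Subring ℂ) (r : ℕ) : Subgroup (SLC r) := (castR R r).range

lemma mem_inR {R : Subring ℂ} {g : SLC r} : g ∈ inR R r ↔ ∀ a b, g.val a b ∈ R := by
  constructor
  · rintro ⟨h, rfl⟩ a b
    exact (h.val a b).2
  · intro h
    let M : Matrix (Fin r) (Fin r) R := Matrix.of fun a b => ⟨g.val a b, h a b⟩
    have hM : M.det = 1 := Subtype.val_injective (by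
      show R.subtype M.det = _
      rw [RingHom.map_det]
      exact (congrArg Matrix.det (Matrix.ext fun a b => rfl)).trans g.2)
    exact ⟨⟨M, hM⟩, Subtype.ext (Matrix.ext fun a b => rfl)⟩

/-- All components lie in the subring. -/
def IntP (R : Subring ℂ) (σ : PRep n s (SLC r)) : Prop :=
  (∀ i, σ.1.1 i ∈ inR R r ∧ σ.1.2 i ∈ inR R r) ∧ ∀ j, σ.2 j ∈ inR R r

/-- Coordinates. -/
abbrev PVar (n s r : ℕ) := Var n r ⊕ (Fin s × Fin r × Fin r)

/-- The matrix entries. -/
def coordP (σ : PRep n s (SLC r)) : PVar n s r → ℂ :=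
  Sum.elim (coord σ.1) fun v => (σ.2 v.1).val v.2.1 v.2.2

/-- The points over the subring. -/
def intPtsP (R : Subring ℂ) (n : ℕ) (z : Fin s → SLC r) : Set (PVar n s r → ℂ) :=
  {x | ∃ σ : PRep n s (SLC r), relP z σ = 1 ∧ IntP R σ ∧ x = coordP σ}

/-- Representations at which all polynomials vanishing on the points over the subring vanish. -/
def ZdP (R : Subring ℂ) (n : ℕ) (z : Fin s → SLC r) : Set (PRep n s (SLC r)) :=
  {σ | relP z σ = 1 ∧ coordP σ ∈ polyCl (intPtsP R n z)}

variable {R : Subring ℂ} {z : Fin s → SLC r}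

/-- Maps with polynomial entries preserving the subring. -/
def GoodP (R : Subring ℂ) (f : PRep n s (SLC r) → SLC r) : Prop :=
  (∃ Q : Matrix (Fin r) (Fin r) (MvPolynomial (PVar n s r) ℂ),
    ∀ σ, (f σ).val = (eval (coordP σ)).mapMatrix Q) ∧ ∀ σ, IntP R σ → f σ ∈ inR R r

lemma goodP_stable : Stable (GoodP (n := n) (s := s) (r := r) R) where
  one := ⟨⟨1, fun σ => by simp⟩, fun _ _ => one_mem _⟩
  mul := fun f f' ⟨⟨Q, h⟩, hi⟩ ⟨⟨Q', h'⟩, hi'⟩ =>
    ⟨⟨Q * Q', fun σ => by rw [map_mul, ← h, ← h']; rfl⟩,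
      fun σ hσ => mul_mem (hi σ hσ) (hi' σ hσ)⟩
  inv := fun f ⟨⟨Q, h⟩, hi⟩ => ⟨⟨Q.adjugate, fun σ => by
    rw [RingHom.map_adjugate, ← h, Matrix.SpecialLinearGroup.coe_inv]⟩,
      fun σ hσ => inv_mem (hi σ hσ)⟩

lemma goodP_const {g : SLC r} (hg : g ∈ inR R r) :
    GoodP R fun _ : PRep n s (SLC r) => g :=
  ⟨⟨g.val.map C, fun σ => by ext; simp⟩, fun _ _ => hg⟩

/-- All components satisfy the property. -/
def AllP {X G : Type*} (S : (X → G) → Prop) (ρ : X → PRep n s G) : Prop :=
  AllS S (fun x => (ρ x).1) ∧ ∀ j, S fun x => (ρ x).2 j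

lemma allP_id : AllP (GoodP (n := n) (s := s) (r := r) R) (fun σ => σ) := by
  refine ⟨fun i => ⟨⟨⟨Matrix.of fun a b => X (.inl ((i, false), a, b)), fun σ => ?_⟩, ?_⟩,
    ⟨⟨Matrix.of fun a b => X (.inl ((i, true), a, b)), fun σ => ?_⟩, ?_⟩⟩,
    fun j => ⟨⟨Matrix.of fun a b => X (.inr (j, a, b)), fun σ => ?_⟩, ?_⟩⟩
  · ext a b; simp [coordP, coord]
  · exact fun σ h => (h.1 i).1
  · ext a b; simp [coordP, coord]
  · exact fun σ h => (h.1 i).2
  · ext a b; simp [coordP]
  · exact fun σ h => h.2 j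

section Stable

variable {X G : Type*} [Group G] {S : (X → G) → Prop} {z : Fin s → G}

lemma Stable.pc (hS : Stable S) (hz : ∀ j, S fun _ => z j) {ρ : X → PRep n s G} (h : AllP S ρ)
    (j : Fin s) : S fun x => P002.pc z (ρ x) j :=
  hS.mul _ _ (hS.mul _ _ (h.2 j) (hz j)) (hS.inv _ (h.2 j))

lemma Stable.tailW (hS : Stable S) {ρ : X → Handles n G} (h : AllS S ρ) :
    S fun x => (tailComm (ρ x)).prod := by
  simp only [tailComm, commutatorElement_def]
  exact hS.list_prod (fun (i : Fin n) x =>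
    (ρ x).1 i.succ * (ρ x).2 i.succ * ((ρ x).1 i.succ)⁻¹ * ((ρ x).2 i.succ)⁻¹) fun i =>
    hS.mul _ _ (hS.mul _ _ (hS.mul _ _ (h _).1 (h _).2) (hS.inv _ (h _).1)) (hS.inv _ (h _).2)

lemma Stable.pmid (hS : Stable S) (hz : ∀ j, S fun _ => z j) {ρ : X → PRep n s G}
    (h : AllP S ρ) (j : Fin s) : S fun x => P002.pmid z (ρ x) j := by
  have e : ∀ σ : PRep n s G, ((List.ofFn (P002.pc z σ)).take j).prod =
      (List.ofFn fun i : Fin (j : ℕ) => P002.pc z σ (Fin.castLE j.isLt.le i)).prod := fun σ => by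
    congr 1
    exact List.ext_getElem (by simp) fun i h1 h2 => by simp
  simp only [P002.pmid, e]
  exact hS.mul _ _ (hS.tailW h.1)
    (hS.list_prod (fun i x => P002.pc z (ρ x) (Fin.castLE j.isLt.le i)) fun i => hS.pc hz h _)

lemma AllS.update (hS : Stable S) {ρ : X → Handles n G} (h : AllS S ρ) (i₀ : Fin (n + 1))
    {f g : X → G} (hf : S f) (hg : S g) :
    AllS S fun x => (Function.update (ρ x).1 i₀ (f x), Function.update (ρ x).2 i₀ (g x)) := by
  have := hS.one
  intro i
  by_cases hi : i = i₀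
  · subst hi; simp only [Function.update_self]; exact ⟨hf, hg⟩
  · simp only [Function.update_of_ne hi]; exact h i

lemma Stable.hrot (hS : Stable S) {ρ : X → Handles n G} (h : AllS S ρ) (k : Fin n) :
    AllS S fun x => P002.hrot k (ρ x) :=
  AllS.update hS h _ (hS.mul _ _ (hS.mul _ _ (h _).1 (h _).2) (hS.inv _ (h _).1))
    (hS.inv _ (h _).1)

lemma Stable.hrotInv (hS : Stable S) {ρ : X → Handles n G} (h : AllS S ρ) (k : Fin n) :
    AllS S fun x => P002.hrotInv k (ρ x) :=
  AllS.update hS h _ (hS.inv _ (h _).2)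
    (hS.mul _ _ (hS.mul _ _ (h _).2 (h _).1) (hS.inv _ (h _).2))

lemma Stable.pslide (hS : Stable S) (hz : ∀ j, S fun _ => z j) {ρ : X → PRep n s G}
    (h : AllP S ρ) (j : Fin s) : AllP S fun x => P002.pslide z j (ρ x) := by
  have hK := hS.pmid hz h j
  have hx := hS.mul _ _ (hS.mul _ _ hK (hS.pc hz h j)) (hS.inv _ hK)
  have hb := hS.mul _ _ (hS.mul _ _ (hS.inv _ hx) (h.1 0).2) hx
  refine ⟨AllS.update hS h.1 _ (hS.mul _ _ (h.1 0).1 hx) hb, fun i => ?_⟩
  by_cases hi : i = j
  · subst hi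
    simp only [P002.pslide, Function.update_self]
    exact hS.mul _ _ (hS.mul _ _ (hS.mul _ _ (hS.inv _ hK) hb) hK) (h.2 i)
  · simp only [P002.pslide, Function.update_of_ne hi]
    exact h.2 i

lemma Stable.pslideInv (hS : Stable S) (hz : ∀ j, S fun _ => z j) {ρ : X → PRep n s G}
    (h : AllP S ρ) (j : Fin s) : AllP S fun x => P002.pslideInv z j (ρ x) := by
  have hK := hS.pmid hz h j
  have hb := (h.1 0).2
  have hx := hS.mul _ _ (hS.mul _ _ (hS.inv _ hb)
    (hS.mul _ _ (hS.mul _ _ hK (hS.pc hz h j)) (hS.inv _ hK))) hb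
  refine ⟨AllS.update hS h.1 _ (hS.mul _ _ (h.1 0).1 (hS.inv _ hx))
    (hS.mul _ _ (hS.mul _ _ hx hb) (hS.inv _ hx)), fun i => ?_⟩
  by_cases hi : i = j
  · subst hi
    simp only [P002.pslideInv, Function.update_self]
    exact hS.mul _ _ (hS.mul _ _ (hS.mul _ _ (hS.inv _ hK) (hS.inv _ hb)) hK) (h.2 i)
  · simp only [P002.pslideInv, Function.update_of_ne hi]
    exact h.2 i

lemma Stable.pfwd (hS : Stable S) (hz : ∀ j, S fun _ => z j) {ρ : X → PRep n s G}
    (h : AllP S ρ) : ∀ m : Lt n s, AllP S fun x => P002.pfwd z m (ρ x)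
  | .inl (k, false) => ⟨hS.fwd h.1 k, h.2⟩
  | .inl (k, true) => ⟨hS.hrotInv (hS.fwd (hS.hrot h.1 k) k) k, h.2⟩
  | .inr j => hS.pslide hz h j

lemma Stable.pbwd (hS : Stable S) (hz : ∀ j, S fun _ => z j) {ρ : X → PRep n s G}
    (h : AllP S ρ) : ∀ m : Lt n s, AllP S fun x => P002.pbwd z m (ρ x)
  | .inl (k, false) => ⟨hS.bwd h.1 k, h.2⟩
  | .inl (k, true) => ⟨hS.hrotInv (hS.bwd (hS.hrot h.1 k) k) k, h.2⟩
  | .inr j => hS.pslideInv hz h j

lemma Stable.pfwds (hS : Stable S) (hz : ∀ j, S fun _ => z j) :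
    ∀ (l : List (Lt n s)) {ρ : X → PRep n s G}, AllP S ρ →
      AllP S fun x => P002.pfwds z l (ρ x)
  | [], _, h => h
  | m :: l, _, h => hS.pfwds hz l (hS.pfwd hz h m)

lemma Stable.pbwds (hS : Stable S) (hz : ∀ j, S fun _ => z j) :
    ∀ (l : List (Lt n s)) {ρ : X → PRep n s G}, AllP S ρ →
      AllP S fun x => P002.pbwds z l (ρ x)
  | [], _, h => h
  | m :: l, _, h => hS.pbwd hz (hS.pbwds hz l h) m

end Stable

lemma polyClP_apply {T : PRep n s (SLC r) → PRep n s (SLC r)} (hT : AllP (GoodP R) T)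
    (hrel : ∀ σ, relP z σ = 1 → relP z (T σ) = 1) {σ : PRep n s (SLC r)}
    (hσ : σ ∈ ZdP R n z) : T σ ∈ ZdP R n z := by
  refine ⟨hrel _ hσ.1, ?_⟩
  choose QA hA using fun i => (hT.1 i).1.1
  choose QB hB using fun i => (hT.1 i).2.1
  choose QU hU using fun j => (hT.2 j).1
  let q : PVar n s r → MvPolynomial (PVar n s r) ℂ := Sum.elim
    (fun v => if v.1.2 then QB v.1.1 v.2.1 v.2.2 else QA v.1.1 v.2.1 v.2.2)
    fun v => QU v.1 v.2.1 v.2.2
  have e : ∀ τ, coordP (T τ) = fun v => eval (coordP τ) (q v) := fun τ => by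
    funext v
    rcases v with ⟨⟨i, b⟩, a, c⟩ | ⟨j, a, c⟩
    · cases b <;> simp [coordP, coord, q, hA, hB]
    · simp [coordP, q, hU]
  rw [e]
  refine polyCl_map q ?_ hσ.2
  rintro y ⟨τ, hτ, hτi, rfl⟩
  rw [← e]
  exact subset_polyCl _ ⟨T τ, hrel τ hτ,
    ⟨fun i => ⟨(hT.1 i).1.2 τ hτi, (hT.1 i).2.2 τ hτi⟩, fun j => (hT.2 j).2 τ hτi⟩, rfl⟩

lemma pfwds_mem (hz : ∀ j, z j ∈ inR R r) (l : List (Lt n s)) {σ : PRep n s (SLC r)}
    (hσ : σ ∈ ZdP R n z) : pfwds z l σ ∈ ZdP R n z :=
  polyClP_apply (goodP_stable.pfwds (fun j => goodP_const (hz j)) l allP_id)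
    (fun τ h => by rw [relP_pfwds, h]) hσ

lemma pbwds_mem (hz : ∀ j, z j ∈ inR R r) (l : List (Lt n s)) {σ : PRep n s (SLC r)}
    (hσ : σ ∈ ZdP R n z) : pbwds z l σ ∈ ZdP R n z :=
  polyClP_apply (goodP_stable.pbwds (fun j => goodP_const (hz j)) l allP_id)
    (fun τ h => by rw [relP_pbwds, h]) hσ

lemma ptwist_pow_mem {σ : PRep n s (SLC r)} (hσ : σ ∈ ZdP R n z) (m : ℕ) :
    ptwist σ (σ.1.1 0 ^ m) ∈ ZdP R n z := by
  refine polyClP_apply (T := fun τ => ptwist τ (τ.1.1 0 ^ m)) ⟨?_, allP_id.2⟩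
    (fun τ h => by rw [relP_ptwist τ ((Commute.refl _).pow_right m), h]) hσ
  intro i
  refine ⟨(allP_id.1 i).1, ?_⟩
  have hS := goodP_stable (n := n) (s := s) (r := r) (R := R)
  have hp : GoodP R fun τ : PRep n s (SLC r) => τ.1.1 0 ^ m := by
    induction m with
    | zero => simpa using hS.one
    | succ m ih => simp only [pow_succ]; exact hS.mul _ _ ih (allP_id.1 0).1
  by_cases h0 : i = 0
  · subst h0
    simp only [ptwist, twist, Function.update_self]
    exact hS.mul _ _ (allP_id.1 0).2 hp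
  · simp only [ptwist, twist, Function.update_of_ne h0]
    exact (allP_id.1 i).2

/-- The integers of a cyclotomic field, as a subring of the complex numbers. -/
noncomputable def cycInt (M : ℕ) : Subring ℂ :=
  (IntermediateField.adjoin ℚ {Complex.exp (2 * Real.pi * Complex.I / M)}).toSubfield.toSubring ⊓
    (integralClosure ℤ ℂ).toSubring

lemma mem_cycInt {M : ℕ} {x : ℂ} : x ∈ cycInt M ↔
    x ∈ IntermediateField.adjoin ℚ {Complex.exp (2 * Real.pi * Complex.I / M)} ∧
      IsIntegral ℤ x :=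
  Iff.rfl

end Vale.Agent.P002
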