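import Vale.Agent.P002.Punct.Flow

/-!
Velocities of pushed twists at a point with `b₀ = 1`, and the linearised constraints there.
-/

namespace Vale.Agent.P002

open Matrix Filter Topology
open scoped ContDiff commutatorElement

variable {r n s : ℕ} {z : Fin s → SLC r} {R : Subring ℂ}

/-- The letters, numbered. -/
noncomputable def lE (n s : ℕ) : Fin (Fintype.card (Lt n s)) ≃ Lt n s := (Fintype.equivFin _).symm

/-- The abstract handlebody tuple of a point: `a₀` followed by the letters. -/
noncomputable def tailA (z : Fin s → SLC r) (σ : PRep n s (SLC r)) (v : SLC r) :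
    Fin (Fintype.card (Lt n s) + 1) → SLC r :=
  Fin.cons v fun i => xlet z σ (lE n s i)

lemma tailA_succ (σ : PRep n s (SLC r)) (v : SLC r) (i : Fin (Fintype.card (Lt n s))) :
    tailA z σ v i.succ = xlet z σ (lE n s i) := by simp [tailA]

/-- Remove the `a₀` slot. -/
noncomputable def projA : (PVar n s r → ℂ) →ₗ[ℂ] (PVar n s r → ℂ) where
  toFun w := w - put (sa0 n s) (slotM w (sa0 n s))
  map_add' w w' := by rw [slotM_add, map_add]; abel
  map_smul' c w := by rw [RingHom.id_apply, slotM_smul, map_smul, smul_sub]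

lemma slotM_projA (w : PVar n s r → ℂ) (v : Sl n s) :
    slotM (projA w) v = if v = sa0 n s then 0 else slotM w v := by
  simp only [projA, LinearMap.coe_mk, AddHom.coe_mk, slotM_sub, slotM_put]
  split_ifs with h
  · subst h; simp
  · simp

/-- From abstract variations to tangent vectors. -/
noncomputable def liftT (z : Fin s → SLC r) (σ : PRep n s (SLC r)) :
    (Fin (Fintype.card (Lt n s) + 1) → Mat r) →ₗ[ℂ] (PVar n s r → ℂ) :=
  put (sb0 n s) ∘ₗ LinearMap.proj (R := ℂ) (φ := fun _ => Mat r) 0 -
    ∑ i, ell z σ (lE n s i) ∘ₗ adj (xlet z σ (lE n s i)) ∘ₗ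
      LinearMap.proj (R := ℂ) (φ := fun _ => Mat r) i.succ

lemma liftT_apply (σ : PRep n s (SLC r)) (β : Fin (Fintype.card (Lt n s) + 1) → Mat r) :
    liftT z σ β = put (sb0 n s) (β 0) -
      ∑ i, ell z σ (lE n s i) (adj (xlet z σ (lE n s i)) (β i.succ)) := by
  simp [liftT]

lemma slot_liftT_b (σ : PRep n s (SLC r)) (β : Fin (Fintype.card (Lt n s) + 1) → Mat r) :
    slotM (liftT z σ β) (sb0 n s) = β 0 := by
  simp [liftT_apply, slotM_sub, slotM_sum, slotM_put, slot_ell_head]

lemma slot_liftT_a (σ : PRep n s (SLC r)) (β : Fin (Fintype.card (Lt n s) + 1) → Mat r) :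
    slotM (liftT z σ β) (sa0 n s) = 0 := by
  simp [liftT_apply, slotM_sub, slotM_sum, slotM_put, slot_ell_head]

lemma ell_setA (σ : PRep n s (SLC r)) (a : SLC r) : ∀ m : Lt n s,
    ell z (setA σ a) m = ell z σ m := by
  intro m
  have hm : ∀ k : Fin n, mid (setA σ a).1 k = mid σ.1 k := fun k => by
    simp [setA, take_tail, Fin.succ_ne_zero]
  have hp : ∀ j, pmid z (setA σ a) j = pmid z σ j := fun j => by
    simp [pmid, tailComm, setA, Fin.succ_ne_zero]
    rfl
  rcases m with ⟨k, _ | _⟩ | j <;> simp only [ell, xlet_setA, hm, hp] <;>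
    simp [setA, Fin.succ_ne_zero]

lemma liftT_step (σ : PRep n s (SLC r)) (v : SLC r) (k : Fin (Fintype.card (Lt n s)))
    (β : Fin (Fintype.card (Lt n s) + 1) → Mat r) :
    liftT z σ (step (tailA z σ v) k β) = liftT z σ β - put (sb0 n s) (β 0) +
      put (sb0 n s) (adj (xlet z σ (lE n s k))⁻¹ (β 0)) + ell z σ (lE n s k) (β 0) := by
  classical
  set x := xlet z σ (lE n s k) with hx
  set Z := adj x⁻¹ (β 0)
  have hZ : (tailA z σ v k.succ)⁻¹.val * β 0 * (tailA z σ v k.succ).val = Z := by
    rw [tailA_succ]; simp [Z, adj_apply, hx]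
  have hs : step (tailA z σ v) k β = β + (Pi.single 0 (Z - β 0) + Pi.single k.succ (-Z)) := by
    have h0 : (k.succ : Fin (Fintype.card (Lt n s) + 1)) ≠ 0 := Fin.succ_ne_zero k
    funext i
    simp only [step, hZ, Pi.add_apply]
    by_cases hk : i = k.succ
    · subst hk; simp [h0, sub_eq_add_neg]
    · by_cases hi : i = 0
      · subst hi; simp [hk]
      · simp [hk, hi]
  have h1 : ∀ Y : Mat r, liftT z σ (Pi.single 0 Y) = put (sb0 n s) Y := fun Y => by
    simp [liftT_apply, Fin.succ_ne_zero]
  have h2 : ∀ Y : Mat r, liftT z σ (Pi.single k.succ Y) = -ell z σ (lE n s k) (adj x Y) := fun Y => by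
    rw [liftT_apply, Pi.single_eq_of_ne (Fin.succ_ne_zero k).symm, map_zero, zero_sub,
      Finset.sum_eq_single k (fun i _ hi => by
        rw [Pi.single_eq_of_ne (fun e => hi (Fin.succ_injective _ e)), map_zero, map_zero]) (by simp),
      Pi.single_eq_same]
  rw [hs, map_add, map_add, h1, h2, map_neg, map_neg, neg_neg, map_sub]
  rw [show adj x Z = β 0 by simp only [Z, ← adj_mul, mul_inv_cancel, adj_one]]
  abel

lemma pbwds_setA (σ : PRep n s (SLC r)) (hb : σ.1.2 0 = 1) :
    ∀ (l : List (Fin (Fintype.card (Lt n s)))) (v : SLC r),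
      pbwds z (l.map (lE n s)) (setA σ v) = setA σ (v * vw (tailA z σ 1) l)
  | [], v => by simp [pbwds, vw]
  | k :: l, v => by
    rw [List.map_cons, pbwds, pbwds_setA σ hb l v, pbwd_base _ _ (by simp [setA, hb]), xlet_setA,
      vw, tailA_succ]
    simp [setA, mul_assoc]

lemma vw_tailA (σ : PRep n s (SLC r)) (v : SLC r) (l : List (Fin (Fintype.card (Lt n s)))) :
    vw (tailA z σ v) l = vw (tailA z σ 1) l :=
  vw_congr (fun k => by simp [tailA]) l

lemma smooth_expM_smul (β : Mat r) : Smooth fun t : ℂ => (expM (t • β)).val :=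
  Smooth.exp (Smooth.tl fun i j => by simpa using contDiff_id.mul contDiff_const)

/-- A letter acting on velocities. -/
lemma step_hasDC (hz : ∀ j, z j ∈ inR R r) {σ : PRep n s (SLC r)} (hb : σ.1.2 0 = 1) (v : SLC r)
    {γ : ℂ → PRep n s (SLC r)} {w : PVar n s r → ℂ} (h0 : γ 0 = setA σ v) (h : HasDC γ w)
    (m : Lt n s) :
    ∃ w', HasDC (fun t => pfwd z m (γ t)) w' ∧
      projA w' = projA w - put (sb0 n s) (slotM w (sb0 n s)) +
        put (sb0 n s) (adj (xlet z σ m)⁻¹ (slotM w (sb0 n s))) +
        ell z σ m (slotM w (sb0 n s)) := by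
  obtain ⟨P, hP, hPT⟩ := exists_extP (R := R) (T := pfwd z m)
    (goodP_stable.pfwd (fun j => goodP_const (hz j)) allP_id m)
  set β := slotM w (sb0 n s) with hβ
  set σv := setA σ v with hσv
  have hvb : σv.1.2 0 = 1 := by simp [σv, setA, hb]
  have hσv1 : setB σv 1 = σv := by
    simp only [setB]
    rw [← hvb, Function.update_eq_self]
  have hβtr : β.trace = 0 := by
    have := trace_left_of_hasD (h (sb0 n s))
    rwa [show slotG (γ 0) (sb0 n s) = 1 by rw [h0]; exact hvb, inv_one,
      Matrix.SpecialLinearGroup.coe_one, Matrix.one_mul] at this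
  have hf : HasD (fun t => (expM (t • β)).val) β :=
    (hasD_expM β).congr (tl_of_trace hβtr)
  have hD := (hP.differentiable (by simp) (coordP σv)).hasFDerivAt
  set DP := fderiv ℂ P (coordP σv)
  have push : ∀ {ξ : ℂ → PRep n s (SLC r)} {u : PVar n s r → ℂ}, ξ 0 = σv → HasDC ξ u →
      HasDC (fun t => pfwd z m (ξ t)) (DP u) := fun {ξ u} hξ hu => by
    refine hasDC_of_hasDerivAt ?_
    simp only [hPT]
    exact hD.comp_hasDerivAt_of_eq 0 hu.hasDerivAt (by rw [hξ])
  have hbc : HasDC (fun t => setB σv (expM (t • β))) (put (sb0 n s) β) := by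
    intro u
    rw [slotM_put]
    by_cases hu : u = sb0 n s
    · subst hu; simpa [slotG, setB] using hf
    · rw [if_neg hu]
      rcases u with ⟨i, c⟩ | j
      · cases c
        · simpa [slotG, setB] using hasD_const _
        · have : i ≠ 0 := fun e => hu (by rw [e])
          simpa [slotG, setB, this] using hasD_const _
      · simpa [slotG, setB] using hasD_const (σv.2 j).val
  have hrest : HasDC (fun t => setB (γ t) 1) (w - put (sb0 n s) β) := by
    intro u
    rw [slotM_sub, slotM_put]
    by_cases hu : u = sb0 n s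
    · subst hu; simpa [slotG, setB, hβ] using hasD_const (1 : Mat r)
    · rw [if_neg hu, sub_zero]
      rcases u with ⟨i, c⟩ | j
      · cases c
        · simpa [slotG, setB] using h (.inl (i, false))
        · have : i ≠ 0 := fun e => hu (by rw [e])
          simpa [slotG, setB, this] using h (.inl (i, true))
      · simpa [slotG, setB] using h (.inr j)
  refine ⟨DP w, push h0 h, ?_⟩
  have h1 := push (ξ := fun t => setB (γ t) 1) (by simp only [h0, hσv1]) hrest
  have h2 := push (ξ := fun t => setB σv (expM (t • β)))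
    (by simp only [zero_smul, expM_zero, hσv1]) hbc
  have h2' := hasDC_pfwd_b (z := z) σv (smooth_expM_smul β) hf (by simp [expM_zero]) m
  have e2 := h2.unique h2'
  rw [xlet_setA, ell_setA] at e2
  have e1 : projA (DP (w - put (sb0 n s) β)) = projA (w - put (sb0 n s) β) := by
    refine slotM_ext fun u => ?_
    rw [slotM_projA, slotM_projA]
    by_cases hu : u = sa0 n s
    · simp [hu]
    · simp only [if_neg hu]
      refine ((h1 u).unique ?_)
      have heq : (fun t => (slotG (pfwd z m (setB (γ t) 1)) u).val) =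
          fun t => (slotG (setB (γ t) 1) u).val := funext fun t => by
        rw [pfwd_base _ _ (by simp [setB])]
        rcases u with ⟨i, c⟩ | j
        · cases c
          · have : i ≠ 0 := fun e => hu (by rw [e])
            simp [slotG, this]
          · simp [slotG]
        · simp [slotG]
      rw [heq]
      exact hrest u
  have hpb : ∀ Y : Mat r, projA (put (sb0 n s) Y) = put (sb0 n s) Y := fun Y => slotM_ext fun u => by
    rw [slotM_projA]
    split_ifs with hu
    · subst hu; simp [slotM_put]
    · rfl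
  have hpe : ∀ Y : Mat r, projA (ell z σ m Y) = ell z σ m Y := fun Y => slotM_ext fun u => by
    rw [slotM_projA]
    split_ifs with hu
    · subst hu; rw [slot_ell_head]
    · rfl
  conv_lhs => rw [← sub_add_cancel w (put (sb0 n s) β), map_add, map_add, e1, e2]
  rw [map_add, map_sub, hpb, hpb, hpe]
  abel

/-- Velocities under a composite substitution. -/
lemma pfwds_hasDC (hz : ∀ j, z j ∈ inR R r) {σ : PRep n s (SLC r)} (hb : σ.1.2 0 = 1) (A₀ : SLC r) :
    ∀ (l : List (Fin (Fintype.card (Lt n s)))) (v : SLC r) {γ : ℂ → PRep n s (SLC r)}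
      {w : PVar n s r → ℂ} {β : Fin (Fintype.card (Lt n s) + 1) → Mat r},
      γ 0 = setA σ v → HasDC γ w → projA w = liftT z σ β →
      ∃ w', HasDC (fun t => pfwds z (l.map (lE n s)) (γ t)) w' ∧
        projA w' = liftT z σ (steps (tailA z σ A₀) l β)
  | [], _, γ, w, β, _, h, hw => ⟨w, h, hw⟩
  | k :: l, v, γ, w, β, h0, h, hw => by
    obtain ⟨w', h', hw'⟩ := step_hasDC hz hb v h0 h (lE n s k)
    have hβ0 : slotM w (sb0 n s) = β 0 := by
      have := congrArg (slotM · (sb0 n s)) hw
      simpa [slotM_projA, slot_liftT_b] using this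
    rw [hβ0, hw, ← liftT_step σ A₀] at hw'
    have h0' : pfwd z (lE n s k) (γ 0) = setA σ (v * xlet z σ (lE n s k)) := by
      rw [h0, pfwd_base _ _ (by simp [setA, hb]), xlet_setA]
      simp [setA]
    obtain ⟨w'', h'', hw''⟩ := pfwds_hasDC hz hb A₀ l _ h0' h' hw'
    exact ⟨w'', by simpa [pfwds] using h'', by simpa [steps] using hw''⟩

/-- The velocity of a conjugated twist. -/
lemma stpP_hasDC (hz : ∀ j, z j ∈ inR R r) {σ : PRep n s (SLC r)} (hb : σ.1.2 0 = 1) (A₀ : SLC r)
    (l : List (Fin (Fintype.card (Lt n s)))) :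
    ∃ w, HasDC (fun t => stpP z (l.map (lE n s)) t (setA σ A₀)) w ∧
      projA w = liftT z σ (dir (tailA z σ A₀) l) := by
  set v := A₀ * vw (tailA z σ 1) l
  let γ : ℂ → PRep n s (SLC r) := fun t => ptwist (setA σ v) (expT t v)
  have hγ0 : γ 0 = setA σ v := by simp [γ, expT_zero, ptwist, twist]
  have hγ : HasDC γ (put (sb0 n s) (tl v.val)) := by
    intro u
    rw [slotM_put]
    by_cases hu : u = sb0 n s
    · subst hu
      simp only [γ, slotG, ptwist, twist, setA, hb, Function.update_self, one_mul, if_true]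
      exact hasD_exp (tl v.val)
    · rw [if_neg hu]
      rcases u with ⟨i, c⟩ | j
      · cases c
        · simpa [γ, slotG, ptwist, twist] using hasD_const _
        · have : i ≠ 0 := fun e => hu (by rw [e])
          simpa [γ, slotG, ptwist, twist, this] using hasD_const _
      · simpa [γ, slotG, ptwist] using hasD_const ((setA σ v).2 j).val
  have hw : projA (put (sb0 n s) (tl v.val)) = liftT z σ (Pi.single 0 (tl v.val)) := by
    refine slotM_ext fun u => ?_
    rw [slotM_projA]
    have e : liftT z σ (Pi.single 0 (tl v.val)) = put (sb0 n s) (tl v.val) := by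
      simp [liftT_apply, Fin.succ_ne_zero]
    rw [e]
    split_ifs with hu
    · subst hu; simp [slotM_put]
    · rfl
  obtain ⟨w', h', hw'⟩ := pfwds_hasDC hz hb A₀ l v hγ0 hγ hw
  refine ⟨w', ?_, ?_⟩
  · have e : ∀ t, stpP z (l.map (lE n s)) t (setA σ A₀) = pfwds z (l.map (lE n s)) (γ t) := fun t => by
      simp only [stpP, γ, pbwds_setA σ hb]
      simp [setA, v]
    simpa only [e] using h'
  · rw [hw', dir]
    simp only [v, vw_tailA σ A₀]
    rfl

/-- The relation as a polynomial map of the coordinates. -/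
def relMatP (z : Fin s → SLC r) (g : PVar n s r → ℂ) : Mat r :=
  relMat (matH g) * (List.ofFn fun j => matU g j * (z j).val * (matU g j).adjugate).prod

/-- The constraints. -/
def consP (z : Fin s → SLC r) (g : PVar n s r → ℂ) : (Sl n s → ℂ) × (Fin r × Fin r → ℂ) :=
  (fun v => (slotM g v).det, fun p => relMatP z g p.1 p.2)

lemma relMatP_coordP (σ : PRep n s (SLC r)) : relMatP z (coordP σ) = (relP z σ).val := by
  let φ : SLC r →* Mat r :=
    { toFun := Subtype.val
      map_one' := Matrix.SpecialLinearGroup.coe_one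
      map_mul' := Matrix.SpecialLinearGroup.coe_mul }
  have e1 : relMat (matH (coordP σ)) = (relator σ.1).val := by
    rw [show matH (coordP σ) = coord σ.1 from rfl, relator_ofFn]
    change _ = φ _
    rw [map_list_prod, List.map_ofFn]
    simp only [relMat, matOf_coord]
    congr
  have e2 : (List.ofFn fun j => matU (coordP σ) j * (z j).val * (matU (coordP σ) j).adjugate).prod =
      (pprod z σ).val := by
    change _ = φ (pprod z σ)
    rw [pprod, map_list_prod, List.map_ofFn]
    congr 2
  rw [relMatP, e1, e2]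
  rfl

lemma consP_coordP (σ : PRep n s (SLC r)) :
    consP z (coordP σ) = (fun _ => 1, fun p => (relP z σ).val p.1 p.2) := by
  refine Prod.ext (funext fun v => ?_) (funext fun p => ?_)
  · simp [consP, slotM_coordP]
  · simp [consP, relMatP_coordP]

lemma contDiff_consP : ContDiff ℂ ω (consP (n := n) z) := by
  have hU : ∀ j, Smooth fun g : PVar n s r → ℂ => matU g j := fun j a b =>
    contDiff_apply ℂ ℂ (Sum.inr (j, a, b))
  have hsl : ∀ v, Smooth fun g : PVar n s r → ℂ => slotM g v := by
    rintro (v | j)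
    · exact fun a b => contDiff_apply ℂ ℂ (Sum.inl (v, a, b))
    · exact hU j
  refine (contDiff_pi.2 fun v => (hsl v).det).prodMk (contDiff_pi.2 fun p => ?_)
  have h1 : Smooth fun g : PVar n s r → ℂ => relMat (matH g) := fun a b =>
    (smooth_relMat (n := n) a b).comp (contDiff_pi.2 fun v => contDiff_apply ℂ ℂ (Sum.inl v))
  have h2 : ∀ {k : ℕ} (f : Fin k → (PVar n s r → ℂ) → Mat r), (∀ i, Smooth (f i)) →
      Smooth fun g => (List.ofFn fun i => f i g).prod := by
    intro k
    induction k with
    | zero => exact fun f _ => by simpa using Smooth.const (1 : Mat r)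
    | succ k ih =>
      intro f hf
      simp only [List.ofFn_succ, List.prod_cons]
      exact (hf 0).mul (ih _ fun i => hf i.succ)
  exact (h1.mul (h2 _ fun j => ((hU j).mul (Smooth.const _)).mul (hU j).adjugate)) p.1 p.2

/-- The differential of the constraints along a curve. -/
lemma dcons_curve {p : PRep n s (SLC r)}
    {D : (PVar n s r → ℂ) →L[ℂ] (Sl n s → ℂ) × (Fin r × Fin r → ℂ)}
    (hD : HasFDerivAt (consP z) D (coordP p)) {γ : ℂ → PRep n s (SLC r)} {w : PVar n s r → ℂ}
    {d : Mat r} (h0 : γ 0 = p) (h : HasDC γ w) (hd : HasD (fun t => (relP z (γ t)).val) d) :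
    D w = (0, fun q => d q.1 q.2) := by
  have h1 : HasDerivAt (fun t => consP z (coordP (γ t))) (D w) 0 :=
    hD.comp_hasDerivAt_of_eq 0 h.hasDerivAt (by rw [h0])
  simp only [consP_coordP] at h1
  exact h1.unique ((hasDerivAt_const 0 _).prodMk (hasDerivAt_pi.2 fun q => hd q.1 q.2))

end Vale.Agent.P002
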