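import Vale.Agent.P002.Punct.Slot

/-!
The base family, twist flows along the first handle and their conjugates by the substitutions stay
in the closure of the points over a subring.
-/

namespace Vale.Agent.P002

open Matrix MvPolynomial
open scoped ContDiff

variable {r n s : ℕ} {R : Subring ℂ} {z : Fin s → SLC r}

lemma relP_setA {G : Type*} [Group G] {w : Fin s → G} (σ : PRep n s G) (a : G)
    (hb : σ.1.2 0 = 1) : relP w (setA σ a) = relP w σ := by
  simp [relP, relator, tailComm, setA, pprod, hb, Fin.succ_ne_zero, commutatorElement_def]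
  rfl

lemma intCast_mem_inR (g : Matrix.SpecialLinearGroup (Fin r) ℤ) : castSL r g ∈ inR R r :=
  mem_inR.2 fun a b => by
    simp only [castSL, Matrix.SpecialLinearGroup.map_apply_coe, RingHom.mapMatrix_apply,
      Matrix.map_apply, eq_intCast]
    exact intCast_mem R _

/-- At an integral point with `b₀ = 1` all values of `a₀` lie in the closure. -/
lemma setA_memP (hr : 2 ≤ r) {σ : PRep n s (SLC r)} (hb : σ.1.2 0 = 1) (hrel : relP z σ = 1)
    (hint : IntP R σ) (a : SLC r) : setA σ a ∈ ZdP R n z := by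
  refine ⟨by rw [relP_setA σ a hb, hrel], ?_⟩
  let q : PVar n s r → MvPolynomial (Fin (0 + 1) × Fin r × Fin r) ℂ := fun v =>
    match v with
    | .inl ((i, c), p, p') => if i = 0 ∧ c = false then X (0, p, p') else
        C (coordP σ (.inl ((i, c), p, p')))
    | .inr x => C (coordP σ (.inr x))
  have e : ∀ g : Fin (0 + 1) → SLC r,
      coordP (setA σ (g 0)) = fun v => eval (coordA g) (q v) := fun g => by
    funext v
    rcases v with ⟨⟨i, c⟩, p, p'⟩ | x
    · by_cases hi : i = 0 <;> cases c <;> simp [q, coordP, coord, setA, coordA, hi]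
    · simp [q, coordP, setA]
  have e' := e fun _ => a
  rw [e']
  refine polyCl_map q ?_ (qset_univ hr fun _ => a)
  rintro y ⟨g, rfl⟩
  rw [← e]
  refine subset_polyCl _ ⟨setA σ (castSL r (g 0)), by rw [relP_setA σ _ hb, hrel],
    ⟨fun i => ⟨?_, (hint.1 i).2⟩, hint.2⟩, rfl⟩
  by_cases hi : i = 0
  · subst hi; simpa [setA] using intCast_mem_inR (R := R) (g 0)
  · simpa [setA, hi] using (hint.1 i).1

lemma ptwist_exp_mem (hr : r ≠ 0) {σ : PRep n s (SLC r)} (hσ : σ ∈ ZdP R n z)
    (hW : GoodW (σ.1.1 0).val) (t : ℂ) : ptwist σ (expT t (σ.1.1 0)) ∈ ZdP R n z := by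
  refine ⟨by rw [relP_ptwist σ (commute_expT t _), hσ.1], fun P hP => ?_⟩
  obtain ⟨U, lam, hind, hW⟩ := hW
  let q : PVar n s r → MvPolynomial (Fin r) ℂ := fun v =>
    match v with
    | .inl (x, a, c) => if x = (0, true) then
        ∑ j, C (((σ.1.2 0).val * U.val) a j) * X j * C ((U⁻¹).val j c)
        else C (coord σ.1 (x, a, c))
    | .inr x => C (coordP σ (.inr x))
  have key : ∀ (μ : Fin r → ℂ) (w : SLC r), w.val = U.val * diagonal μ * (U⁻¹).val →
      eval μ (bind₁ q P) = eval (coordP (ptwist σ w)) P := by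
    intro μ w hw
    rw [eval, eval₂Hom_bind₁]
    refine congrArg (fun f => eval₂Hom (RingHom.id ℂ) f P) (funext fun v => ?_)
    rcases v with ⟨⟨i, b⟩, a, c⟩ | x
    · by_cases h : (i, b) = ((0 : Fin (n + 1)), true)
      · obtain ⟨rfl, rfl⟩ := Prod.mk.injEq .. ▸ h
        simp only [q, if_true, coordP, Sum.elim_inl, coord, ptwist, twist, Function.update_self,
          Matrix.SpecialLinearGroup.coe_mul, hw, map_sum, map_mul, eval₂Hom_C, eval₂Hom_X',
          RingHom.id_apply, ← Matrix.mul_assoc]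
        rw [Matrix.mul_apply]
        simp [Matrix.mul_diagonal]
      · have hb : coord (twist σ.1 w) ((i, b), a, c) = coord σ.1 ((i, b), a, c) := by
          cases b
          · simp [coord, twist]
          · have : i ≠ 0 := fun e => h (by rw [e])
            simp [coord, twist, this]
        simp only [q, if_neg h, eval₂Hom_C, RingHom.id_apply, coordP, Sum.elim_inl, ptwist, hb]
    · simp [q, coordP, ptwist]
  have hpow : ∀ m : ℕ, ((σ.1.1 0) ^ m).val = U.val * diagonal (fun i => lam i ^ m) * (U⁻¹).val :=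
    fun m => by
    rw [Matrix.SpecialLinearGroup.coe_pow, hW, Units.conj_pow, Matrix.diagonal_pow]
    rfl
  have hmem : ∀ m : ℕ, eval (fun i => lam i ^ m) (bind₁ q P) = 0 := fun m => by
    rw [key _ _ (hpow m)]
    exact (ptwist_pow_mem hσ m).2 P hP
  set μ : Fin r → ℂ := fun i => Complex.exp (t * (lam i - (∑ j, lam j) / r)) with hμ
  have htl : (expT t (σ.1.1 0)).val = U.val * diagonal μ * (U⁻¹).val := by
    have e : t • tl (σ.1.1 0).val =
        U.val * diagonal (fun i => t * (lam i - (∑ j, lam j) / r)) * (U⁻¹).val := by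
      have htr : (σ.1.1 0).val.trace = ∑ j, lam j := by
        rw [hW, Matrix.trace_mul_comm, ← Matrix.mul_assoc, Units.inv_mul, Matrix.one_mul,
          Matrix.trace_diagonal]
      rw [tl, htr, hW, show (fun i => t * (lam i - (∑ j, lam j) / r)) =
        t • (fun i => lam i - (∑ j, lam j) / (r : ℂ)) from rfl, Matrix.diagonal_smul,
        mul_smul_comm, smul_mul_assoc t (U.val * diagonal _), ← Matrix.diagonal_sub, mul_sub,
        sub_mul]
      congr 2
      rw [← Matrix.smul_one_eq_diagonal, mul_smul_comm, mul_one, smul_mul_assoc, Units.mul_inv]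
    rw [show (expT t (σ.1.1 0)).val = NormedSpace.exp (t • tl (σ.1.1 0).val) from rfl, e,
      Matrix.exp_units_conj, Matrix.exp_diagonal]
    congr 3
    funext i
    simp [hμ, Complex.exp_eq_exp_ℂ]
  rw [← key μ _ htl]
  refine eval_eq_zero_of_powers hind ?_ hmem
  rw [hμ, ← Complex.exp_sum, ← Finset.mul_sum, Finset.sum_sub_distrib, Finset.sum_const,
    Finset.card_univ, Fintype.card_fin, nsmul_eq_mul,
    mul_div_cancel₀ _ (Nat.cast_ne_zero.2 hr), sub_self, mul_zero, Complex.exp_zero]

/-- A twist conjugated by a substitution. -/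
noncomputable def stpP (z : Fin s → SLC r) (l : List (Lt n s)) (t : ℂ) (σ : PRep n s (SLC r)) :
    PRep n s (SLC r) :=
  pfwds z l (ptwist (pbwds z l σ) (expT t ((pbwds z l σ).1.1 0)))

/-- Successive conjugated twists. -/
noncomputable def flowP (z : Fin s → SLC r) : ∀ {N : ℕ}, (Fin N → List (Lt n s)) → (Fin N → ℂ) →
    PRep n s (SLC r) → PRep n s (SLC r)
  | 0, _, _, σ => σ
  | _ + 1, L, t, σ => stpP z (L 0) (t 0) (flowP z (fun i => L i.succ) (fun i => t i.succ) σ)

lemma stpP_zero (l : List (Lt n s)) (σ : PRep n s (SLC r)) : stpP z l 0 σ = σ := by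
  rw [stpP, expT_zero, ptwist, twist, mul_one, Function.update_eq_self]
  exact pfwds_pbwds l σ

lemma flowP_zero : ∀ {N : ℕ} (L : Fin N → List (Lt n s)) (σ : PRep n s (SLC r)),
    flowP z L 0 σ = σ
  | 0, _, _ => rfl
  | N + 1, L, σ => by
    rw [flowP, Pi.zero_apply, stpP_zero]
    exact flowP_zero (fun i => L i.succ) σ

lemma flowP_single : ∀ {N : ℕ} (L : Fin N → List (Lt n s)) (k : Fin N) (t : ℂ)
    (σ : PRep n s (SLC r)), flowP z L (Pi.single k t) σ = stpP z (L k) t σ
  | 0, _, k, _, _ => k.elim0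
  | N + 1, L, k, t, σ => by
    rw [flowP]
    induction k using Fin.cases with
    | zero =>
      rw [show (fun i : Fin N => (Pi.single 0 t : Fin (N + 1) → ℂ) i.succ) = 0 by
        funext i; simp [Fin.succ_ne_zero], flowP_zero, Pi.single_eq_same]
    | succ j =>
      rw [show (fun i : Fin N => (Pi.single j.succ t : Fin (N + 1) → ℂ) i.succ) = Pi.single j t by
        funext i; simp [Pi.single_apply], flowP_single, Pi.single_eq_of_ne (Fin.succ_ne_zero j).symm,
        stpP_zero]

variable {X : Type*} [NormedAddCommGroup X] [NormedSpace ℂ X]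

lemma smooth_ptwist {σ : X → PRep n s (SLC r)} (hσ : SmoothP σ) {w : X → SLC r}
    (hw : Smooth fun x => (w x).val) : SmoothP fun x => ptwist (σ x) (w x) := by
  refine ⟨fun i => ⟨(hσ.1 i).1, ?_⟩, hσ.2⟩
  by_cases h : i = 0
  · subst h
    simp only [ptwist, twist, Function.update_self]
    exact smooth_stable.mul (fun x => (σ x).1.2 0) w (hσ.1 0).2 hw
  · simp only [ptwist, twist, Function.update_of_ne h]
    exact (hσ.1 i).2

lemma smooth_stpP {σ : X → PRep n s (SLC r)} (hσ : SmoothP σ) {t : X → ℂ}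
    (ht : ContDiff ℂ ω t) (l : List (Lt n s)) : SmoothP fun x => stpP z l (t x) (σ x) := by
  have hS := smooth_stable (r := r) (X := X)
  have hz : ∀ j : Fin s, Smooth fun _ : X => (z j).val := fun j => Smooth.const _
  have hb : SmoothP fun x => pbwds z l (σ x) := hS.pbwds hz l hσ
  have hw : Smooth fun x => (expT (t x) ((pbwds z l (σ x)).1.1 0)).val :=
    Smooth.exp fun i j => ht.mul ((Smooth.tl (hb.1 0).1) i j)
  have ht' : SmoothP fun x => ptwist (pbwds z l (σ x)) (expT (t x) ((pbwds z l (σ x)).1.1 0)) :=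
    smooth_ptwist (σ := fun x => pbwds z l (σ x))
      (w := fun x => expT (t x) ((pbwds z l (σ x)).1.1 0)) hb hw
  show SmoothP fun x => pfwds z l (ptwist (pbwds z l (σ x)) (expT (t x) ((pbwds z l (σ x)).1.1 0)))
  exact hS.pfwds hz l ht'

lemma smooth_flowP : ∀ {N : ℕ} (L : Fin N → List (Lt n s)) {σ : X → PRep n s (SLC r)}
    {t : X → Fin N → ℂ}, SmoothP σ → (∀ k, ContDiff ℂ ω fun x => t x k) →
    SmoothP fun x => flowP z L (t x) (σ x)
  | 0, _, _, _, h, _ => h
  | N + 1, L, σ, t, h, ht => by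
    simp only [flowP]
    exact smooth_stpP (smooth_flowP (fun i => L i.succ) h fun k => ht k.succ) (ht 0) (L 0)

/-- Conjugated twists of a curve in the closure stay in the closure. -/
lemma stpP_mem (hr : r ≠ 0) (hz : ∀ j, z j ∈ inR R r) {σ : ℂ → PRep n s (SLC r)}
    (hσ : SmoothP σ) (hmem : ∀ u, σ u ∈ ZdP R n z) (l : List (Lt n s))
    (h0 : Avoids ((pbwds z l (σ 0)).1.1 0).val) (c u₀ : ℂ) :
    stpP z l (u₀ * c) (σ u₀) ∈ ZdP R n z := by
  refine ⟨?_, fun P hP => ?_⟩
  · rw [stpP, relP_pfwds, relP_ptwist _ (commute_expT _ _), relP_pbwds, (hmem u₀).1]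
  · have hb := smooth_stable.pbwds (z := z) (fun _ => Smooth.const _) l hσ
    have hs : Smooth fun u => ((pbwds z l (σ u)).1.1 0).val := (hb.1 0).1
    have hsm : ∀ Q : MvPolynomial (Fin r × Fin r) ℂ,
        Differentiable ℂ fun u => eval (fun p => ((pbwds z l (σ u)).1.1 0).val p.1 p.2) Q :=
      fun Q => (contDiff_eval (f := fun u (p : Fin r × Fin r) =>
        ((pbwds z l (σ u)).1.1 0).val p.1 p.2) (fun p => hs p.1 p.2) Q).differentiable (by simp)
    have hd : Dense {u | ∀ q : {p : (Fin r → ℕ) × (Fin r → ℕ) // ¬ ConstDiff p.1 p.2},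
        eval (fun p => ((pbwds z l (σ u)).1.1 0).val p.1 p.2) (entryPoly q.1.1 q.1.2) ≠ 0} :=
      dense_avoid _ (fun q => hsm _) fun q => h0 q.1.1 q.1.2 q.2
    have hg : ContDiff ℂ ω fun u => eval (coordP (stpP z l (u * c) (σ u))) P :=
      contDiff_eval (contDiff_pi.1 (SmoothP.coord
        (smooth_stpP hσ (contDiff_id.mul contDiff_const) l))) P
    refine congrFun (hg.continuous.ext_on hd continuous_const fun u hu => ?_) u₀
    have hgood : GoodW ((pbwds z l (σ u)).1.1 0).val :=
      goodW_of_avoids fun d d' h => hu ⟨(d, d'), h⟩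
    exact (pfwds_mem hz l (ptwist_exp_mem hr (pbwds_mem hz l (hmem u)) hgood _)).2 P hP

lemma flowP_mem (hr : r ≠ 0) (hz : ∀ j, z j ∈ inR R r) {p : PRep n s (SLC r)}
    (hA : ∀ l, Avoids ((pbwds z l p).1.1 0).val) {N : ℕ} (L : Fin N → List (Lt n s))
    (t : Fin N → ℂ) {σ : ℂ → PRep n s (SLC r)} (hσ : SmoothP σ) (h : ∀ u, σ u ∈ ZdP R n z)
    (h0 : σ 0 = p) : ∀ u : ℂ, flowP z L (u • t) (σ u) ∈ ZdP R n z := by
  induction N with
  | zero => exact fun u => h u
  | succ N ih =>
    intro u
    set σ' : ℂ → PRep n s (SLC r) :=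
      fun u => flowP z (fun i => L i.succ) (u • fun i => t i.succ) (σ u) with hσ'
    have hσ'0 : σ' 0 = p := by simp only [hσ', zero_smul, flowP_zero, h0]
    have hsm : SmoothP σ' :=
      smooth_flowP (fun i => L i.succ) (σ := σ) (t := fun u : ℂ => u • fun i => t i.succ) hσ
        fun k => contDiff_id.mul contDiff_const
    have hmem : ∀ u, σ' u ∈ ZdP R n z := ih (fun i => L i.succ) (fun i => t i.succ)
    have hav : Avoids ((pbwds z (L 0) (σ' 0)).1.1 0).val := by rw [hσ'0]; exact hA (L 0)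
    exact stpP_mem hr hz hsm hmem (L 0) hav (t 0) u

end Vale.Agent.P002
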