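import Vale.Agent.P002.Punct.Chart

/-!
A neighbourhood of a point with `b₀ = 1` lies in the closure of the points over a subring.
-/

namespace Vale.Agent.P002

open Matrix Filter Topology
open scoped ContDiff commutatorElement

variable {r n s : ℕ} {z : Fin s → SLC r} {R : Subring ℂ}

lemma vw_eq_prod {N : ℕ} (A : Fin (N + 1) → SLC r) : ∀ l : List (Fin N),
    (vw A l).val = (l.reverse.map fun k => (A k.succ)⁻¹.val).prod
  | [] => by simp [vw]
  | k :: l => by
    rw [vw, Matrix.SpecialLinearGroup.coe_mul, vw_eq_prod A l, List.reverse_cons, List.map_append,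
      List.prod_append]
    simp

lemma span_vw_top {σ : PRep n s (SLC r)} (A₀ : SLC r)
    (hspan : Full fun m : Lt n s => (xlet z σ m)⁻¹.val) :
    Submodule.span ℂ (Set.range fun l => (vw (tailA z σ A₀) l).val) = ⊤ := by
  rw [eq_top_iff, ← hspan]
  refine Submodule.span_mono ?_
  rintro _ ⟨l, rfl⟩
  refine ⟨(l.map (lE n s).symm).reverse, ?_⟩
  simp [vw_eq_prod, List.map_map, Function.comp_def, tailA_succ]

/-- Commuting with a matrix is stable under the group operations. -/
lemma commute_stable (Y : Mat r) :
    Stable fun f : Unit → SLC r => Commute (f ()).val Y where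
  one := by simp
  mul := fun f g hf hg => by
    simp only [Matrix.SpecialLinearGroup.coe_mul]; exact hf.mul_left hg
  inv := fun _ hf => commute_inv_val hf

/-- Commuting with all tail generators forces commuting with all letters. -/
lemma commute_xlet {σ : PRep n s (SLC r)} {Y : Mat r}
    (h : ∀ v, Commute (tgensP z σ v) Y) (m : Lt n s) : Commute (xlet z σ m).val Y := by
  have hS := commute_stable (r := r) Y
  set σ' : PRep n s (SLC r) := setB (setA σ 1) 1 with hσ'
  have hA : AllS (fun f : Unit → SLC r => Commute (f ()).val Y) fun _ => σ'.1 := fun i => by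
    by_cases hi : i = 0
    · subst hi; simp [hσ', setA, setB]
    · obtain ⟨k, rfl⟩ := Fin.exists_succ_eq.2 hi
      refine ⟨?_, ?_⟩
      · simpa [hσ', setA, setB, Fin.succ_ne_zero, tgensP, tgens, gens] using h (.inl (k, false))
      · simpa [hσ', setA, setB, Fin.succ_ne_zero, tgensP, tgens, gens] using h (.inl (k, true))
  have hpc : ∀ j, Commute (pc z σ' j).val Y := fun j => h (.inr j)
  rw [← xlet_setA (z := z) σ 1 m, ← xlet_setB (z := z) (setA σ 1) 1 m, ← hσ']
  rcases m with ⟨k, c⟩ | j
  · have hK : Commute (mid σ'.1 k).val Y := hS.mid (ρ := fun _ => σ'.1) hA k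
    have h1 : Commute (σ'.1.1 k.succ).val Y := (hA k.succ).1
    have h2 : Commute (σ'.1.2 k.succ).val Y := (hA k.succ).2
    cases c <;> simp only [xlet, Matrix.SpecialLinearGroup.coe_mul]
    · exact (hK.mul_left h1).mul_left (commute_inv_val hK)
    · exact (hK.mul_left ((h1.mul_left h2).mul_left (commute_inv_val h1))).mul_left
        (commute_inv_val hK)
  · have e : ((List.ofFn (pc z σ')).take j).prod =
        (List.ofFn fun i : Fin (j : ℕ) => pc z σ' (Fin.castLE j.isLt.le i)).prod := by
      congr 1
      exact List.ext_getElem (by simp) fun i h1 h2 => by simp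
    have hW : Commute (tailComm σ'.1).prod.val Y := hS.tailW (ρ := fun _ => σ'.1) hA
    have hP : Commute ((List.ofFn (pc z σ')).take j).prod.val Y := by
      rw [e]
      exact commute_list_prod (fun i : Fin (j : ℕ) => pc z σ' (Fin.castLE j.isLt.le i))
        fun i => hpc (Fin.castLE j.isLt.le i)
    have hK : Commute (pmid z σ' j).val Y := by
      rw [pmid, Matrix.SpecialLinearGroup.coe_mul]
      exact hW.mul_left hP
    simp only [xlet, Matrix.SpecialLinearGroup.coe_mul]
    exact (hK.mul_left (hpc j)).mul_left (commute_inv_val hK)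

lemma triv_tgensP {σ : PRep n s (SLC r)} [NeZero r]
    (hspan : Full fun m : Lt n s => (xlet z σ m)⁻¹.val) : Triv (tgensP z σ) := fun _ hY =>
  hspan.triv _ fun m => commute_inv_val (commute_xlet hY m)

/-- A neighbourhood of a point with `b₀ = 1` consists of limits of points over the subring. -/
theorem exists_nbhdP [NeZero r] (hr : 2 ≤ r) (hz : ∀ j, z j ∈ inR R r) {σ : PRep n s (SLC r)}
    (hb : σ.1.2 0 = 1) (hrel : relP z σ = 1) (hint : IntP R σ)
    (hspan : Full fun m : Lt n s => (xlet z σ m)⁻¹.val) :
    ∃ p : PRep n s (SLC r), relP z p = 1 ∧ (Full fun m : Lt n s => (xlet z p m)⁻¹.val) ∧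
      Triv (tgensP z p) ∧
      ∀ᶠ g in 𝓝 (coordP p), ∀ ρ, relP z ρ = 1 → coordP ρ = g → ρ ∈ ZdP R n z := by
  classical
  have hr0 : r ≠ 0 := NeZero.ne r
  obtain ⟨A₀, hA₀⟩ := exists_good (r := r) (by omega)
    fun l : List (Fin (Fintype.card (Lt n s))) => vw (tailA z σ 1) l
  set p := setA σ A₀ with hp
  have hprel : relP z p = 1 := by rw [hp, relP_setA σ A₀ hb, hrel]
  have hpspan : Full fun m : Lt n s => (xlet z p m)⁻¹.val := by simpa [p, xlet_setA] using hspan
  refine ⟨p, hprel, hpspan, triv_tgensP hpspan, ?_⟩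
  set A := tailA z σ A₀ with hA
  have hspanA := span_vw_top A₀ hspan
  rw [← hA] at hspanA
  obtain ⟨f, hfmem, hfspan, -⟩ :=
    Submodule.exists_fun_fin_finrank_span_eq ℂ (Set.range (dir A))
  generalize Module.finrank ℂ (Submodule.span ℂ (Set.range (dir A))) = N at f hfmem hfspan
  choose L hL using hfmem
  let L' : Fin N → List (Lt n s) := fun k => (L k).map (lE n s)
  let Φ : (Fin r × Fin r → ℂ) × (Fin N → ℂ) → PVar n s r → ℂ := fun x =>
    coordP (flowP z L' x.2 (setA σ (A₀ * expM (Matrix.of fun a b => x.1 (a, b)))))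
  have hbsm : ∀ {X : Type} [NormedAddCommGroup X] [NormedSpace ℂ X] (f : X → SLC r),
      (Smooth fun x => (f x).val) → SmoothP fun x => setA σ (f x) := by
    intro X _ _ f hf
    refine ⟨fun i => ⟨?_, Smooth.const (σ.1.2 i).val⟩, fun j => Smooth.const (σ.2 j).val⟩
    by_cases hi : i = 0
    · subst hi; simpa [setA] using hf
    · simpa [setA, hi] using Smooth.const (σ.1.1 i).val
  have hmem : ∀ x : (Fin r × Fin r → ℂ) × (Fin N → ℂ),
      flowP z L' x.2 (setA σ (A₀ * expM (Matrix.of fun a b => x.1 (a, b)))) ∈ ZdP R n z := by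
    intro x
    have hav : ∀ l, Avoids ((pbwds z l p).1.1 0).val := fun l => by
      have e : l = (l.map (lE n s).symm).map (lE n s) := by simp [List.map_map, Function.comp_def]
      rw [e, hp, pbwds_setA σ hb]
      simpa [setA] using hA₀ (l.map (lE n s).symm)
    have := flowP_mem hr0 hz (p := p) hav L' x.2
      (σ := fun t : ℂ => setA σ (A₀ * expM (t • Matrix.of fun a b => x.1 (a, b))))
      (hbsm _ ((Smooth.const A₀.val).mul (smooth_expM_smul _)))
      (fun t => setA_memP hr hb hrel hint _) (by simp [expM_zero, p]) 1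
    simpa using this
  have hof : (Matrix.of fun _ _ : Fin r => (0 : ℂ)) = (0 : Mat r) := rfl
  have hΦ0 : Φ 0 = coordP p := by simp [Φ, flowP_zero, expM_zero, hof, p]
  have hsmA : Smooth fun x : (Fin r × Fin r → ℂ) × (Fin N → ℂ) =>
      (A₀ * expM (Matrix.of fun a b => x.1 (a, b))).val :=
    (Smooth.const A₀.val).mul
      (Smooth.exp (Smooth.tl fun a b => (contDiff_apply ℂ ℂ (a, b)).comp contDiff_fst))
  have hsmooth : ContDiff ℂ ω Φ := SmoothP.coord <|
    smooth_flowP (σ := fun x : (Fin r × Fin r → ℂ) × (Fin N → ℂ) =>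
      setA σ (A₀ * expM (Matrix.of fun a b => x.1 (a, b)))) (t := fun x => x.2) L'
      (hbsm _ hsmA) fun k => (contDiff_apply ℂ ℂ k).comp contDiff_snd
  have hΦd := hsmooth.contDiffAt.hasStrictFDerivAt
    (x := (0 : (Fin r × Fin r → ℂ) × (Fin N → ℂ))) (by simp)
  have hFd := (contDiff_consP (n := n) (z := z)).contDiffAt.hasStrictFDerivAt (x := Φ 0) (by simp)
  set Ld := fderiv ℂ Φ 0
  set D := fderiv ℂ (consP (n := n) z) (Φ 0)
  have hDp : HasFDerivAt (consP z) D (coordP p) := hΦ0 ▸ hFd.hasFDerivAt
  have hconst : ∀ x, consP z (Φ x) = consP z (Φ 0) := fun x => by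
    simp only [Φ, consP_coordP, (hmem x).1, (hmem 0).1]
  have hDL : ∀ v, D (Ld v) = 0 := fun v => by
    have h1 : HasFDerivAt (consP z ∘ Φ) (D.comp Ld) 0 :=
      hFd.hasFDerivAt.comp 0 hΦd.hasFDerivAt
    have h2 : HasFDerivAt (consP z ∘ Φ) (0 : ((Fin r × Fin r → ℂ) × (Fin N → ℂ)) →L[ℂ]
        (Sl n s → ℂ) × (Fin r × Fin r → ℂ)) 0 := by
      rw [show consP z ∘ Φ = fun _ => consP z (Φ 0) from funext hconst]
      exact hasFDerivAt_const _ _
    exact congrArg (fun T => T v) (h1.unique h2)
  have hline : ∀ v (γ : ℂ → PRep n s (SLC r)), (∀ t, coordP (γ t) = Φ (t • v)) → HasDC γ (Ld v) :=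
    fun v γ hγ => hasDC_of_hasDerivAt (by
      simp only [hγ]
      exact hΦd.hasFDerivAt.comp_hasDerivAt_of_eq 0
        (by simpa using (hasDerivAt_id (0 : ℂ)).smul_const v) (zero_smul ℂ v).symm)
  have hstp : ∀ k, projA (Ld (0, Pi.single k 1)) = liftT z σ (f k) := fun k => by
    obtain ⟨w, hw, hwp⟩ := stpP_hasDC hz hb A₀ (L k)
    have h := hline (0, Pi.single k 1) (fun t => stpP z (L' k) t p) fun t => by
      simp [Φ, Prod.smul_mk, ← Pi.single_smul, flowP_single, expM_zero, hof, p]
    rw [h.unique hw, hwp, ← hA, hL k]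
  have hbaseD : ∀ γ : Fin r × Fin r → ℂ,
      Ld (γ, 0) = put (sa0 n s) (A₀.val * tl (Matrix.of fun a b => γ (a, b))) := fun γ => by
    set G : Mat r := Matrix.of fun a b => γ (a, b) with hG
    refine (hline (γ, 0) (fun t => setA σ (A₀ * expM (t • G))) fun t => by
      simp [Φ, Prod.smul_mk, flowP_zero, hG]
      rfl).unique fun u => ?_
    rw [slotM_put]
    by_cases hu : u = sa0 n s
    · subst hu
      simpa [slotG, setA] using ((hasD_const A₀.val).mul (hasD_expM G)).congr (w := A₀.val * tl G)
        (by simp)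
    · rw [if_neg hu]
      rcases u with ⟨i, c⟩ | j
      · cases c
        · have : i ≠ 0 := fun e => hu (by rw [e])
          simpa [slotG, setA, this] using hasD_const _
        · simpa [slotG, setA] using hasD_const _
      · simpa [slotG, setA] using hasD_const (σ.2 j).val
  -- differentials of the constraints
  have hDb : ∀ Y : Mat r, Y.trace = 0 →
      D (put (sb0 n s) Y) = (0, fun q => (adj A₀ Y - Y) q.1 q.2) := fun Y hY => by
    have hpb : p.1.2 0 = 1 := by simp [p, setA, hb]
    refine dcons_curve hDp (γ := fun t => setB p (expM (t • Y))) (d := adj A₀ Y - Y) ?_ ?_ ?_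
    · simp only [zero_smul, expM_zero, setB]
      rw [← hpb, Function.update_eq_self]
    · intro u
      rw [slotM_put]
      by_cases hu : u = sb0 n s
      · subst hu
        simpa [slotG, setB] using (hasD_expM Y).congr (tl_of_trace hY)
      · rw [if_neg hu]
        rcases u with ⟨i, c⟩ | j
        · cases c
          · simpa [slotG, setB] using hasD_const _
          · have : i ≠ 0 := fun e => hu (by rw [e])
            simpa [slotG, setB, this] using hasD_const _
        · simpa [slotG, setB] using hasD_const (p.2 j).val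
    · have hrest : (tailComm σ.1).prod * pprod z σ = 1 := by
        have := hrel
        rw [relP, relator, hb] at this
        simpa [commutatorElement_def, mul_assoc] using this
      have e : ∀ t : ℂ, relP z (setB p (expM (t • Y))) =
          A₀ * expM (t • Y) * A₀⁻¹ * (expM (t • Y))⁻¹ := fun t => by
        have e1 : relP z (setB p (expM (t • Y))) =
            ⁅A₀, expM (t • Y)⁆ * ((tailComm σ.1).prod * pprod z σ) := by
          simp [relP, relator, tailComm, p, setA, setB, pprod, Fin.succ_ne_zero, mul_assoc]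
          rfl
        rw [e1, hrest, mul_one, commutatorElement_def]
      simp only [e]
      have hh := hasD_conj (g := fun _ : ℂ => A₀) (Smooth.const _)
        ((hasD_expM Y).congr (tl_of_trace hY)) (by simp [expM_zero])
      refine (hh.mul (hasD_inv_of_one (smooth_expM_smul Y)
        ((hasD_expM Y).congr (tl_of_trace hY)) (by simp [expM_zero]))).congr ?_
      simp [expM_zero, adj_apply, sub_eq_add_neg, -Matrix.SpecialLinearGroup.coe_inv]
  have hDell : ∀ m (Y : Mat r), Y.trace = 0 →
      D (ell z σ m Y) = (0, fun q => (adj (xlet z σ m)⁻¹ Y - Y) q.1 q.2) := fun m Y hY => by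
    set x := xlet z σ m with hx
    set v := A₀ * x⁻¹
    set σv := setA σ v with hσv
    have hvb : σv.1.2 0 = 1 := by simp [σv, setA, hb]
    have hf := (hasD_expM Y).congr (tl_of_trace hY)
    have hw := hasDC_pfwd_b (z := z) σv (smooth_expM_smul Y) hf (by simp [expM_zero]) m
    rw [xlet_setA, ← hx, ell_setA] at hw
    have hpf : pfwd z m (setB σv (expM ((0 : ℂ) • Y))) = p := by
      rw [zero_smul, expM_zero, show setB σv 1 = σv by
        simp only [setB]; rw [← hvb, Function.update_eq_self], pfwd_base m σv hvb, xlet_setA]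
      simp [σv, setA, v, p, hx]
    have hrest : (tailComm σ.1).prod * pprod z σ = 1 := by
      have := hrel
      rw [relP, relator, hb] at this
      simpa [commutatorElement_def, mul_assoc] using this
    have hd : HasD (fun t => (relP z (pfwd z m (setB σv (expM (t • Y))))).val) (adj v Y - Y) := by
      have e : ∀ t : ℂ, relP z (pfwd z m (setB σv (expM (t • Y)))) =
          v * expM (t • Y) * v⁻¹ * (expM (t • Y))⁻¹ := fun t => by
        have e1 : relP z (setB σv (expM (t • Y))) =
            ⁅v, expM (t • Y)⁆ * ((tailComm σ.1).prod * pprod z σ) := by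
          simp [relP, relator, tailComm, σv, setA, setB, pprod, Fin.succ_ne_zero, mul_assoc]
          rfl
        rw [relP_pfwd, e1, hrest, mul_one, commutatorElement_def]
      simp only [e]
      refine ((hasD_conj (g := fun _ : ℂ => v) (Smooth.const _) hf (by simp [expM_zero])).mul
        (hasD_inv_of_one (smooth_expM_smul Y) hf (by simp [expM_zero]))).congr ?_
      simp [expM_zero, adj_apply, sub_eq_add_neg, -Matrix.SpecialLinearGroup.coe_inv]
    have h := dcons_curve hDp hpf hw hd
    rw [map_add, hDb _ (by rw [adj_apply, Matrix.trace_mul_comm, ← Matrix.mul_assoc, val_inv_mul,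
      Matrix.one_mul, hY])] at h
    rw [eq_sub_of_add_eq' h, show adj v Y = adj A₀ (adj x⁻¹ Y) from adj_mul _ _ _]
    refine Prod.ext (by simp) (funext fun q => ?_)
    simp [Matrix.sub_apply]
  -- the kernel of the linearised constraints is covered
  have hker : ∀ w, D w = 0 → ∃ x, Ld x = w := fun w hw => by
    have hDt : ∀ u, ∀ w', D w' = 0 → ((slotG p u)⁻¹.val * slotM w' u).trace = 0 := fun u w' hw' => by
      have h1 : HasDerivAt (fun t : ℂ => consP z (coordP p + t • w')) (D w') 0 :=
        hDp.comp_hasDerivAt_of_eq 0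
          (by simpa using ((hasDerivAt_id (0 : ℂ)).smul_const w').const_add (coordP p)) (by simp)
      rw [hw'] at h1
      have hdet : HasDerivAt (fun t : ℂ => (slotM (coordP p + t • w') u).det) 0 0 := by
        have := ((ContinuousLinearMap.proj (R := ℂ) u).comp
          (ContinuousLinearMap.fst ℂ (Sl n s → ℂ) (Fin r × Fin r → ℂ))).hasFDerivAt
          (x := consP z (coordP p + (0 : ℂ) • w')) |>.comp_hasDerivAt 0 h1
        simpa [consP, Function.comp_def] using this
      have hM : HasD (fun t : ℂ => (slotG p u)⁻¹.val * slotM (coordP p + t • w') u)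
          ((slotG p u)⁻¹.val * slotM w' u) := by
        refine ((hasD_const (slotG p u)⁻¹.val).mul
          (N := fun t : ℂ => slotM (coordP p + t • w') u) (w := slotM w' u) fun a b => ?_).congr
          (by simp)
        simp only [slotM_add, slotM_smul, Matrix.add_apply, Matrix.smul_apply, smul_eq_mul]
        exact (hasDerivAt_mul_const (slotM w' u a b)).const_add _
      have h0 := hasDerivAt_det_one hM (by rw [zero_smul, add_zero, slotM_coordP, val_inv_mul])
      simp only [Matrix.det_mul, Matrix.SpecialLinearGroup.det_coe, one_mul] at h0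
      exact h0.unique hdet
    have htr := fun u => hDt u w hw
    set β₀ := slotM w (sb0 n s) with hβ₀
    have hβ0tr : β₀.trace = 0 := by
      have := htr (sb0 n s)
      simpa [slotG, p, setA, hb, ← hβ₀] using this
    -- arguments of the letters
    let argf : Fin n → Mat r := fun k =>
      adj (xlet z σ (.inl (k, false)) * mid σ.1 k)
        (-((σ.1.2 k.succ)⁻¹.val * slotM w (.inl (k.succ, true))))
    let arg : Lt n s → Mat r := fun m => match m with
      | .inl (k, false) => argf k
      | .inl (k, true) => adj (xlet z σ (.inl (k, true)) * mid σ.1 k)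
          (slotM w (.inl (k.succ, false)) * (σ.1.1 k.succ)⁻¹.val -
            (adj ((mid σ.1 k)⁻¹ * (xlet z σ (.inl (k, false)))⁻¹) (argf k) -
              adj (mid σ.1 k)⁻¹ (argf k)))
      | .inr j => adj (xlet z σ (.inr j) * pmid z σ j) (slotM w (.inr j) * (σ.2 j)⁻¹.val)
    have hadjtr : ∀ (g : SLC r) (Y : Mat r), (adj g Y).trace = Y.trace := fun g Y => by
      rw [adj_apply, Matrix.trace_mul_comm, ← Matrix.mul_assoc, val_inv_mul, Matrix.one_mul]
    have hargf : ∀ k, (argf k).trace = 0 := fun k => by
      simp only [argf, hadjtr, Matrix.trace_neg, neg_eq_zero]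
      simpa [slotG, p, setA] using htr (.inl (k.succ, true))
    have hargtr : ∀ m, (arg m).trace = 0 := by
      rintro (⟨k, _ | _⟩ | j) <;> simp only [arg]
      · exact hargf k
      · simp only [hadjtr, Matrix.trace_sub, hargf, sub_zero]
        rw [Matrix.trace_mul_comm]
        simpa [slotG, p, setA, Fin.succ_ne_zero] using htr (.inl (k.succ, false))
      · rw [hadjtr, Matrix.trace_mul_comm]
        simpa [slotG, p, setA] using htr (.inr j)
    have hcancel : ∀ (g K : SLC r) (Y : Mat r), adj (K⁻¹ * g⁻¹) (adj (g * K) Y) = Y :=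
      fun g K Y => by rw [← adj_mul, show K⁻¹ * g⁻¹ * (g * K) = 1 by group, adj_one]
    have hsumT : ∀ u, u ≠ sa0 n s → u ≠ sb0 n s →
        slotM (∑ m, ell z σ m (arg m)) u = slotM w u := by
      intro u hua hub
      rw [slotM_sum]
      rcases u with ⟨i, c⟩ | j
      · obtain ⟨k, rfl⟩ : ∃ k : Fin n, k.succ = i := Fin.exists_succ_eq.2 fun e => by
          subst e; cases c <;> simp at hua hub
        rw [Fintype.sum_sum_type, Fintype.sum_prod_type]
        rw [Finset.sum_eq_single k (fun k' _ hk' => ?_) (by simp),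
          Finset.sum_eq_zero (s := (Finset.univ : Finset (Fin s))) fun j _ => ?_, add_zero,
          Fintype.sum_bool]
        · simp only [ell, LinearMap.sub_apply, LinearMap.comp_apply, slotM_sub, slotM_put,
            LinearMap.mulRight_apply, LinearMap.mulLeft_apply, arg, argf, hcancel]
          cases c
          · simp only [if_true, Sum.inl.injEq, Prod.mk.injEq, Bool.false_eq_true, and_false,
              if_false, sub_zero]
            rw [← add_mul, sub_add_cancel, Matrix.mul_assoc, val_inv_mul, Matrix.mul_one]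
          · simp only [if_true, Sum.inl.injEq, Prod.mk.injEq, Bool.true_eq_false, and_false,
              if_false, zero_sub, zero_add, mul_neg, neg_neg]
            rw [← Matrix.mul_assoc, val_mul_inv, Matrix.one_mul]
        · simp [ell, slotM_put]
        · have : (k.succ : Fin (n + 1)) ≠ k'.succ := fun e => hk' (Fin.succ_injective _ e).symm
          simp [ell, slotM_sub, slotM_put, this]
      · rw [Fintype.sum_sum_type, Finset.sum_eq_zero fun m _ => ?_, zero_add,
          Finset.sum_eq_single j (fun j' _ hj' => ?_) (by simp)]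
        · simp only [ell, LinearMap.comp_apply, slotM_put, if_true, LinearMap.mulRight_apply, arg,
            hcancel]
          rw [Matrix.mul_assoc, val_inv_mul, Matrix.mul_one]
        · simp [ell, slotM_put, Ne.symm hj']
        · obtain ⟨k, _ | _⟩ := m <;> simp [ell, slotM_sub, slotM_put]
    let β : Fin (Fintype.card (Lt n s) + 1) → Mat r :=
      Fin.cons β₀ fun i => -adj (xlet z σ (lE n s i))⁻¹ (arg (lE n s i))
    have hlift : liftT z σ β = put (sb0 n s) β₀ + ∑ m, ell z σ m (arg m) := by
      rw [liftT_apply, ← (lE n s).sum_comp, sub_eq_add_neg, ← Finset.sum_neg_distrib]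
      refine congrArg₂ (· + ·) (by simp [β]) (Finset.sum_congr rfl fun i _ => ?_)
      simp only [β, Fin.cons_succ, map_neg, neg_neg, ← adj_mul, mul_inv_cancel, adj_one]
    have hwdec : w = put (sa0 n s) (slotM w (sa0 n s)) + liftT z σ β := by
      refine slotM_ext fun u => ?_
      rw [slotM_add, slotM_put]
      by_cases hua : u = sa0 n s
      · subst hua; rw [if_pos rfl, slot_liftT_a, add_zero]
      · rw [if_neg hua, zero_add]
        by_cases hub : u = sb0 n s
        · subst hub; rw [slot_liftT_b]; simp [β, ← hβ₀]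
        · rw [hlift, slotM_add, slotM_put, if_neg hub, zero_add, hsumT u hua hub]
    have hDa : D (put (sa0 n s) (slotM w (sa0 n s))) = 0 := by
      have h := hDL (fun q => ((A₀⁻¹).val * slotM w (sa0 n s)) q.1 q.2, 0)
      rw [hbaseD] at h
      have e : Matrix.of (fun a b => ((A₀⁻¹).val * slotM w (sa0 n s)) a b) =
          (A₀⁻¹).val * slotM w (sa0 n s) := rfl
      simp only [e] at h
      have ht : ((A₀⁻¹).val * slotM w (sa0 n s)).trace = 0 := by
        simpa [slotG, p, setA] using htr (sa0 n s)
      rwa [tl_of_trace ht, ← Matrix.mul_assoc, val_mul_inv, Matrix.one_mul] at h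
    have hK : InK A β := by
      refine ⟨Fin.cases (by simpa [β] using hβ0tr) fun i => by
        simp [β, hadjtr, hargtr, -Matrix.SpecialLinearGroup.coe_inv], ?_⟩
      have h0 := congrArg Prod.snd hw
      rw [hwdec, map_add, hDa, zero_add, hlift, map_add, map_sum, hDb _ hβ0tr] at h0
      simp only [hDell _ _ (hargtr _), Prod.snd_add, Prod.snd_zero, Prod.snd_sum] at h0
      have h0' : adj A₀ β₀ - β₀ + ∑ m, (adj (xlet z σ m)⁻¹ (arg m) - arg m) = 0 :=
        Matrix.ext fun a b => by
          have hab := congrFun h0 (a, b)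
          simp [Matrix.sum_apply, Finset.sum_apply, Finset.sum_sub_distrib,
            Fintype.sum_sum_type] at hab ⊢
          linear_combination hab
      rw [← h0', ← (lE n s).sum_comp, Fin.sum_univ_succ]
      refine congrArg₂ (· + ·) (by simp [hA, tailA, β, adj_apply])
        (Finset.sum_congr rfl fun i _ => ?_)
      rw [hA, tailA_succ, show β i.succ = -adj (xlet z σ (lE n s i))⁻¹ (arg (lE n s i)) by simp [β],
        ← adj_apply, map_neg, ← adj_mul, mul_inv_cancel, adj_one]
      abel
    have hb' := inK_mem_span hspanA hK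
    rw [← hfspan, Submodule.mem_span_range_iff_exists_fun] at hb'
    obtain ⟨c, hc⟩ := hb'
    set w₁ := Ld (0, c) with hw₁
    have hw₁p : projA w₁ = liftT z σ β := by
      have e : ((0 : Fin r × Fin r → ℂ), c) =
          ∑ k, c k • ((0 : Fin r × Fin r → ℂ), (Pi.single k 1 : Fin N → ℂ)) := by
        refine Prod.ext (by simp [Prod.fst_sum]) ?_
        simp [Prod.snd_sum, ← Pi.single_smul, Finset.univ_sum_single]
      rw [hw₁, e, map_sum, map_sum, ← hc, map_sum]
      exact Finset.sum_congr rfl fun k _ => by rw [map_smul, map_smul, hstp, map_smul]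
    set δ := slotM (w - w₁) (sa0 n s) with hδ
    have hδtr : (A₀⁻¹.val * δ).trace = 0 := by
      have := hDt (sa0 n s) (w - w₁) (by rw [map_sub, hw, hw₁, hDL, sub_zero])
      simpa [slotG, p, setA, ← hδ] using this
    refine ⟨(fun q => (A₀⁻¹.val * δ) q.1 q.2, 0) + (0, c), ?_⟩
    rw [map_add, ← hw₁, hbaseD]
    have e : Matrix.of (fun a b => (A₀⁻¹.val * δ) a b) = A₀⁻¹.val * δ := rfl
    rw [e, tl_of_trace hδtr, ← Matrix.mul_assoc, val_mul_inv, Matrix.one_mul]
    refine slotM_ext fun u => ?_
    rw [slotM_add, slotM_put]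
    by_cases hua : u = sa0 n s
    · subst hua; rw [if_pos rfl, hδ, slotM_sub, sub_add_cancel]
    · rw [if_neg hua, zero_add]
      have h1 := congrArg (slotM · u) hw₁p
      simp only [slotM_projA, if_neg hua] at h1
      conv_rhs => rw [hwdec, slotM_add, slotM_put, if_neg hua, zero_add]
      exact h1
  have hloc := local_image hΦd hFd hconst hker
  rw [hΦ0] at hloc
  filter_upwards [hloc] with g hg ρ hρ hρg
  have hF : consP z g = consP z (coordP p) := by
    rw [← hρg, consP_coordP, consP_coordP, hρ, hprel]
  obtain ⟨x, hx⟩ := hg hF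
  refine ⟨hρ, ?_⟩
  rw [hρg, ← hx]
  exact (hmem x).2

end Vale.Agent.P002
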