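import Vale.Agent.P002.Punct.Irred
import Vale.Agent.P002.Blocks
import Vale.Agent.P002.Refine

/-!
Polynomials in the generators of a punctured surface representation that are invariant under
conjugation and vanish where the last generators have scalar centraliser vanish at all semisimple
representations.
-/

namespace Vale.Agent.P002

open Matrix Filter Topology

variable {r n s k : ℕ}

/-- Fixed by `E` from the left and killed by it from the right. -/
def CI (E X : Mat r) : Prop := E * X = X ∧ X * E = 0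

section CI

variable {E X Y : Mat r}

lemma CI.zero : CI E (0 : Mat r) := ⟨Matrix.mul_zero _, Matrix.zero_mul _⟩

lemma CI.add (h : CI E X) (h' : CI E Y) : CI E (X + Y) :=
  ⟨by rw [mul_add, h.1, h'.1], by rw [add_mul, h.2, h'.2, add_zero]⟩

lemma CI.neg (h : CI E X) : CI E (-X) :=
  ⟨by rw [mul_neg, h.1], by rw [neg_mul, h.2, neg_zero]⟩

lemma CI.sub (h : CI E X) (h' : CI E Y) : CI E (X - Y) := by
  rw [sub_eq_add_neg]; exact h.add h'.neg

lemma CI.smul (c : ℂ) (h : CI E X) : CI E (c • X) :=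
  ⟨by rw [mul_smul_comm, h.1], by rw [smul_mul_assoc, h.2, smul_zero]⟩

lemma CI.mul (h : CI E X) (h' : CI E Y) : X * Y = 0 := by
  rw [← h'.1, ← Matrix.mul_assoc, h.2, Matrix.zero_mul]

lemma CI.trace (h : CI E X) : X.trace = 0 := by
  rw [← h.1, Matrix.trace_mul_comm, h.2, Matrix.trace_zero]

lemma CI.tl (h : CI E X) : P002.tl X = X := tl_of_trace h.trace

open scoped Matrix.Norms.Operator in
lemma CI.expM (h : CI E X) : (P002.expM X).val = 1 + X := by
  show NormedSpace.exp (P002.tl X) = _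
  rw [h.tl, exp_sq_zero (h.mul h)]

lemma CI.adj (h : CI E X) {g : SLC r} (hg : Commute g.val E) : CI E (adj g X) := by
  have hi : Commute g⁻¹.val E := commute_inv_val hg
  rw [adj_apply]
  refine ⟨?_, ?_⟩
  · rw [← Matrix.mul_assoc, ← Matrix.mul_assoc, ← hg.eq, Matrix.mul_assoc g.val E, h.1]
  · rw [Matrix.mul_assoc _ g⁻¹.val, hi.eq, ← Matrix.mul_assoc, Matrix.mul_assoc g.val X, h.2,
      Matrix.mul_zero, Matrix.zero_mul]

lemma expM_CI_mul (h : CI E X) (h' : CI E Y) : expM X * expM Y = expM (X + Y) := Subtype.ext (by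
  rw [Matrix.SpecialLinearGroup.coe_mul, h.expM, h'.expM, (h.add h').expM, add_mul, Matrix.one_mul,
    mul_add, Matrix.mul_one, h.mul h', add_zero]
  abel)

lemma expM_CI_inv (h : CI E X) : (expM X)⁻¹ = expM (-X) := by
  rw [inv_eq_iff_mul_eq_one, expM_CI_mul h h.neg, add_neg_cancel, expM_zero]

lemma expM_CI_conj (h : CI E X) {g : SLC r} (hg : Commute g.val E) :
    g * expM X * g⁻¹ = expM (adj g X) := Subtype.ext (by
  rw [Matrix.SpecialLinearGroup.coe_mul, Matrix.SpecialLinearGroup.coe_mul, h.expM,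
    (h.adj hg).expM, adj_apply, mul_add, add_mul, Matrix.mul_one, val_mul_inv])

lemma commute_mul_val {g h : SLC r} (hg : Commute g.val E) (hh : Commute h.val E) :
    Commute (g * h).val E := by
  rw [Matrix.SpecialLinearGroup.coe_mul]; exact hg.mul_left hh

lemma comm_CI (a b : SLC r) {α β : Mat r} (ha : Commute a.val E) (hb : Commute b.val E)
    (hα : CI E α) (hβ : CI E β) :
    a * expM α * (b * expM β) * (a * expM α)⁻¹ * (b * expM β)⁻¹ =
      expM (pairD a b α β) * (a * b * a⁻¹ * b⁻¹) ∧ CI E (pairD a b α β) := by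
  have hab := commute_mul_val ha hb
  have haba : Commute (a * b * a⁻¹).val E := commute_mul_val hab (commute_inv_val ha)
  have h1 := hα.adj ha
  have h2 := hβ.adj hab
  have h3 := hα.neg.adj hab
  have h4 := hβ.neg.adj haba
  refine ⟨?_, ((h1.add h2).sub (hα.adj hab)).sub (hβ.adj haba)⟩
  have e : pairD a b α β = adj a α + adj (a * b) β + adj (a * b) (-α) + adj (a * b * a⁻¹) (-β) := by
    simp only [pairD, map_neg]; abel
  rw [e, ← expM_CI_mul ((h1.add h2).add h3) h4, ← expM_CI_mul (h1.add h2) h3, ← expM_CI_mul h1 h2,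
    ← expM_CI_conj hα ha, ← expM_CI_conj hβ hab, ← expM_CI_conj hα.neg hab,
    ← expM_CI_conj hβ.neg haba, ← expM_CI_inv hα, ← expM_CI_inv hβ]
  group

lemma prod_CI : ∀ {m : ℕ} (C : Fin m → SLC r) (V : Fin m → Mat r),
    (∀ i, Commute (C i).val E) → (∀ i, CI E (V i)) →
      CI E (prodD C V) ∧
        (List.ofFn fun i => expM (V i) * C i).prod = expM (prodD C V) * (List.ofFn C).prod
  | 0, _, _, _, _ => ⟨CI.zero, by simp [prodD, expM_zero]⟩
  | m + 1, C, V, hC, hV => by
    obtain ⟨h1, h2⟩ := prod_CI (fun i => C i.succ) (fun i => V i.succ) (fun i => hC _) fun i => hV _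
    refine ⟨(hV 0).add (h1.adj (hC 0)), ?_⟩
    rw [List.ofFn_succ, List.prod_cons, h2, List.ofFn_succ, List.prod_cons, prodD,
      ← expM_CI_mul (hV 0) (h1.adj (hC 0)), ← expM_CI_conj h1 (hC 0)]
    group

/-- Corner perturbations change the relator by the linearised one. -/
lemma relator_CI {σ : Handles n (SLC r)} (hg : ∀ v, Commute (gens σ v) E) {τ : Var n r → ℂ}
    (hτ : ∀ v, CI E (matOf τ v)) :
    CI E (relD σ τ) ∧ relator (par σ τ) = expM (relD σ τ) * relator σ := by
  have ha : ∀ i, Commute (σ.1 i).val E := fun i => by simpa [gens] using hg (i, false)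
  have hb : ∀ i, Commute (σ.2 i).val E := fun i => by simpa [gens] using hg (i, true)
  have hp := fun i => comm_CI (σ.1 i) (σ.2 i) (ha i) (hb i) (hτ (i, false)) (hτ (i, true))
  have hC : ∀ i, Commute (comm σ i).val E := fun i =>
    commute_mul_val (commute_mul_val (commute_mul_val (ha i) (hb i)) (commute_inv_val (ha i)))
      (commute_inv_val (hb i))
  obtain ⟨h1, h2⟩ := prod_CI (comm σ) _ hC fun i => (hp i).2
  have e : relD σ τ =
      prodD (comm σ) fun i => pairD (σ.1 i) (σ.2 i) (matOf τ (i, false)) (matOf τ (i, true)) := by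
    simp only [relD, fun v => (hτ v).tl]
  rw [e, relator_comm, relator_comm, ← h2]
  refine ⟨h1, ?_⟩
  congr 2
  funext i
  exact (hp i).1

end CI

section Cocycle

variable {blk : Fin r → Fin k}

lemma proj_idem (blk : Fin r → Fin k) (i : Fin k) : proj blk i * proj blk i = proj blk i := by
  simp only [proj, Matrix.diagonal_mul_diagonal]
  congr 1; funext a; simp

lemma mem_blockSpace_iff {i j : Fin k} {M : Mat r} :
    M ∈ blockSpace blk i j ↔ proj blk i * M * proj blk j = M := by
  constructor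
  · intro h
    ext a b
    rw [proj_mul_apply]
    split_ifs with hab
    · rfl
    · exact (h a b hab).symm
  · intro h a b hab
    rw [← h, proj_mul_apply, if_neg hab]

lemma proj_mul_proj {i j : Fin k} (h : i ≠ j) : proj blk i * proj blk j = 0 := by
  simp only [proj, Matrix.diagonal_mul_diagonal, Matrix.diagonal_eq_zero]
  funext a
  by_cases ha : blk a = i
  · simp [ha, h]
  · simp [ha]

lemma blockSpace_CI {i j : Fin k} (h : i ≠ j) {M : Mat r} (hM : M ∈ blockSpace blk i j) :
    CI (proj blk i) M ∧ CI (1 - proj blk j) M := by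
  have e := mem_blockSpace_iff.1 hM
  have h1 : proj blk i * M = M := by
    conv_lhs => rw [← e]
    rw [← Matrix.mul_assoc, ← Matrix.mul_assoc, proj_idem, e]
  have h2 : M * proj blk j = M := by
    conv_lhs => rw [← e]
    rw [Matrix.mul_assoc _ (proj blk j), proj_idem, e]
  refine ⟨⟨h1, ?_⟩, ⟨?_, ?_⟩⟩
  · rw [← h2, Matrix.mul_assoc, proj_mul_proj h.symm, Matrix.mul_zero]
  · conv_lhs => rw [← h1]
    rw [sub_mul, Matrix.one_mul, ← Matrix.mul_assoc, proj_mul_proj h.symm, Matrix.zero_mul,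
      sub_zero, h1]
  · rw [mul_sub, Matrix.mul_one, h2, sub_self]

lemma mem_blockSpace_of_CI {i j : Fin k} {M : Mat r} (h1 : CI (proj blk i) M)
    (h2 : CI (1 - proj blk j) M) : M ∈ blockSpace blk i j := by
  have e := h2.2
  rw [mul_sub, Matrix.mul_one, sub_eq_zero] at e
  rw [mem_blockSpace_iff, h1.1, ← e]

lemma relD_mem {σ : Handles n (SLC r)} (hBD : ∀ v, BD blk (gens σ v)) {i j : Fin k} (hij : i ≠ j)
    {τ : Var n r → ℂ} (hτ : ∀ v, matOf τ v ∈ blockSpace blk i j) :
    relD σ τ ∈ blockSpace blk i j :=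
  mem_blockSpace_of_CI
    (relator_CI (fun v => (hBD v).commute_proj i) fun v => (blockSpace_CI hij (hτ v)).1).1
    (relator_CI (fun v => (Commute.one_right _).sub_right ((hBD v).commute_proj j)) fun v =>
      (blockSpace_CI hij (hτ v)).2).1

/-- A cocycle in a block that is not a coboundary on the last handles. -/
lemma exists_cocycleP [NeZero r] (hn : 1 ≤ n) {σ : Handles n (SLC r)}
    (hBD : ∀ v, BD blk (gens σ v)) (hsurj : Function.Surjective blk)
    (hhead : ∀ Y : Mat r, Commute (σ.1 0).val Y → BD blk Y)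
    {i j : Fin k} (hij : i ≠ j) : ∃ (N : Fin n × Bool → Mat r) (β : Mat r),
      (∀ v, N v ∈ blockSpace blk i j) ∧ β ∈ blockSpace blk i j ∧
      tailL σ N + relD σ (headVar β) = 0 ∧
      ∀ Z ∈ blockSpace blk i j, N ≠ fun v => Z - (tg σ v)⁻¹.val * Z * (tg σ v).val := by
  set V := blockSpace blk i j
  set a₀ := σ.1 0
  have hg : ∀ (v : Fin n × Bool) (l : Fin k), Commute (tg σ v).val (proj blk l) := fun v l => by
    rw [← tgens_eq]; exact (hBD (v.1.succ, v.2)).commute_proj l
  have htl : ∀ N : Fin n × Bool → Mat r, (∀ v, N v ∈ V) → tailL σ N ∈ V := fun N hN => by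
    refine relD_mem hBD hij ?_
    rintro ⟨l, c⟩
    induction l using Fin.cases with
    | zero => rw [matOf_tailVar_zero]; exact V.zero_mem
    | succ l => rw [matOf_tailVar_succ]; exact hN (l, c)
  let C : V →ₗ[ℂ] (Fin n × Bool → V) := LinearMap.pi fun v =>
    ((LinearMap.id - LinearMap.mulLeft ℂ (tg σ v)⁻¹.val ∘ₗ
      LinearMap.mulRight ℂ (tg σ v).val) ∘ₗ V.subtype).codRestrict V fun x => by
        refine V.sub_mem x.2 ?_
        show (tg σ v)⁻¹.val * (x.1 * (tg σ v).val) ∈ V
        rw [mem_blockSpace_iff, ← Matrix.mul_assoc (proj blk i),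
          ← (commute_inv_val (hg v i)).eq, Matrix.mul_assoc ((tg σ v)⁻¹.val * proj blk i),
          Matrix.mul_assoc x.1, (hg v j).eq, ← Matrix.mul_assoc x.1,
          Matrix.mul_assoc (tg σ v)⁻¹.val, ← Matrix.mul_assoc (proj blk i),
          ← Matrix.mul_assoc (proj blk i), mem_blockSpace_iff.1 x.2]
  have hd : 0 < Module.finrank ℂ V := by
    obtain ⟨a, ha⟩ := hsurj i
    obtain ⟨b, hb⟩ := hsurj j
    have hmem : Matrix.single a b (1 : ℂ) ∈ V := fun p q hpq => by
      rw [Matrix.single_apply, if_neg]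
      rintro ⟨rfl, rfl⟩
      exact hpq ⟨ha, hb⟩
    have : Nontrivial V := ⟨⟨⟨_, hmem⟩, 0, fun e => by
      simpa using congrFun (congrFun (congrArg Subtype.val e) a) b⟩⟩
    exact Module.finrank_pos
  obtain ⟨x, hxr⟩ : ∃ x, x ∉ LinearMap.range C := by
    by_contra! h
    have h1 : LinearMap.range C = ⊤ := eq_top_iff.2 fun x _ => h x
    have h4 := C.finrank_range_le
    rw [h1, finrank_top, Module.finrank_pi_fintype] at h4
    simp only [Finset.sum_const, Finset.card_univ, Fintype.card_prod, Fintype.card_fin,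
      Fintype.card_bool, smul_eq_mul] at h4
    have h5 : 2 * Module.finrank ℂ V ≤ n * 2 * Module.finrank ℂ V :=
      Nat.mul_le_mul_right _ (by omega)
    omega
  have htr : ∀ M ∈ V, Matrix.trace M = 0 := fun M hM => (blockSpace_CI hij hM).1.trace
  have hL0 : ∀ M ∈ V, relD σ (headVar M) ∈ V := fun M hM => by
    refine relD_mem hBD hij fun v => ?_
    by_cases hv : v = (0, true)
    · subst hv; rw [matOf_headVar_self]; exact hM
    · rw [matOf_headVar_of_ne M hv]; exact V.zero_mem
  let L₀ : V →ₗ[ℂ] V :=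
    { toFun := fun M => ⟨relD σ (headVar M.1), hL0 M M.2⟩
      map_add' := fun M M' => Subtype.ext (by
        simp only [Submodule.coe_add, relD_headVar σ (htr _ M.2), relD_headVar σ (htr _ M'.2),
          relD_headVar σ (htr _ (V.add_mem M.2 M'.2)), map_add]
        abel)
      map_smul' := fun c M => Subtype.ext (by
        simp only [Submodule.coe_smul, relD_headVar σ (htr _ M.2),
          relD_headVar σ (htr _ (V.smul_mem c M.2)), map_smul, smul_sub, RingHom.id_apply]) }
  have hinj : Function.Injective L₀ := by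
    refine (injective_iff_map_eq_zero L₀).2 fun M hM => ?_
    have h : relD σ (headVar M.1) = 0 := congrArg Subtype.val hM
    set g₀ := a₀ * σ.2 0 * a₀⁻¹
    rw [relD_headVar σ (htr _ M.2), sub_eq_zero, adj_apply, adj_apply] at h
    have h' := congrArg (fun Z => g₀⁻¹.val * Z * g₀.val) h
    have e : g₀⁻¹ * (a₀ * σ.2 0) = a₀ := by simp [g₀, mul_assoc]
    have e' : (a₀ * σ.2 0)⁻¹ * g₀ = a₀⁻¹ := by simp [g₀, mul_assoc]
    simp only [← Matrix.mul_assoc, ← Matrix.SpecialLinearGroup.coe_mul] at h'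
    rw [e, Matrix.mul_assoc _ _ g₀.val, ← Matrix.SpecialLinearGroup.coe_mul, e',
      inv_mul_cancel, Matrix.SpecialLinearGroup.coe_one, Matrix.one_mul,
      Matrix.mul_assoc M.1, ← Matrix.SpecialLinearGroup.coe_mul, inv_mul_cancel,
      Matrix.SpecialLinearGroup.coe_one, Matrix.mul_one] at h'
    have hc : Commute a₀.val M.1 := by
      show _ = _
      conv_rhs => rw [← h']
      rw [Matrix.mul_assoc _ a₀⁻¹.val, val_inv_mul, Matrix.mul_one]
    refine Subtype.ext (Matrix.ext fun a b => ?_)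
    by_cases hab : blk a = i ∧ blk b = j
    · exact hhead _ hc a b (by rw [hab.1, hab.2]; exact hij)
    · exact M.2 a b hab
  obtain ⟨β, hβ⟩ := LinearMap.surjective_of_injective hinj (-⟨_, htl _ fun v => (x v).2⟩)
  refine ⟨fun v => (x v).1, β.1, fun v => (x v).2, β.2, ?_, fun Z hZ he => hxr ?_⟩
  · rw [show relD σ (headVar β.1) = (L₀ β).1 from rfl, hβ, Submodule.coe_neg, add_neg_cancel]
  · refine ⟨⟨Z, hZ⟩, funext fun v => Subtype.ext ?_⟩
    simpa [C, Matrix.mul_assoc] using (congrFun he v).symm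

end Cocycle

section Extension

lemma ext_comm {A : Type*} [Ring A] {g N Y E : A} (hE : Commute g E)
    (e1 : E * N = N) (e4 : N * E = 0) (h : (g + g * N) * Y = Y * (g + g * N)) :
    Commute g ((1 - E) * Y * E) ∧ ((1 - E) * Y * E = 0 →
      Commute g (E * Y * E) ∧ Commute g ((1 - E) * Y * (1 - E)) ∧
      g * (E * Y * (1 - E)) - E * Y * (1 - E) * g =
        g * (E * Y * E * N - N * ((1 - E) * Y * (1 - E)))) := by
  set F := 1 - E
  have hF : Commute g F := (Commute.one_right g).sub_right hE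
  have e2 : N * F = N := by rw [mul_sub, mul_one, e4, sub_zero]
  have e3 : F * N = 0 := by rw [sub_mul, one_mul, e1, sub_self]
  -- both sides between two idempotents
  have key : ∀ A₁ A₂ : A, Commute g A₁ → Commute g A₂ →
      g * (A₁ * Y * A₂) + g * (A₁ * N * Y * A₂) = A₁ * Y * A₂ * g + A₁ * Y * g * (N * A₂) := by
    intro A₁ A₂ h₁ h₂
    have := congrArg (fun M => A₁ * M * A₂) h
    simp only [add_mul, mul_add, ← mul_assoc] at this
    rw [← h₁.eq] at this
    simp only [mul_assoc] at this ⊢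
    rwa [h₂.eq] at this
  have kFE := key F E hF hE
  rw [e3, zero_mul, zero_mul, mul_zero, add_zero, e4, mul_zero, add_zero] at kFE
  refine ⟨kFE, fun h0 => ?_⟩
  have hgE : ∀ X : A, X * g * N = X * E * g * N := fun X => by
    conv_lhs => rw [← e1]
    simp only [mul_assoc]
    rw [← mul_assoc E g N, ← hE.eq, mul_assoc g E N]
  have kEE := key E E hE hE
  rw [e4, mul_zero, add_zero, e1, show N * Y * E = N * ((1 - E) * Y * E) by
    conv_lhs => rw [← e2]
    simp only [F, mul_assoc], h0, mul_zero, mul_zero, add_zero] at kEE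
  have kFF := key F F hF hF
  rw [e3, zero_mul, zero_mul, mul_zero, add_zero, e2, hgE, h0, zero_mul, zero_mul, add_zero]
    at kFF
  have kEF := key E F hE hF
  rw [e1, e2, hgE, ← kEE, show N * Y * F = N * (F * Y * F) by
    conv_lhs => rw [← e2]
    simp only [mul_assoc]] at kEF
  refine ⟨kEE, kFF, ?_⟩
  rw [mul_sub g (E * Y * E * N), ← mul_assoc g (E * Y * E) N]
  linear_combination (norm := abel) kEF

variable {κ : Type*} {blk : Fin r → Fin k}

/-- An extension of a block by cocycles that are not coboundaries has scalar centraliser. -/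
lemma triv_ext {g : κ → SLC r} (hBD : ∀ v, BD blk (g v).val)
    (hSep : ∀ Y : Mat r, (∀ v, Commute (g v).val Y) →
      ∃ c : Fin k → ℂ, Y = Matrix.diagonal (c ∘ blk))
    (i₀ : Fin k) {Nj : Fin k → κ → Mat r} (hNm : ∀ j v, Nj j v ∈ blockSpace blk i₀ j)
    (hN0 : Nj i₀ = 0)
    (hNc : ∀ j, j ≠ i₀ → ∀ Z ∈ blockSpace blk i₀ j,
      Nj j ≠ fun v => Z - (g v)⁻¹.val * Z * (g v).val) :
    Triv fun v => (g v).val + (g v).val * ∑ j, Nj j v := by
  intro Y hY
  set E := proj blk i₀
  have hgE : ∀ v, Commute (g v).val E := fun v => (hBD v).commute_proj i₀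
  have hN : ∀ v, CI E (∑ j, Nj j v) := fun v => by
    refine Finset.sum_induction _ (CI E) (fun _ _ => CI.add) CI.zero fun j _ => ?_
    by_cases hj : j = i₀
    · subst hj; rw [hN0]; exact CI.zero
    · exact (blockSpace_CI (Ne.symm hj) (hNm j v)).1
  have hd : ∀ c : Fin k → ℂ, BD blk (Matrix.diagonal (c ∘ blk)) := fun c a b hab =>
    Matrix.diagonal_apply_ne _ fun e => hab (congrArg blk e)
  have hdiag : ∀ (c : Fin k → ℂ) (A B : Mat r), A * B = 0 → Commute (Matrix.diagonal (c ∘ blk)) A →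
      A * Matrix.diagonal (c ∘ blk) * B = 0 := fun c A B h hc => by
    rw [← hc.eq, Matrix.mul_assoc, h, Matrix.mul_zero]
  have hEF : E * (1 - E) = 0 := by rw [mul_sub, Matrix.mul_one, proj_idem, sub_self]
  have hFE : (1 - E) * E = 0 := by rw [sub_mul, Matrix.one_mul, proj_idem, sub_self]
  have hFF : (1 - E) * (1 - E) = 1 - E := by rw [mul_sub, Matrix.mul_one, hFE, sub_zero]
  have hext := fun v =>
    ext_comm (hgE v) (hN v).1 (hN v).2 (hY v).eq
  have hFYE : (1 - E) * Y * E = 0 := by
    obtain ⟨c, hc⟩ := hSep _ fun v => (hext v).1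
    have hh : (1 - E) * Y * E = (1 - E) * ((1 - E) * Y * E) * E := by
      simp only [← Matrix.mul_assoc, hFF]
      simp only [Matrix.mul_assoc, proj_idem blk i₀, E]
    rw [hh, hc]
    exact hdiag c _ _ hFE ((Commute.one_right _).sub_right ((hd c).commute_proj i₀))
  set Z := E * Y * (1 - E)
  set Y₀ := E * Y * E + (1 - E) * Y * (1 - E)
  obtain ⟨c, hc⟩ := hSep Y₀ fun v => ((hext v).2 hFYE).1.add_right ((hext v).2 hFYE).2.1
  have hZ : ∀ v, (g v).val * Z - Z * (g v).val =
      (g v).val * (Y₀ * (∑ j, Nj j v) - (∑ j, Nj j v) * Y₀) := fun v => by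
    have h3 : (1 - E) * (∑ j, Nj j v) = 0 := by
      rw [sub_mul, Matrix.one_mul, (hN v).1, sub_self]
    rw [((hext v).2 hFYE).2.2]
    congr 2
    · rw [show Y₀ * _ = E * Y * E * (∑ j, Nj j v) + (1 - E) * Y * (1 - E) * (∑ j, Nj j v) from
        add_mul _ _ _, Matrix.mul_assoc ((1 - E) * Y), h3, Matrix.mul_zero, add_zero]
    · rw [show _ * Y₀ = (∑ j, Nj j v) * (E * Y * E) + (∑ j, Nj j v) * ((1 - E) * Y * (1 - E)) from
        mul_add _ _ _, ← Matrix.mul_assoc _ (E * Y), ← Matrix.mul_assoc _ E, (hN v).2,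
        Matrix.zero_mul, Matrix.zero_mul, zero_add]
  have hcj : ∀ j, c j = c i₀ := by
    intro j
    by_contra hne
    have hj : j ≠ i₀ := fun e => hne (by rw [e])
    have hδ : c i₀ - c j ≠ 0 := sub_ne_zero.2 (Ne.symm hne)
    refine hNc j hj ((c i₀ - c j)⁻¹ • (E * Z * proj blk j))
      (Submodule.smul_mem _ _ fun a b hab => by rw [proj_mul_apply, if_neg hab])
      (funext fun v => ?_)
    have hgj : Commute (g v).val (proj blk j) := (hBD v).commute_proj j
    have hNv : E * (Y₀ * (∑ l, Nj l v) - (∑ l, Nj l v) * Y₀) * proj blk j =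
        (c i₀ - c j) • Nj j v := by
      ext a b
      rw [proj_mul_apply, hc, Matrix.sub_apply, Matrix.diagonal_mul, Matrix.mul_diagonal,
        Matrix.smul_apply, smul_eq_mul]
      by_cases hab : blk a = i₀ ∧ blk b = j
      · rw [if_pos hab, Matrix.sum_apply, Finset.sum_eq_single j
          (fun l _ hl => hNm l v a b fun e => hl (e.2.symm.trans hab.2)) (by simp)]
        simp only [Function.comp_apply, hab.1, hab.2]
        ring
      · rw [if_neg hab, hNm j v a b hab, mul_zero]
    have key : (g v).val * (E * Z * proj blk j) - E * Z * proj blk j * (g v).val =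
        (c i₀ - c j) • ((g v).val * Nj j v) := by
      rw [← mul_smul_comm, ← hNv]
      have h := congrArg (fun M => E * M * proj blk j) (hZ v)
      simp only [mul_sub, sub_mul, ← Matrix.mul_assoc] at h ⊢
      rw [← (hgE v).eq] at h
      rw [show E * Z * (g v).val * proj blk j = E * Z * proj blk j * (g v).val by
        rw [Matrix.mul_assoc _ (g v).val, hgj.eq, ← Matrix.mul_assoc]] at h
      exact h
    have h' := congrArg (fun M => (c i₀ - c j)⁻¹ • ((g v)⁻¹.val * M)) key
    simp only [mul_smul_comm, smul_smul, inv_mul_cancel₀ hδ, one_smul, mul_sub,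
      ← Matrix.mul_assoc, val_inv_mul, Matrix.one_mul] at h'
    rw [← h', smul_sub]
    simp only [mul_smul_comm, smul_mul_assoc, ← Matrix.mul_assoc]
  have hY₀1 : Y₀ = c i₀ • 1 := by
    rw [hc, Matrix.smul_one_eq_diagonal]
    congr 1
    exact funext fun a => hcj _
  obtain ⟨d, hd'⟩ := hSep Z fun v => by
    have h := hZ v
    rw [hY₀1, smul_mul_assoc, Matrix.one_mul, mul_smul_comm, Matrix.mul_one, sub_self,
      Matrix.mul_zero, sub_eq_zero] at h
    exact h
  have hZ0 : Z = 0 := by
    have hh : Z = E * Z * (1 - E) := by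
      simp only [Z, ← Matrix.mul_assoc, proj_idem blk i₀, E]
      simp only [E] at hFF
      simp only [Matrix.mul_assoc, hFF]
    rw [hh, hd']
    exact hdiag d _ _ hEF ((hd d).commute_proj i₀)
  refine ⟨c i₀, ?_⟩
  calc Y = (E + (1 - E)) * Y * (E + (1 - E)) := by simp
    _ = Y₀ + Z + (1 - E) * Y * E := by simp only [Y₀, Z, add_mul, mul_add]; abel
    _ = c i₀ • 1 := by rw [hFYE, hZ0, add_zero, add_zero, hY₀1]

end Extension

/-- The value of a polynomial at the generators. -/
noncomputable def evP (z : Fin s → SLC r)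
    (P : MvPolynomial (((Fin (n + 1) × Bool) ⊕ Fin s) × Fin r × Fin r) ℂ)
    (σ : PRep n s (SLC r)) : ℂ :=
  MvPolynomial.eval (fun v => gensP z σ v.1 v.2.1 v.2.2) P

/-- The generators other than the first handle, as elements of the group. -/
def tgP (z : Fin s → SLC r) (σ : PRep n s (SLC r)) : (Fin n × Bool) ⊕ Fin s → SLC r :=
  Sum.elim (tg σ.1) (pc z σ)

lemma tgensP_eq (z : Fin s → SLC r) (σ : PRep n s (SLC r)) (v : (Fin n × Bool) ⊕ Fin s) :
    tgensP z σ v = (tgP z σ v).val := by
  rcases v with v | j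
  exacts [tgens_eq σ.1 v, rfl]

/-- Separated block diagonal representations. -/
theorem eval_zero_of_sepP [NeZero r] (hn : 1 ≤ n) {z : Fin s → SLC r}
    {P : MvPolynomial (((Fin (n + 1) × Bool) ⊕ Fin s) × Fin r × Fin r) ℂ}
    (h0 : ∀ σ : PRep n s (SLC r), relP z σ = 1 → Triv (tgensP z σ) → evP z P σ = 0)
    {blk : Fin r → Fin k} (hsurj : Function.Surjective blk) {σ : PRep n s (SLC r)}
    (hσ : relP z σ = 1) (hBD : ∀ v, BD blk (gensP z σ v))
    (hSep : ∀ Y : Mat r, (∀ v, Commute (tgensP z σ v) Y) →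
      ∃ c : Fin k → ℂ, Y = Matrix.diagonal (c ∘ blk))
    (hhead : ∀ Y : Mat r, Commute (σ.1.1 0).val Y → BD blk Y) : evP z P σ = 0 := by
  classical
  set i₀ : Fin k := blk 0
  have hBDh : ∀ v, BD blk (gens σ.1 v) := fun v => hBD (.inl v)
  have hN : ∀ j, ∃ (N : Fin n × Bool → Mat r) (β : Mat r),
      (∀ v, N v ∈ blockSpace blk i₀ j) ∧ β ∈ blockSpace blk i₀ j ∧
      tailL σ.1 N + relD σ.1 (headVar β) = 0 ∧ (j = i₀ → N = 0 ∧ β = 0) ∧
      (j ≠ i₀ → ∀ Z ∈ blockSpace blk i₀ j,
        N ≠ fun v => Z - (tg σ.1 v)⁻¹.val * Z * (tg σ.1 v).val) := by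
    intro j
    by_cases hj : j = i₀
    · refine ⟨0, 0, fun v => Submodule.zero_mem _, Submodule.zero_mem _, ?_, fun _ => ⟨rfl, rfl⟩,
        fun h => absurd hj h⟩
      rw [map_zero, relD_headVar σ.1 (Matrix.trace_zero _ _), map_zero, map_zero, sub_zero,
        add_zero]
    · obtain ⟨N, β, h1, h2, h3, h4⟩ := exists_cocycleP hn hBDh hsurj hhead (Ne.symm hj)
      exact ⟨N, β, h1, h2, h3, fun h => absurd h hj, fun _ => h4⟩
  choose Nj βj hNm hβm hNL hN0 hNc using hN
  set E := proj blk i₀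
  set τ : Var n r → ℂ := ∑ j, (tailVar (Nj j) + headVar (βj j))
  have hτ : ∀ v, matOf τ v = ∑ j, (matOf (tailVar (Nj j)) v + matOf (headVar (βj j)) v) :=
    fun v => by
      ext a b
      simp only [τ, matOf, Matrix.of_apply, Matrix.sum_apply, Matrix.add_apply, Finset.sum_apply,
        Pi.add_apply]
  have hτE : ∀ v, CI E (matOf τ v) := fun v => by
    rw [hτ]
    refine Finset.sum_induction _ (CI E) (fun _ _ => CI.add) CI.zero fun j _ => ?_
    by_cases hj : j = i₀
    · obtain ⟨e1, e2⟩ := hN0 j hj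
      rw [e1, e2, show tailVar (0 : Fin n × Bool → Mat r) = 0 by
          funext ⟨⟨i, b⟩, p, q⟩; induction i using Fin.cases <;> simp [tailVar],
        show headVar (n := n) (0 : Mat r) = 0 by funext ⟨v, p, q⟩; simp [headVar], matOf_zero,
        add_zero]
      exact CI.zero
    · refine CI.add ?_ ?_
      · obtain ⟨l, b⟩ := v
        induction l using Fin.cases with
        | zero => rw [matOf_tailVar_zero]; exact CI.zero
        | succ l => rw [matOf_tailVar_succ]; exact (blockSpace_CI (Ne.symm hj) (hNm j _)).1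
      · by_cases hv : v = (0, true)
        · subst hv; rw [matOf_headVar_self]; exact (blockSpace_CI (Ne.symm hj) (hβm j)).1
        · rw [matOf_headVar_of_ne _ hv]; exact CI.zero
  have hrel0 : relD σ.1 τ = 0 := by
    let L : (Var n r → ℂ) →ₗ[ℂ] Mat r :=
      { toFun := relD σ.1, map_add' := relD_add σ.1, map_smul' := relD_smul σ.1 }
    show L τ = 0
    rw [map_sum]
    refine Finset.sum_eq_zero fun j _ => ?_
    rw [map_add]
    exact hNL j
  let ρ : ℂ → PRep n s (SLC r) := fun c => (par σ.1 (c • τ), σ.2)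
  have hmc : ∀ (c : ℂ) v, matOf (c • τ) v = c • matOf τ v := fun c v => by ext; simp [matOf]
  have hρ : ∀ c, relP z (ρ c) = 1 := fun c => by
    obtain ⟨-, h⟩ := relator_CI (fun v => (hBDh v).commute_proj i₀) (τ := c • τ) fun v => by
      rw [hmc]; exact (hτE v).smul c
    rw [relD_smul, hrel0, smul_zero, expM_zero, one_mul] at h
    rw [← hσ]
    simp only [relP, ρ, h]
    rfl
  have hgρ : ∀ c v, gens (ρ c).1 v = gens σ.1 v + c • (gens σ.1 v * matOf τ v) := fun c v => by
    rw [gens_par, hmc, ((hτE v).smul c).expM, mul_add, Matrix.mul_one, mul_smul_comm]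
  have hT : ∀ c : ℂ, c ≠ 0 → evP z P (ρ c) = 0 := fun c hc => h0 _ (hρ c) <| by
    let Nc : Fin k → (Fin n × Bool) ⊕ Fin s → Mat r := fun j =>
      Sum.elim (fun v => c • Nj j v) 0
    have hT' := triv_ext (g := tgP z σ) (blk := blk)
      (fun v => by
        rw [← tgensP_eq]
        rcases v with v | j
        exacts [hBD (.inl (v.1.succ, v.2)), hBD (.inr j)])
      (fun Y hY => hSep Y fun v => by rw [tgensP_eq]; exact hY v) i₀ (Nj := Nc)
      (fun j v => by
        rcases v with v | l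
        exacts [Submodule.smul_mem _ c (hNm j v), Submodule.zero_mem _])
      (by
        funext v
        rcases v with v | l
        · simp [Nc, (hN0 i₀ rfl).1]
        · rfl)
      fun j hj Z hZ he => hNc j hj (c⁻¹ • Z) (Submodule.smul_mem _ _ hZ) (funext fun v => by
        have h : c • Nj j v = Z - (tg σ.1 v)⁻¹.val * Z * (tg σ.1 v).val := congrFun he (.inl v)
        rw [mul_smul_comm, smul_mul_assoc, ← smul_sub, ← h, smul_smul, inv_mul_cancel₀ hc,
          one_smul])
    intro Y hY
    refine hT' Y fun v => ?_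
    convert hY v using 1
    rcases v with v | l
    · show (tgP z σ (.inl v)).val + (tgP z σ (.inl v)).val * ∑ j, Nc j (.inl v) =
        gens (ρ c).1 (v.1.succ, v.2)
      rw [hgρ, hτ, show tgP z σ (.inl v) = tg σ.1 v from rfl, ← tgens_eq]
      simp only [Nc, Sum.elim_inl, matOf_tailVar_succ, ← Finset.smul_sum, mul_smul_comm,
        matOf_headVar_of_ne _ (show ((v.1.succ, v.2) : Fin (n + 1) × Bool) ≠ (0, true) by
          simp [Fin.succ_ne_zero]), add_zero]
      rfl
    · show _ = (pc z σ l).val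
      simp [Nc, tgP]
  let G : ℂ → ((Fin (n + 1) × Bool) ⊕ Fin s) × Fin r × Fin r → ℂ := fun c u =>
    Sum.elim (fun v => gens σ.1 v + c • (gens σ.1 v * matOf τ v)) (fun j => (pc z σ j).val)
      u.1 u.2.1 u.2.2
  have hGρ : ∀ c, evP z P (ρ c) = MvPolynomial.eval (G c) P := fun c => by
    rw [evP]
    refine congrArg (fun x => MvPolynomial.eval x P) (funext fun u => ?_)
    rcases u with ⟨v | j, a, b⟩
    · exact congrFun (congrFun (hgρ c v) a) b
    · rfl
  have hG : Continuous G := continuous_pi fun u => by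
    rcases u with ⟨v | j, a, b⟩
    · simp only [G, Sum.elim_inl, Matrix.add_apply, Matrix.smul_apply, smul_eq_mul]
      fun_prop
    · exact continuous_const
  have e : evP z P (ρ 0) = 0 := by
    rw [hGρ]
    refine congrFun (Continuous.ext_on (f := fun c => MvPolynomial.eval (G c) P) (g := fun _ => 0)
      (dense_compl_singleton (0 : ℂ)) ((MvPolynomial.continuous_eval P).comp hG) continuous_const
      fun c hc => ?_) 0
    beta_reduce
    rw [← hGρ]
    exact hT c hc
  rwa [show ρ 0 = σ by simp [ρ, par_zero]] at e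

section Blocks

/-- Irreducible blocks. -/
def IrrB {κ : Type*} (blk : Fin r → Fin k) (G : κ → Mat r) : Prop :=
  ∀ (j : Fin k) (U : Submodule ℂ (Fin r → ℂ)), U ≠ ⊥ →
    (∀ u ∈ U, ∀ a, blk a ≠ j → u a = 0) → (∀ v, ∀ u ∈ U, G v *ᵥ u ∈ U) →
    ∀ w : Fin r → ℂ, (∀ a, blk a ≠ j → w a = 0) → w ∈ U

lemma full_blockP {κ : Type*} {blk : Fin r → Fin k} {G : κ → Mat r}
    (hBD : ∀ v, BD blk (G v)) (hirr : IrrB blk G) (j : Fin k)
    [NeZero (bsz blk j)] {g : κ → Mat (bsz blk j)}
    (hg : ∀ v, ∃ c : ℂ, bproj blk (G v) j = c • g v) : Full g := by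
  refine Irred.full fun U hU => ?_
  by_cases h0 : U = ⊥
  · exact Or.inl h0
  obtain ⟨u, hu, hu0⟩ := Submodule.exists_mem_ne_zero_of_ne_bot h0
  refine Or.inr (eq_top_iff.2 fun x _ => ?_)
  have hsupp : ∀ x a, blk a ≠ j → bincl blk j x a = 0 := fun x a ha => by
    show dite _ _ _ = _
    rw [dif_neg ha]
  have hinj : Function.Injective (bincl blk j) := fun x y h => funext fun p => by
    rw [← bincl_bE blk j x p, ← bincl_bE blk j y p, h]
  have hmem := hirr j (U.map (bincl blk j)) (fun e => hu0 (hinj (by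
      rw [map_zero, ← Submodule.mem_bot ℂ, ← e]
      exact Submodule.mem_map_of_mem hu)))
    (by rintro _ ⟨y, -, rfl⟩; exact hsupp y)
    (by
      rintro v _ ⟨y, hy, rfl⟩
      obtain ⟨c, hc⟩ := hg v
      rw [mulVec_bincl (hBD v), hc, Matrix.smul_mulVec]
      exact Submodule.mem_map_of_mem (U.smul_mem c (hU v y hy)))
    (bincl blk j x) (hsupp x)
  obtain ⟨y, hy, hyx⟩ := hmem
  rwa [← hinj hyx]

lemma prod_smul_val {m : ℕ} : ∀ {t : ℕ} (κ : Fin t → ℂ) (f : Fin t → SLC m),
    (List.ofFn fun i => κ i • (f i).val).prod = (∏ i, κ i) • ((List.ofFn f).prod).val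
  | 0, _, _ => by simp
  | t + 1, κ, f => by
    rw [List.ofFn_succ, List.prod_cons, prod_smul_val (fun i => κ i.succ) fun i => f i.succ,
      List.ofFn_succ, List.prod_cons, Matrix.SpecialLinearGroup.coe_mul, smul_mul_smul_comm,
      Fin.prod_univ_succ]

/-- Normalising the determinants of the factors of a relation. -/
lemma exists_normalP {m : ℕ} (hm : 0 < m) : ∀ {t : ℕ} (R : SLC m) (C : Fin t → Mat m),
    (∀ i, (C i).det ≠ 0) → R.val * (List.ofFn C).prod = 1 →
      ∃ (κ : Fin t → ℂ) (z : Fin t → SLC m), (∀ i, κ i ≠ 0) ∧ ∏ i, κ i = 1 ∧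
        (∀ i, C i = κ i • (z i).val) ∧ R * (List.ofFn z).prod = 1
  | 0, R, C, _, h => ⟨0, fun i => i.elim0, fun i => i.elim0, by simp, fun i => i.elim0,
      Subtype.ext (by simpa using h)⟩
  | t + 1, R, C, hC, h => by
    choose μ hμ using fun i : Fin t => IsAlgClosed.exists_pow_nat_eq (C i.succ).det hm
    have hμ0 : ∀ i, μ i ≠ 0 := fun i e => hC i.succ (by rw [← hμ i, e, zero_pow hm.ne'])
    let f : Fin t → SLC m := fun i => ⟨(μ i)⁻¹ • C i.succ, by
      rw [Matrix.det_smul, Fintype.card_fin, inv_pow, hμ, inv_mul_cancel₀ (hC i.succ)]⟩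
    have hf : ∀ i, C i.succ = μ i • (f i).val := fun i => (smul_inv_smul₀ (hμ0 i) _).symm
    set K := ∏ i, μ i
    have hK : K ≠ 0 := Finset.prod_ne_zero_iff.2 fun i _ => hμ0 i
    set Z := (List.ofFn f).prod
    have e : R.val * C 0 * Z.val = K⁻¹ • 1 := by
      rw [List.ofFn_succ, List.prod_cons, funext hf, prod_smul_val, mul_smul_comm, mul_smul_comm,
        ← Matrix.mul_assoc] at h
      rw [← h, inv_smul_smul₀ hK]
    have hC0 : C 0 = K⁻¹ • (R⁻¹ * Z⁻¹).val := by
      have := congrArg (fun M => R⁻¹.val * M * Z⁻¹.val) e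
      simp only [← Matrix.mul_assoc, val_inv_mul, Matrix.one_mul, mul_smul_comm, smul_mul_assoc,
        Matrix.mul_one] at this
      rw [Matrix.mul_assoc (C 0), val_mul_inv, Matrix.mul_one] at this
      rw [this, Matrix.SpecialLinearGroup.coe_mul]
    refine ⟨Fin.cons K⁻¹ μ, Fin.cons (R⁻¹ * Z⁻¹) f, Fin.cases (by simpa using hK)
      (by simpa using hμ0), ?_, Fin.cases (by simpa using hC0) (by simpa using hf), ?_⟩
    · rw [Fin.prod_univ_succ]
      simp only [Fin.cons_zero, Fin.cons_succ]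
      exact inv_mul_cancel₀ hK
    · rw [List.ofFn_succ, List.prod_cons]
      simp only [Fin.cons_zero, Fin.cons_succ]
      show R * (R⁻¹ * Z⁻¹ * Z) = 1
      group

variable (blk : Fin r → Fin k)

lemma prod_bdiag {t : ℕ} (f : Fin t → ∀ j, Mat (bsz blk j)) :
    (List.ofFn fun i => bdiag blk (f i)).prod =
      bdiag blk fun j => (List.ofFn fun i => f i j).prod := by
  have h : (List.ofFn fun i => bdiag blk (f i)).prod = bdiag blk (List.ofFn f).prod :=
    ((map_list_prod (bdiagHom blk) _).trans (by rw [List.map_ofFn]; rfl)).symm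
  rw [h]
  congr 1
  funext j
  exact (map_list_prod (Pi.evalMonoidHom (fun j => Mat (bsz blk j)) j) _).trans
    (by rw [List.map_ofFn]; rfl)

lemma val_prod {t : ℕ} (f : Fin t → SLC r) :
    ((List.ofFn f).prod).val = (List.ofFn fun i => (f i).val).prod := by
  induction t with
  | zero => simp
  | succ t ih =>
    rw [List.ofFn_succ, List.prod_cons, List.ofFn_succ, List.prod_cons,
      Matrix.SpecialLinearGroup.coe_mul, ih]

/-- The relator of block diagonal handles with scalars in the blocks. -/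
lemma relator_bdiag {ρ : Handles n (SLC r)} (c : Fin (n + 1) × Bool → Fin k → ℂ)
    (hc : ∀ v j, c v j ≠ 0) (f : Fin (n + 1) × Bool → ∀ j, SLC (bsz blk j))
    (hρ : ∀ v, gens ρ v = bdiag blk fun j => c v j • (f v j).val) :
    (relator ρ).val = bdiag blk fun j => (relator (mkH fun v => f v j)).val := by
  let V : Fin (n + 1) × Bool → ∀ j, (Mat (bsz blk j))ˣ := fun v j =>
    scU (c v j) (hc v j) * Matrix.SpecialLinearGroup.toGL (f v j)
  have hV : ∀ v, (bdiagU blk (V v)).val = bdiag blk fun j => c v j • (f v j).val := fun v => by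
    rw [bdiagU_val]; simp only [V, scU_mul_val]
  have e : mapH Matrix.SpecialLinearGroup.toGL ρ = mapH (bdiagU blk) (mkH V) :=
    Prod.ext (funext fun i => Units.ext (by
        have h := hρ (i, false); rw [← hV (i, false)] at h; simpa [gens, mapH, mkH] using h))
      (funext fun i => Units.ext (by
        have h := hρ (i, true); rw [← hV (i, true)] at h; simpa [gens, mapH, mkH] using h))
  have e2 := congrArg Units.val (congrArg relator e)
  rw [mapH_relator, mapH_relator, bdiagU_val] at e2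
  refine e2.trans (congrArg (bdiag blk) (funext fun j => ?_))
  have e3 : mapH (Pi.evalMonoidHom (fun j => (Mat (bsz blk j))ˣ) j) (mkH V) =
      mkH (fun v => scU (c v j) (hc v j)) *
        mapH Matrix.SpecialLinearGroup.toGL (mkH fun v => f v j) := rfl
  have e4 := congrArg relator e3
  rw [mapH_relator, relator_central _ _ (fun i => scU_center _ _) (fun i => scU_center _ _),
    mapH_relator] at e4
  exact congrArg Units.val e4

end Blocks

/-- Block diagonal representations with irreducible blocks. -/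
theorem eval_zero_of_irred_blocksP [NeZero r] (hn : 1 ≤ n) {z : Fin s → SLC r}
    (hC : ∀ (m : ℕ) [NeZero m] (z' : Fin s → SLC m) (σ₀ : PRep n s (SLC m)), 2 ≤ m →
      relP z' σ₀ = 1 → Full (gensP z' σ₀) → ∀ ε : ℝ, 0 < ε → ∃ σ, relP z' σ = 1 ∧
        dist (coordP σ) (coordP σ₀) < ε ∧ Triv (tgensP z' σ))
    {P : MvPolynomial (((Fin (n + 1) × Bool) ⊕ Fin s) × Fin r × Fin r) ℂ}
    (h0 : ∀ σ : PRep n s (SLC r), relP z σ = 1 → Triv (tgensP z σ) → evP z P σ = 0)
    {blk : Fin r → Fin k} (hsurj : Function.Surjective blk) {σ : PRep n s (SLC r)}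
    (hσ : relP z σ = 1) (hBD : ∀ v, BD blk (gensP z σ v)) (hirr : IrrB blk (gensP z σ)) :
    evP z P σ = 0 := by
  classical
  have hm : ∀ j, NeZero (bsz blk j) := fun j => ⟨(bsz_pos hsurj j).ne'⟩
  have hBDh : ∀ v, BD blk (gens σ.1 v) := fun v => hBD (.inl v)
  have hBDp : ∀ i, BD blk (pc z σ i).val := fun i => hBD (.inr i)
  set M : Fin (n + 1) × Bool → ∀ j, Mat (bsz blk j) := fun v => bproj blk (gens σ.1 v) with hM
  have hdetM : ∀ v, ∏ j, (M v j).det = 1 := fun v => by
    rw [← det_eq_prod (hBDh v), gens_eq_sgen]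
    exact (sgen σ.1 v).2
  have hd0 : ∀ v j, (M v j).det ≠ 0 := fun v j e => by
    have := hdetM v
    rw [Finset.prod_eq_zero (Finset.mem_univ j) e] at this
    exact zero_ne_one this
  choose lam hlam using fun v j => IsAlgClosed.exists_pow_nat_eq (M v j).det (bsz_pos hsurj j)
  have hlam0 : ∀ v j, lam v j ≠ 0 := fun v j e => by
    have := hlam v j
    rw [e, zero_pow (bsz_pos hsurj j).ne'] at this
    exact hd0 v j this.symm
  let A : Fin (n + 1) × Bool → ∀ j, SLC (bsz blk j) := fun v j => ⟨(lam v j)⁻¹ • M v j, by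
    rw [Matrix.det_smul, Fintype.card_fin, inv_pow, hlam, inv_mul_cancel₀ (hd0 v j)]⟩
  have hMA : ∀ v j, M v j = lam v j • (A v j).val := fun v j => (smul_inv_smul₀ (hlam0 v j) _).symm
  have hσg : ∀ v, gens σ.1 v = bdiag blk fun j => lam v j • (A v j).val := fun v => by
    simp only [← hMA]
    exact (bdiag_bproj (hBDh v)).symm
  -- the relation holds in each block
  have hblock : ∀ j, (relator (mkH fun v => A v j)).val *
      (List.ofFn fun i => bproj blk (pc z σ i).val j).prod = 1 := fun j => by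
    have h := congrArg (fun g : SLC r => bproj blk g.val j) hσ
    simp only [relP, pprod, Matrix.SpecialLinearGroup.coe_mul, Matrix.SpecialLinearGroup.coe_one,
      val_prod, relator_bdiag blk lam hlam0 A hσg] at h
    rw [show (List.ofFn fun i => (pc z σ i).val) =
      List.ofFn fun i => bdiag blk (bproj blk (pc z σ i).val) by simp only [bdiag_bproj (hBDp _)],
      prod_bdiag, ← bdiag_mul, ← bdiag_one blk, bproj_bdiag, bproj_bdiag] at h
    exact h
  have hpd : ∀ i j, (bproj blk (pc z σ i).val j).det ≠ 0 := fun i j e => by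
    have h := det_eq_prod (hBDp i)
    rw [Finset.prod_eq_zero (Finset.mem_univ j) e, (pc z σ i).2] at h
    exact one_ne_zero h
  choose κ z' hκ0 hκ1 hκ hz' using fun j =>
    exists_normalP (bsz_pos hsurj j) _ _ (fun i => hpd i j) (hblock j)
  let σb : ∀ j, PRep n s (SLC (bsz blk j)) := fun j => (mkH fun v => A v j, fun _ => 1)
  have hpcb : ∀ j i, pc (z' j) (σb j) i = z' j i := fun j i => by simp [pc, σb]
  have hσb : ∀ j, relP (z' j) (σb j) = 1 := fun j => by
    rw [relP, pprod, show pc (z' j) (σb j) = z' j from funext (hpcb j)]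
    exact hz' j
  have hfull : ∀ j, Full (gensP (z' j) (σb j)) := fun j => by
    have := hm j
    refine full_blockP hBD hirr j ?_
    rintro (v | i)
    · exact ⟨lam v j, by
        show bproj blk (gens σ.1 v) j = lam v j • gens (σb j).1 v
        rw [gens_eq_sgen (σb j).1, sgen_mkH]
        exact hMA v j⟩
    · exact ⟨κ j i, by
        show bproj blk (pc z σ i).val j = κ j i • (pc (z' j) (σb j) i).val
        rw [hpcb]; exact hκ j i⟩
  -- the deformation
  let v₀ : Fin n × Bool := (⟨0, by omega⟩, false)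
  let w₀ : Fin (n + 1) × Bool := (v₀.1.succ, v₀.2)
  let μ : ℝ → Fin (n + 1) × Bool → Fin k → ℂ := fun ε v j =>
    if v = w₀ ∨ v = (0, false) then ((Real.exp (ε * sepW blk j) : ℝ) : ℂ) else 1
  let F : ℝ × (∀ j, PVar n s (bsz blk j) → ℂ) →
      ((Fin (n + 1) × Bool) ⊕ Fin s) × Fin r × Fin r → ℂ := fun q u =>
    Sum.elim (fun v => bdiag blk fun j => (lam v j * μ q.1 v j) • matOf (matH (q.2 j)) v)
      (fun i => bdiag blk fun j => κ j i •
        (matU (q.2 j) i * (z' j i).val * (matU (q.2 j) i).adjugate)) u.1 u.2.1 u.2.2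
  have hFcont : Continuous F := by
    have hμ : ∀ v j, Continuous fun ε : ℝ => μ ε v j := fun v j => by
      simp only [μ]
      split_ifs
      · exact Complex.continuous_ofReal.comp
          (Real.continuous_exp.comp (continuous_id.mul continuous_const))
      · exact continuous_const
    have hbd : ∀ f : ℝ × (∀ j, PVar n s (bsz blk j) → ℂ) → ∀ j, Mat (bsz blk j),
        (∀ j, Continuous fun q => f q j) → Continuous fun q => bdiag blk (f q) := fun f hf =>
      (Continuous.matrix_blockDiagonal' (continuous_pi hf)).matrix_submatrix _ _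
    refine continuous_pi fun u => ?_
    rcases u with ⟨v | i, a, b⟩
    · simp only [F, Sum.elim_inl]
      refine (hbd _ fun j => ?_).matrix_elem a b
      refine Continuous.smul (continuous_const.mul ((hμ _ _).comp continuous_fst)) ?_
      exact continuous_matrix fun p q => (continuous_apply (Sum.inl (v, p, q))).comp
        ((continuous_apply j).comp continuous_snd)
    · simp only [F, Sum.elim_inr]
      refine (hbd _ fun j => ?_).matrix_elem a b
      have hU : Continuous fun q : ℝ × (∀ j, PVar n s (bsz blk j) → ℂ) => matU (q.2 j) i :=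
        continuous_matrix fun p q => (continuous_apply (Sum.inr (i, p, q))).comp
          ((continuous_apply j).comp continuous_snd)
      exact ((hU.matrix_mul continuous_const).matrix_mul hU.matrix_adjugate).const_smul (κ j i)
  have hF0 : F (0, fun j => coordP (σb j)) = fun u => gensP z σ u.1 u.2.1 u.2.2 := by
    funext ⟨v, a, b⟩
    rcases v with v | i
    · have e : (fun j => (lam v j * μ 0 v j) • matOf (matH (coordP (σb j))) v) =
          fun j => lam v j • (A v j).val := funext fun j => by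
        rw [show matH (coordP (σb j)) = coord (σb j).1 from rfl, matOf_eq_gens, gens_eq_sgen,
          sgen_mkH]
        simp [μ]
      simp only [F, Sum.elim_inl]
      rw [e, ← hσg]
      rfl
    · have e : (fun j => κ j i • (matU (coordP (σb j)) i * (z' j i).val *
          (matU (coordP (σb j)) i).adjugate)) = bproj blk (pc z σ i).val := funext fun j => by
        rw [show matU (coordP (σb j)) i = (1 : SLC (bsz blk j)).val from rfl,
          Matrix.SpecialLinearGroup.coe_one, Matrix.adjugate_one, Matrix.one_mul, Matrix.mul_one,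
          hκ j i]
      simp only [F, Sum.elim_inr]
      rw [e, bdiag_bproj (hBDp i)]
      rfl
  by_contra hne
  obtain ⟨δ, hδ, hball⟩ := Metric.eventually_nhds_iff.1
    (((MvPolynomial.continuous_eval P).comp hFcont).continuousAt.eventually_ne
      (x := ((0 : ℝ), fun j => coordP (σb j))) (y := 0)
      (by simpa [Function.comp, hF0, evP] using hne))
  have hnear : ∀ j, ∃ σ' : PRep n s (SLC (bsz blk j)), relP (z' j) σ' = 1 ∧
      dist (coordP σ') (coordP (σb j)) < δ ∧ Triv (tgensP (z' j) σ') := fun j => by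
    have := hm j
    rcases Nat.lt_or_ge (bsz blk j) 2 with hj | hj
    · have : Subsingleton (Fin (bsz blk j)) := ⟨fun a b => Fin.ext (by omega)⟩
      refine ⟨σb j, hσb j, by simpa using hδ, fun Y _ => ⟨Y 0 0, Matrix.ext fun p q => ?_⟩⟩
      rw [Subsingleton.elim p 0, Subsingleton.elim q 0]
      simp
    · exact hC _ (z' j) (σb j) hj (hσb j) (hfull j) δ hδ
  choose σ' hσ' hd' hT' using hnear
  -- a good value of the parameter
  let u₀ : Fin (n + 1) × Bool := (0, false)
  let T : (Fin (n + 1) × Bool) → ∀ i j,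
      Module.End ℂ (Matrix (Fin (bsz blk i)) (Fin (bsz blk j)) ℂ) := fun u i j =>
    { toFun := fun Y => (sgen (σ' i).1 u).val * Y * (sgen (σ' j).1 u)⁻¹.val
      map_add' := fun Y Z => by simp [Matrix.mul_add, Matrix.add_mul]
      map_smul' := fun c Y => by simp [Matrix.mul_smul, Matrix.smul_mul] }
  let cst : (Fin (n + 1) × Bool) → Fin k → Fin k → ℝ → ℂ := fun u i j ε =>
    lam u j * μ ε u j / (lam u i * μ ε u i)
  let bad : Set ℝ := ⋃ u, ⋃ (_ : u = w₀ ∨ u = u₀), ⋃ i, ⋃ j, ⋃ (_ : i ≠ j),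
    {ε | (T u i j).HasEigenvalue (cst u i j ε)}
  have hbad : bad.Finite := by
    refine Set.finite_iUnion fun u => Set.finite_iUnion fun hu => Set.finite_iUnion fun i =>
      Set.finite_iUnion fun j => Set.finite_iUnion fun hij => ?_
    refine Set.Finite.preimage ?_ (Module.End.finite_hasEigenvalue (T u i j))
    intro x _ y _ hxy
    simp only [cst, μ, u₀] at hxy hu
    simp only [if_pos hu, ← div_mul_div_comm, ← Complex.ofReal_div, ← Real.exp_sub] at hxy
    have := Real.exp_injective (Complex.ofReal_injective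
      (mul_left_cancel₀ (div_ne_zero (hlam0 _ _) (hlam0 _ _)) hxy))
    have hw : sepW blk j - sepW blk i ≠ 0 := by
      simp only [sepW, sub_sub_sub_cancel_right, ne_eq, sub_eq_zero, Nat.cast_inj]
      exact fun e => hij (Fin.ext e).symm
    exact mul_right_cancel₀ hw (by linarith)
  obtain ⟨ε, hε, hεbad⟩ := ((Set.Ioo_infinite hδ).sdiff hbad).nonempty
  let c : Fin (n + 1) × Bool → Fin k → ℂ := fun v j => lam v j * μ ε v j
  have hc0 : ∀ v j, c v j ≠ 0 := fun v j => mul_ne_zero (hlam0 v j) (by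
    simp only [μ]; split_ifs <;> simp)
  have hdet : ∀ v, (bdiag blk fun j => c v j • (sgen (σ' j).1 v).val).det = 1 := fun v => by
    simp only [det_bdiag, Matrix.det_smul, Fintype.card_fin, Matrix.SpecialLinearGroup.det_coe,
      mul_one, c, mul_pow, hlam, Finset.prod_mul_distrib, hdetM, one_mul, μ]
    split_ifs
    · rw [← Complex.ofReal_one, ← Real.exp_zero]
      simp only [← Complex.ofReal_pow, ← Complex.ofReal_prod, ← Real.exp_nat_mul, ← Real.exp_sum]
      congr 2
      rw [← mul_zero ε, ← sum_sepW blk, Finset.mul_sum]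
      exact Finset.sum_congr rfl fun j _ => by ring
    · simp
  let w : Fin s → SLC r := fun i => ⟨bdiag blk fun j => ((σ' j).2 i).val, by
    simp only [det_bdiag, Matrix.SpecialLinearGroup.det_coe, Finset.prod_const_one]⟩
  let ρ : PRep n s (SLC r) := (mkH fun v => ⟨_, hdet v⟩, fun i => w i * σ.2 i)
  have hρg : ∀ v, gens ρ.1 v = bdiag blk fun j => c v j • (sgen (σ' j).1 v).val := fun v => by
    rw [gens_eq_sgen]
    exact congrArg Subtype.val (sgen_mkH (fun v => (⟨_, hdet v⟩ : SLC r)) v)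
  have hρp : ∀ i, (pc z ρ i).val = bdiag blk fun j => κ j i • (pc (z' j) (σ' j) i).val := fun i => by
    have e : pc z ρ i * w i = w i * pc z σ i := by simp only [pc, ρ]; group
    have e' := congrArg Subtype.val e
    rw [Matrix.SpecialLinearGroup.coe_mul, Matrix.SpecialLinearGroup.coe_mul] at e'
    rw [← Matrix.mul_one (pc z ρ i).val, ← val_mul_inv (w i), ← Matrix.mul_assoc, e']
    have e2 : (w i).val * (pc z σ i).val =
        (bdiag blk fun j => κ j i • (pc (z' j) (σ' j) i).val) * (w i).val := by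
      rw [← bdiag_bproj (hBDp i),
        show (w i).val = bdiag blk fun j => ((σ' j).2 i).val from rfl, ← bdiag_mul, ← bdiag_mul]
      congr 1
      funext j
      rw [Pi.mul_apply, Pi.mul_apply, hκ j i, mul_smul_comm, smul_mul_assoc,
        ← Matrix.SpecialLinearGroup.coe_mul, ← Matrix.SpecialLinearGroup.coe_mul]
      congr 2
      rw [pc, inv_mul_cancel_right]
    rw [e2, Matrix.mul_assoc, val_mul_inv, Matrix.mul_one]
  have hρ : relP z ρ = 1 := by
    refine Subtype.ext ?_
    rw [relP, pprod, Matrix.SpecialLinearGroup.coe_mul, Matrix.SpecialLinearGroup.coe_one,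
      val_prod, relator_bdiag blk c hc0 (fun v j => sgen (σ' j).1 v) hρg, funext hρp, prod_bdiag,
      ← bdiag_mul, ← bdiag_one blk]
    congr 1
    funext j
    rw [Pi.mul_apply, Pi.one_apply, prod_smul_val, hκ1, one_smul, mkH_sgen]
    exact congrArg Subtype.val (hσ' j)
  have hρBD : ∀ v, BD blk (gensP z ρ v) := by
    rintro (v | i)
    · show BD blk (gens ρ.1 v); rw [hρg]; exact bd_bdiag blk _
    · show BD blk (pc z ρ i).val; rw [hρp]; exact bd_bdiag blk _
  have hkill : ∀ u, (u = w₀ ∨ u = u₀) → ∀ i j, i ≠ j →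
      ∀ B : Matrix (Fin (bsz blk i)) (Fin (bsz blk j)) ℂ,
        (c u i • (sgen (σ' i).1 u).val) * B = B * (c u j • (sgen (σ' j).1 u).val) → B = 0 := by
    intro u hu i j hij B h
    by_contra hB0
    refine hεbad (Set.mem_iUnion.2 ⟨u, Set.mem_iUnion.2 ⟨hu, Set.mem_iUnion.2 ⟨i,
      Set.mem_iUnion.2 ⟨j, Set.mem_iUnion.2 ⟨hij, ?_⟩⟩⟩⟩⟩)
    refine Module.End.hasEigenvalue_of_hasEigenvector (x := B)
      ⟨Module.End.mem_eigenspace_iff.2 ?_, hB0⟩
    rw [Matrix.smul_mul, Matrix.mul_smul] at h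
    show (sgen (σ' i).1 u).val * B * (sgen (σ' j).1 u)⁻¹.val = _
    have h' : (sgen (σ' i).1 u).val * B = cst u i j ε • (B * (sgen (σ' j).1 u).val) := by
      show _ = (c u j / c u i) • _
      rw [div_eq_inv_mul, ← smul_smul, ← h, inv_smul_smul₀ (hc0 _ _)]
    rw [h', Matrix.smul_mul, Matrix.mul_assoc, val_mul_inv, Matrix.mul_one]
  have hhead : ∀ Y : Mat r, Commute (ρ.1.1 0).val Y → BD blk Y := fun Y hY a b hab => by
    obtain ⟨⟨i, p⟩, rfl⟩ := (bE blk).surjective a
    obtain ⟨⟨j, q⟩, rfl⟩ := (bE blk).surjective b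
    rw [blk_bE blk, blk_bE blk] at hab
    rw [← gens_zero, hρg] at hY
    exact congrFun (congrFun (hkill u₀ (Or.inr rfl) i j hab _
      (commute_bdiag_iff _ hY i j)) p) q
  have hSep : ∀ Y : Mat r, (∀ v, Commute (tgensP z ρ v) Y) →
      ∃ d : Fin k → ℂ, Y = Matrix.diagonal (d ∘ blk) := by
    intro Y hY
    set B : ∀ i j, Matrix (Fin (bsz blk i)) (Fin (bsz blk j)) ℂ := fun i j =>
      Y.submatrix (fun p => bE blk ⟨i, p⟩) (fun q => bE blk ⟨j, q⟩) with hB
    have hcomm : ∀ (v : Fin n × Bool) i j, (c (v.1.succ, v.2) i •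
        (sgen (σ' i).1 (v.1.succ, v.2)).val) * B i j =
        B i j * (c (v.1.succ, v.2) j • (sgen (σ' j).1 (v.1.succ, v.2)).val) := by
      intro v i j
      refine commute_bdiag_iff
        (fun l => c (v.1.succ, v.2) l • (sgen (σ' l).1 (v.1.succ, v.2)).val) ?_ i j
      rw [← hρg]
      exact hY (.inl v)
    have hoff : ∀ i j, i ≠ j → B i j = 0 := fun i j hij =>
      hkill w₀ (Or.inl rfl) i j hij (B i j) (hcomm v₀ i j)
    have hdiag : ∀ j, ∃ d : ℂ, B j j = d • 1 := fun j => by
      refine hT' j (B j j) ?_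
      rintro (v | l)
      · have h := hcomm v j j
        rw [Matrix.smul_mul, Matrix.mul_smul] at h
        show gens (σ' j).1 (v.1.succ, v.2) * B j j = B j j * gens (σ' j).1 (v.1.succ, v.2)
        rw [gens_eq_sgen]
        exact smul_right_injective _ (hc0 _ _) h
      · have hl : Commute (pc z ρ l).val Y := hY (.inr l)
        rw [hρp] at hl
        have h := commute_bdiag_iff _ hl j j
        rw [Matrix.smul_mul, Matrix.mul_smul] at h
        exact smul_right_injective _ (hκ0 j l) h
    choose d hd using hdiag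
    refine ⟨d, ?_⟩
    ext a b
    obtain ⟨⟨i, p⟩, rfl⟩ := (bE blk).surjective a
    obtain ⟨⟨j, q⟩, rfl⟩ := (bE blk).surjective b
    show B i j p q = _
    rw [Matrix.diagonal_apply, Function.comp_apply, blk_bE blk]
    by_cases hij : i = j
    · subst hij
      rw [hd, Matrix.smul_apply, Matrix.one_apply, smul_eq_mul, mul_ite, mul_one, mul_zero]
      simp [(bE blk).injective.eq_iff]
    · rw [hoff i j hij, Matrix.zero_apply, if_neg]
      exact fun e => hij (congrArg Sigma.fst ((bE blk).injective e))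
  have hclose : dist (ε, fun j => coordP (σ' j)) ((0 : ℝ), fun j => coordP (σb j)) < δ := by
    rw [Prod.dist_eq, max_lt_iff]
    refine ⟨by rw [dist_zero_right, Real.norm_eq_abs, abs_of_pos hε.1]; exact hε.2, ?_⟩
    exact (dist_pi_lt_iff hδ).2 hd'
  refine hball hclose ?_
  have hFε : F (ε, fun j => coordP (σ' j)) = fun u => gensP z ρ u.1 u.2.1 u.2.2 := by
    funext ⟨v, a, b⟩
    rcases v with v | i
    · simp only [F, Sum.elim_inl, gensP, hρg, c]
      rw [show (fun j => (lam v j * μ ε v j) • matOf (matH (coordP (σ' j))) v) =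
        fun j => (lam v j * μ ε v j) • (sgen (σ' j).1 v).val from funext fun j => by
          rw [show matH (coordP (σ' j)) = coord (σ' j).1 from rfl, matOf_eq_gens, gens_eq_sgen]]
    · simp only [F, Sum.elim_inr, gensP, hρp]
      rw [show (fun j => κ j i • (matU (coordP (σ' j)) i * (z' j i).val *
        (matU (coordP (σ' j)) i).adjugate)) = fun j => κ j i • (pc (z' j) (σ' j) i).val from
        funext fun j => by
          rw [show matU (coordP (σ' j)) i = ((σ' j).2 i).val from rfl,
            ← Matrix.SpecialLinearGroup.coe_inv]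
          simp only [pc, Matrix.SpecialLinearGroup.coe_mul]]
  show MvPolynomial.eval (F _) P = 0
  rw [hFε]
  exact eval_zero_of_sepP hn h0 hsurj hρ hρBD hSep hhead

section Semisimple

/-- Invariant subspaces are images of commuting projections. -/
def SemiP {κ : Type*} (G : κ → Mat r) : Prop :=
  ∀ W : Submodule ℂ (Fin r → ℂ), (∀ v, ∀ u ∈ W, G v *ᵥ u ∈ W) →
    ∃ π : Mat r, (∀ v, Commute (G v) π) ∧ (∀ u ∈ W, π *ᵥ u = u) ∧ ∀ x, π *ᵥ x ∈ W

variable {κ : Type*} {G : κ → Mat r}

lemma semiP_of_compl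
    (hss : ∀ U : Submodule ℂ (Fin r → ℂ), (∀ v, ∀ u ∈ U, G v *ᵥ u ∈ U) →
      ∃ U', (∀ v, ∀ u ∈ U', G v *ᵥ u ∈ U') ∧ IsCompl U U') : SemiP G := by
  intro W hW
  obtain ⟨W', hW', hc⟩ := hss W hW
  set f := W.projection W' hc
  have hf : ∀ x, LinearMap.toMatrix' f *ᵥ x = f x := fun x => LinearMap.toMatrix'_mulVec f x
  refine ⟨LinearMap.toMatrix' f, fun v => ?_, fun u hu => ?_, fun x => ?_⟩
  · refine Matrix.ext_of_mulVec_single fun i => ?_
    set x : Fin r → ℂ := Pi.single i 1
    rw [← Matrix.mulVec_mulVec, ← Matrix.mulVec_mulVec, hf, hf]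
    have h1 : x - f x ∈ W' := (Submodule.projection_apply_eq_zero_iff hc).1 (by
      rw [map_sub, Submodule.projection_apply_of_mem_left hc (Submodule.projection_apply_mem hc x),
        sub_self])
    have h2 : f (G v *ᵥ (x - f x)) = 0 :=
      (Submodule.projection_apply_eq_zero_iff hc).2 (hW' v _ h1)
    rw [Matrix.mulVec_sub, map_sub, sub_eq_zero] at h2
    rw [h2, Submodule.projection_apply_of_mem_left hc
      (hW v _ (Submodule.projection_apply_mem hc x))]
  · rw [hf, Submodule.projection_apply_of_mem_left hc hu]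
  · rw [hf]; exact Submodule.projection_apply_mem hc x

lemma SemiP.conj (h : SemiP G) (U : (Mat r)ˣ) :
    SemiP fun v => U.val * G v * U⁻¹.val := by
  intro W hW
  obtain ⟨π, h1, h2, h3⟩ := h (W.comap (Matrix.mulVecLin U.val)) fun v u hu => by
    have h := hW v _ hu
    simpa [Matrix.mulVec_mulVec, Matrix.mul_assoc, U.inv_mul] using h
  refine ⟨U.val * π * U⁻¹.val, fun v => ?_, fun u hu => ?_, fun x => ?_⟩
  · show _ = _
    simp only [Matrix.mul_assoc, Units.inv_mul_cancel_left]
    rw [← Matrix.mul_assoc (G v) π, (h1 v).eq, Matrix.mul_assoc]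
  · have h := h2 (U⁻¹.val *ᵥ u) (by simpa [Matrix.mulVec_mulVec, U.mul_inv] using hu)
    rw [← Matrix.mulVec_mulVec, ← Matrix.mulVec_mulVec, h, Matrix.mulVec_mulVec, U.mul_inv,
      Matrix.one_mulVec]
  · rw [← Matrix.mulVec_mulVec, ← Matrix.mulVec_mulVec]
    exact h3 _

/-- A block of a semisimple family with an invariant subspace splits after a change of basis. -/
lemma exists_splitP {blk : Fin r → Fin k} (hsurj : Function.Surjective blk)
    (hBD : ∀ v, BD blk (G v)) (hS : SemiP G) {j : Fin k}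
    {U : Submodule ℂ (Fin r → ℂ)} (hU0 : U ≠ ⊥) (hsupp : ∀ u ∈ U, ∀ a, blk a ≠ j → u a = 0)
    (hlt : ∃ w : Fin r → ℂ, (∀ a, blk a ≠ j → w a = 0) ∧ w ∉ U)
    (hinv : ∀ v, ∀ u ∈ U, G v *ᵥ u ∈ U) :
    ∃ (V : (Mat r)ˣ) (blk' : Fin r → Fin (k + 1)), Function.Surjective blk' ∧
      ∀ v, BD blk' (V.val * G v * V⁻¹.val) := by
  classical
  obtain ⟨M, T, hTne, hTj, ⟨a₀, ha₀, ha₀T⟩, hM, hMU, hUM⟩ := exists_adapted hU0 hsupp hlt
  set G' := fun v => M⁻¹.val * G v * M.val
  have hG'BD : ∀ v, BD blk (G' v) := fun v => ((hM.inv).mul (hBD v)).mul hM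
  have hTri : ∀ v, Tri T (G' v) := fun v a b ha hb => by
    obtain ⟨y, hy, hyv⟩ := hUM _ (hinv v _ (hMU b hb))
    have h1 : G' v *ᵥ Pi.single b 1 = y := by
      simp only [G']
      rw [← Matrix.mulVec_mulVec, ← Matrix.mulVec_mulVec, ← hyv, Matrix.mulVec_mulVec,
        M.inv_mul, Matrix.one_mulVec]
    have h2 := congrFun h1 a
    rw [Matrix.mulVec_single_one, hy a ha] at h2
    exact h2
  let W : Submodule ℂ (Fin r → ℂ) :=
    { carrier := {x | ∀ a, a ∉ T → x a = 0}
      zero_mem' := fun _ _ => rfl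
      add_mem' := fun h h' a ha => by simp [h a ha, h' a ha]
      smul_mem' := fun c _ h a ha => by simp [h a ha] }
  have hW : ∀ v, ∀ u ∈ W, G' v *ᵥ u ∈ W := fun v u hu a ha =>
    show ∑ b, G' v a b * u b = 0 from Finset.sum_eq_zero fun b _ => by
      by_cases hb : b ∈ T
      · rw [hTri v a b ha hb, zero_mul]
      · rw [hu b hb, mul_zero]
  have hS' : SemiP G' := by simpa only [inv_inv] using hS.conj M⁻¹
  obtain ⟨π, hπ1, hπ2, hπ3⟩ := hS' W hW
  set π' := π * proj blk j
  set E : Mat r := Matrix.diagonal fun a => if a ∈ T then 1 else 0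
  have hrow : ∀ a b, a ∉ T → π a b = 0 := fun a b ha => by
    have := hπ3 (Pi.single b 1) a ha
    rwa [Matrix.mulVec_single_one] at this
  have hcol : ∀ a b, b ∈ T → π a b = (1 : Mat r) a b := fun a b hb => by
    have := congrFun (hπ2 (Pi.single b 1) fun c hc =>
      Pi.single_eq_of_ne (fun h : c = b => hc (h ▸ hb)) 1) a
    rw [Matrix.mulVec_single_one, Pi.single_apply] at this
    exact this.trans (Matrix.one_apply).symm
  have hπ' : ∀ a b, π' a b = if blk b = j then π a b else 0 := fun a b => by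
    simp only [π', proj, Matrix.mul_diagonal, Function.comp_apply]
    split_ifs <;> simp
  have e1 : E * π' = π' := by
    ext a b
    simp only [E, Matrix.diagonal_mul]
    by_cases ha : a ∈ T
    · rw [if_pos ha, one_mul]
    · rw [hπ', hrow a b ha, if_neg ha, ite_self, zero_mul]
  have e2 : π' * E = E := by
    ext a b
    simp only [E, Matrix.mul_diagonal]
    by_cases hb : b ∈ T
    · rw [if_pos hb, mul_one, hπ', if_pos (mem_blkSet.1 (hTj hb)), hcol a b hb,
        Matrix.diagonal_apply, Matrix.one_apply]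
      by_cases hab : a = b <;> simp [hab, hb]
    · rw [if_neg hb, mul_zero, Matrix.diagonal_apply]
      by_cases hab : a = b <;> simp [hab, hb]
  set X := π' - E
  have hEE : E * E = E := by
    simp only [E, Matrix.diagonal_mul_diagonal]
    congr 1; funext a; split_ifs <;> simp
  have hX : CI E X :=
    ⟨by rw [mul_sub, e1, hEE], by rw [sub_mul, e2, hEE, sub_self]⟩
  let Q : (Mat r)ˣ :=
    { val := 1 + X
      inv := 1 - X
      val_inv := by
        rw [mul_sub, Matrix.mul_one, add_mul, Matrix.one_mul, hX.mul hX, add_zero]; abel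
      inv_val := by
        rw [sub_mul, Matrix.one_mul, mul_add, Matrix.mul_one, hX.mul hX, add_zero]; abel }
  have hQπ : Q.val * π' * Q⁻¹.val = E := by
    show (1 + X) * π' * (1 - X) = E
    rw [show π' = E + X by simp [X], add_mul, Matrix.one_mul, mul_add, hX.2, hX.mul hX, add_zero,
      add_zero, mul_sub, Matrix.mul_one, add_mul, hX.1, hX.mul hX, add_zero]
    abel
  have hXBD : BD blk X := fun a b hab => by
    show π' a b - E a b = 0
    rw [hπ', show E a b = 0 from Matrix.diagonal_apply_ne _ (fun e => hab (congrArg blk e)), sub_zero]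
    by_cases ha : a ∈ T
    · rw [if_neg fun e => hab ((mem_blkSet.1 (hTj ha)).trans e.symm)]
    · rw [hrow a b ha, ite_self]
  have hQBD : BD blk Q.val := fun a b hab => by
    show (1 + X) a b = 0
    rw [Matrix.add_apply, hXBD a b hab, Matrix.one_apply_ne fun e => hab (congrArg blk e),
      add_zero]
  refine ⟨Q * M⁻¹, fun a => if a ∈ T then Fin.last k else (blk a).castSucc, fun i => ?_,
    fun v a b hab => ?_⟩
  · induction i using Fin.lastCases with
    | last => exact ⟨hTne.choose, if_pos hTne.choose_spec⟩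
    | cast i =>
      by_cases hij : i = j
      · exact ⟨a₀, by simp only [if_neg ha₀T, ha₀, hij]⟩
      · obtain ⟨a, ha⟩ := hsurj i
        refine ⟨a, ?_⟩
        simp only [if_neg fun h => hij (ha.symm.trans (mem_blkSet.1 (hTj h))), ha]
  · set g := Q.val * G' v * Q⁻¹.val
    have hg : (Q * M⁻¹).val * G v * (Q * M⁻¹)⁻¹.val = g := by
      simp only [g, G', _root_.mul_inv_rev, inv_inv, Units.val_mul, Matrix.mul_assoc]
    rw [hg]
    have hc : Commute g E := by
      rw [← hQπ]
      have hcomm : Commute (G' v) π' := (hπ1 v).mul_right ((hG'BD v).commute_proj j)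
      show _ = _
      simp only [g, Matrix.mul_assoc, Units.inv_mul_cancel_left]
      rw [← Matrix.mul_assoc (G' v) π', hcomm.eq, Matrix.mul_assoc]
    have hab' := congrFun (congrFun hc.eq a) b
    simp only [E, Matrix.mul_diagonal, Matrix.diagonal_mul] at hab'
    by_cases ha : a ∈ T <;> by_cases hb : b ∈ T
    · exact absurd (by simp [ha, hb]) hab
    · simpa [ha, hb] using hab'.symm
    · simpa [ha, hb] using hab'
    · exact (hQBD.mul (hG'BD v)).mul hQBD.inv a b fun h => hab (by simp [ha, hb, h])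

end Semisimple

/-- Simultaneous conjugation by an invertible matrix. -/
lemma exists_conjP [NeZero r] {z : Fin s → SLC r}
    {P : MvPolynomial (((Fin (n + 1) × Bool) ⊕ Fin s) × Fin r × Fin r) ℂ}
    (hinv : ∀ (h : SLC r) (σ : PRep n s (SLC r)), relP z σ = 1 →
      evP z P (mapH (MulAut.conj h).toMonoidHom σ.1, fun j => h * σ.2 j) = evP z P σ)
    (U : (Mat r)ˣ) {σ : PRep n s (SLC r)} (hσ : relP z σ = 1) :
    ∃ σ' : PRep n s (SLC r), relP z σ' = 1 ∧
      (∀ v, gensP z σ' v = U.val * gensP z σ v * U⁻¹.val) ∧ evP z P σ' = evP z P σ := by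
  have hU : U.val.det ≠ 0 := ((Matrix.isUnit_iff_isUnit_det _).1 U.isUnit).ne_zero
  obtain ⟨c, hc⟩ := IsAlgClosed.exists_pow_nat_eq U.val.det⁻¹ (Nat.pos_of_neZero r)
  have hc0 : c ≠ 0 := fun e => by
    rw [e, zero_pow (NeZero.ne r)] at hc
    exact inv_ne_zero hU hc.symm
  let h : SLC r := ⟨c • U.val, by
    rw [Matrix.det_smul, Fintype.card_fin, hc, inv_mul_cancel₀ hU]⟩
  have hh : h⁻¹.val = c⁻¹ • U⁻¹.val := by
    rw [coe_inv_SL]
    refine Matrix.inv_eq_left_inv ?_
    rw [show h.val = c • U.val from rfl, smul_mul_assoc, mul_smul_comm, smul_smul,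
      inv_mul_cancel₀ hc0, one_smul, Units.inv_mul]
  have hcj : ∀ g : SLC r, (MulAut.conj h g).val = U.val * g.val * U⁻¹.val := fun g => by
    simp only [MulAut.conj_apply, Matrix.SpecialLinearGroup.coe_mul, hh]
    rw [show h.val = c • U.val from rfl]
    simp only [smul_mul_assoc, mul_smul_comm, smul_smul, inv_mul_cancel₀ hc0, one_smul]
  have hpc : ∀ j, pc z (mapH (MulAut.conj h).toMonoidHom σ.1, fun j => h * σ.2 j) j =
      MulAut.conj h (pc z σ j) := fun j => by simp only [pc, MulAut.conj_apply]; group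
  refine ⟨_, ?_, ?_, hinv h σ hσ⟩
  · rw [relP, mapH_relator, pprod, funext hpc,
      show (List.ofFn fun j => MulAut.conj h (pc z σ j)).prod =
        (MulAut.conj h).toMonoidHom (pprod z σ) by
        rw [pprod, map_list_prod, List.map_ofFn]; rfl,
      ← map_mul, ← relP, hσ, map_one]
  · rintro (v | j)
    · show gens (mapH _ σ.1) v = _
      rw [gens_mapH, MulEquiv.coe_toMonoidHom, hcj]
      obtain ⟨i, b⟩ := v
      cases b <;> rfl
    · show (pc z _ j).val = _
      rw [hpc, hcj]
      rfl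

/-- Semisimple block diagonal representations. -/
theorem eval_zero_of_bdP [NeZero r] (hn : 1 ≤ n) {z : Fin s → SLC r}
    (hC : ∀ (m : ℕ) [NeZero m] (z' : Fin s → SLC m) (σ₀ : PRep n s (SLC m)), 2 ≤ m →
      relP z' σ₀ = 1 → Full (gensP z' σ₀) → ∀ ε : ℝ, 0 < ε → ∃ σ, relP z' σ = 1 ∧
        dist (coordP σ) (coordP σ₀) < ε ∧ Triv (tgensP z' σ))
    {P : MvPolynomial (((Fin (n + 1) × Bool) ⊕ Fin s) × Fin r × Fin r) ℂ}
    (hinv : ∀ (h : SLC r) (σ : PRep n s (SLC r)), relP z σ = 1 →
      evP z P (mapH (MulAut.conj h).toMonoidHom σ.1, fun j => h * σ.2 j) = evP z P σ)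
    (h0 : ∀ σ : PRep n s (SLC r), relP z σ = 1 → Triv (tgensP z σ) → evP z P σ = 0) (d : ℕ) :
    ∀ (k : ℕ) (blk : Fin r → Fin k), r - k = d → Function.Surjective blk →
      ∀ σ : PRep n s (SLC r), relP z σ = 1 → (∀ v, BD blk (gensP z σ v)) → SemiP (gensP z σ) →
        evP z P σ = 0 := by
  induction d using Nat.strong_induction_on with
  | _ d ih =>
    intro k blk hd hsurj σ hσ hBD hS
    by_cases hirr : IrrB blk (gensP z σ)
    · exact eval_zero_of_irred_blocksP hn hC h0 hsurj hσ hBD hirr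
    simp only [IrrB, not_forall] at hirr
    obtain ⟨j, U, hU0, hsupp, hU, w, hw, hwU⟩ := hirr
    obtain ⟨V, blk', hsurj', hBD'⟩ := exists_splitP hsurj hBD hS hU0 hsupp ⟨w, hw, hwU⟩ hU
    obtain ⟨σ', hσ', hg, he⟩ := exists_conjP hinv V hσ
    have : k + 1 ≤ r := by simpa using Fintype.card_le_of_surjective blk' hsurj'
    rw [← he]
    exact ih (r - (k + 1)) (by omega) (k + 1) blk' rfl hsurj' σ' hσ'
      (fun v => by rw [hg]; exact hBD' v) (by
        rw [funext hg]; exact hS.conj V)

/-- Invariant polynomials vanishing where the last generators have scalar centraliser vanish at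
semisimple representations, whenever irreducible representations are limits of such ones. -/
theorem eval_zero_of_semisimpleP_of [NeZero r] (hn : 1 ≤ n) (z : Fin s → SLC r)
    (hC : ∀ (m : ℕ) [NeZero m] (z' : Fin s → SLC m) (σ₀ : PRep n s (SLC m)), 2 ≤ m →
      relP z' σ₀ = 1 → Full (gensP z' σ₀) → ∀ ε : ℝ, 0 < ε → ∃ σ, relP z' σ = 1 ∧
        dist (coordP σ) (coordP σ₀) < ε ∧ Triv (tgensP z' σ))
    (P : MvPolynomial (((Fin (n + 1) × Bool) ⊕ Fin s) × Fin r × Fin r) ℂ)
    (hinv : ∀ (h : SLC r) (σ : PRep n s (SLC r)), relP z σ = 1 →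
      MvPolynomial.eval (fun v => gensP z
          (mapH (MulAut.conj h).toMonoidHom σ.1, fun j => h * σ.2 j) v.1 v.2.1 v.2.2) P =
        MvPolynomial.eval (fun v => gensP z σ v.1 v.2.1 v.2.2) P)
    (h0 : ∀ σ : PRep n s (SLC r), relP z σ = 1 → Triv (tgensP z σ) →
      MvPolynomial.eval (fun v => gensP z σ v.1 v.2.1 v.2.2) P = 0)
    (σ : PRep n s (SLC r)) (hσ : relP z σ = 1)
    (hss : ∀ U : Submodule ℂ (Fin r → ℂ), (∀ v, ∀ u ∈ U, gensP z σ v *ᵥ u ∈ U) →
      ∃ U', (∀ v, ∀ u ∈ U', gensP z σ v *ᵥ u ∈ U') ∧ IsCompl U U') :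
    MvPolynomial.eval (fun v => gensP z σ v.1 v.2.1 v.2.2) P = 0 :=
  eval_zero_of_bdP hn hC hinv h0 (r - 1) 1 (fun _ => 0) rfl
    (fun _ => ⟨0, Subsingleton.elim _ _⟩) σ hσ (fun _ _ _ h => absurd rfl h) (semiP_of_compl hss)

/-- Invariant polynomials vanishing where the last generators have scalar centraliser vanish at
semisimple representations. -/
theorem eval_zero_of_semisimpleP [NeZero r] (_hr : 2 ≤ r) (hn : 2 ≤ n) (z : Fin s → SLC r)
    (P : MvPolynomial (((Fin (n + 1) × Bool) ⊕ Fin s) × Fin r × Fin r) ℂ)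
    (hinv : ∀ (h : SLC r) (σ : PRep n s (SLC r)), relP z σ = 1 →
      MvPolynomial.eval (fun v => gensP z
          (mapH (MulAut.conj h).toMonoidHom σ.1, fun j => h * σ.2 j) v.1 v.2.1 v.2.2) P =
        MvPolynomial.eval (fun v => gensP z σ v.1 v.2.1 v.2.2) P)
    (h0 : ∀ σ : PRep n s (SLC r), relP z σ = 1 → Triv (tgensP z σ) →
      MvPolynomial.eval (fun v => gensP z σ v.1 v.2.1 v.2.2) P = 0)
    (σ : PRep n s (SLC r)) (hσ : relP z σ = 1)
    (hss : ∀ U : Submodule ℂ (Fin r → ℂ), (∀ v, ∀ u ∈ U, gensP z σ v *ᵥ u ∈ U) →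
      ∃ U', (∀ v, ∀ u ∈ U', gensP z σ v *ᵥ u ∈ U') ∧ IsCompl U U') :
    MvPolynomial.eval (fun v => gensP z σ v.1 v.2.1 v.2.2) P = 0 :=
  eval_zero_of_semisimpleP_of (by omega) z
    (fun _ _ _ _ _ h1 h2 _ hε => exists_near_trivP hn h1 h2 hε) P hinv h0 σ hσ hss

end Vale.Agent.P002
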