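import Vale.Agent.P002.Punct.Tangent

/-!
Slots of the coordinate space of a punctured surface and first variations of the substitutions
along the letters at a point with `b₀ = 1`.
-/

namespace Vale.Agent.P002

open Matrix Filter Topology
open scoped ContDiff

variable {r n s : ℕ}

/-- The slots of the coordinates. -/
abbrev Sl (n s : ℕ) := (Fin (n + 1) × Bool) ⊕ Fin s

/-- The slot of `a₀`. -/
abbrev sa0 (n s : ℕ) : Sl n s := .inl (0, false)

/-- The slot of `b₀`. -/
abbrev sb0 (n s : ℕ) : Sl n s := .inl (0, true)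

/-- The matrix in a slot. -/
def slotM (w : PVar n s r → ℂ) : Sl n s → Mat r
  | .inl v => matOf (matH w) v
  | .inr j => matU w j

/-- The matrix of a slot of a representation, as an element of the group. -/
def slotG (σ : PRep n s (SLC r)) : Sl n s → SLC r
  | .inl (i, false) => σ.1.1 i
  | .inl (i, true) => σ.1.2 i
  | .inr j => σ.2 j

/-- Put a matrix in a slot. -/
noncomputable def put (v : Sl n s) : Mat r →ₗ[ℂ] (PVar n s r → ℂ) where
  toFun M := Sum.elim (fun x => if (Sum.inl x.1 : Sl n s) = v then M x.2.1 x.2.2 else 0)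
    fun x => if (Sum.inr x.1 : Sl n s) = v then M x.2.1 x.2.2 else 0
  map_add' M N := by
    funext x
    rcases x with x | x <;> simp only [Sum.elim_inl, Sum.elim_inr, Pi.add_apply, Matrix.add_apply] <;>
      split_ifs <;> simp
  map_smul' c M := by
    funext x
    rcases x with x | x <;> simp only [Sum.elim_inl, Sum.elim_inr, Pi.smul_apply, Matrix.smul_apply,
      RingHom.id_apply] <;> split_ifs <;> simp

lemma slotM_put (v v' : Sl n s) (M : Mat r) :
    slotM (put v M) v' = if v' = v then M else 0 := by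
  rcases v' with v' | j <;> ext a b <;> simp only [slotM, matOf, matH, matU, Matrix.of_apply] <;>
    simp only [put, LinearMap.coe_mk, AddHom.coe_mk, Sum.elim_inl, Sum.elim_inr] <;>
    split_ifs <;> rfl

lemma slotM_ext {w w' : PVar n s r → ℂ} (h : ∀ v, slotM w v = slotM w' v) : w = w' := by
  funext x
  rcases x with ⟨v, a, b⟩ | ⟨j, a, b⟩
  · exact congrFun (congrFun (h (.inl v)) a) b
  · exact congrFun (congrFun (h (.inr j)) a) b

lemma slotM_add (w w' : PVar n s r → ℂ) (v : Sl n s) :
    slotM (w + w') v = slotM w v + slotM w' v := by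
  rcases v with v | j <;> rfl

lemma slotM_sub (w w' : PVar n s r → ℂ) (v : Sl n s) :
    slotM (w - w') v = slotM w v - slotM w' v := by
  rcases v with v | j <;> rfl

lemma slotM_neg (w : PVar n s r → ℂ) (v : Sl n s) : slotM (-w) v = -slotM w v := by
  rcases v with v | j <;> rfl

lemma slotM_smul (c : ℂ) (w : PVar n s r → ℂ) (v : Sl n s) :
    slotM (c • w) v = c • slotM w v := by
  rcases v with v | j <;> rfl

lemma slotM_zero (v : Sl n s) : slotM (0 : PVar n s r → ℂ) v = 0 := by
  rcases v with v | j <;> rfl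

lemma slotM_sum {ι : Type*} (t : Finset ι) (w : ι → PVar n s r → ℂ) (v : Sl n s) :
    slotM (∑ i ∈ t, w i) v = ∑ i ∈ t, slotM (w i) v := by
  classical
  induction t using Finset.induction with
  | empty => simp [slotM_zero]
  | insert i t hi ih => rw [Finset.sum_insert hi, Finset.sum_insert hi, slotM_add, ih]

lemma slotM_coordP (σ : PRep n s (SLC r)) (v : Sl n s) :
    slotM (coordP σ) v = (slotG σ v).val := by
  rcases v with ⟨i, b⟩ | j
  · cases b <;> ext <;> simp [slotM, slotG, matOf, matH, coordP, coord]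
  · ext; simp [slotM, slotG, matU, coordP]

/-- A curve of representations has the velocity `w`. -/
def HasDC (σ : ℂ → PRep n s (SLC r)) (w : PVar n s r → ℂ) : Prop :=
  ∀ v, HasD (fun t => (slotG (σ t) v).val) (slotM w v)

lemma HasDC.hasDerivAt {σ : ℂ → PRep n s (SLC r)} {w : PVar n s r → ℂ} (h : HasDC σ w) :
    HasDerivAt (fun t => coordP (σ t)) w 0 := by
  refine hasDerivAt_pi.2 ?_
  rintro (⟨⟨i, b⟩, a, c⟩ | ⟨j, a, c⟩)
  · cases b
    · simpa [slotG, slotM, matOf, matH, coordP, coord] using h (.inl (i, false)) a c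
    · simpa [slotG, slotM, matOf, matH, coordP, coord] using h (.inl (i, true)) a c
  · simpa [slotG, slotM, matU, coordP] using h (.inr j) a c

lemma hasDC_of_hasDerivAt {σ : ℂ → PRep n s (SLC r)} {w : PVar n s r → ℂ}
    (h : HasDerivAt (fun t => coordP (σ t)) w 0) : HasDC σ w := by
  rintro (⟨i, b⟩ | j) a c
  · cases b
    · simpa [slotG, slotM, matOf, matH, coordP, coord] using
        hasDerivAt_pi.1 h (.inl ((i, false), a, c))
    · simpa [slotG, slotM, matOf, matH, coordP, coord] using
        hasDerivAt_pi.1 h (.inl ((i, true), a, c))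
  · simpa [slotG, slotM, matU, coordP] using hasDerivAt_pi.1 h (.inr (j, a, c))

lemma HasDC.unique {σ : ℂ → PRep n s (SLC r)} {w w' : PVar n s r → ℂ} (h : HasDC σ w)
    (h' : HasDC σ w') : w = w' :=
  slotM_ext fun v => (h v).unique (h' v)

/-- The first variation of a curve in the special linear group is traceless on the left. -/
lemma trace_left_of_hasD {f : ℂ → SLC r} {v : Mat r} (h : HasD (fun t => (f t).val) v) :
    ((f 0)⁻¹.val * v).trace = 0 := by
  have h1 := hasDerivAt_det_one ((hasD_const (f 0)⁻¹.val).mul h) (val_inv_mul _)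
  simp only [zero_mul, zero_add, Matrix.det_mul, Matrix.SpecialLinearGroup.det_coe, one_mul] at h1
  exact h1.unique (hasDerivAt_const _ _)

/-- A polynomial map of representations extends to the coordinate space. -/
lemma exists_extP {R : Subring ℂ} {T : PRep n s (SLC r) → PRep n s (SLC r)}
    (hT : AllP (GoodP R) T) : ∃ P : (PVar n s r → ℂ) → PVar n s r → ℂ,
      ContDiff ℂ ω P ∧ ∀ σ, coordP (T σ) = P (coordP σ) := by
  choose QA hA using fun i => (hT.1 i).1.1
  choose QB hB using fun i => (hT.1 i).2.1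
  choose QU hU using fun j => (hT.2 j).1
  let q : PVar n s r → MvPolynomial (PVar n s r) ℂ := Sum.elim
    (fun v => if v.1.2 then QB v.1.1 v.2.1 v.2.2 else QA v.1.1 v.2.1 v.2.2)
    fun v => QU v.1 v.2.1 v.2.2
  refine ⟨fun x v => MvPolynomial.eval x (q v),
    contDiff_pi.2 fun v => contDiff_eval (fun i => contDiff_apply ℂ ℂ i) _, fun σ => ?_⟩
  funext v
  rcases v with ⟨⟨i, b⟩, a, c⟩ | ⟨j, a, c⟩
  · cases b <;> simp [coordP, coord, q, hA, hB]
  · simp [coordP, q, hU]

/-- Change `a₀`. -/
def setA {G : Type*} (σ : PRep n s G) (a : G) : PRep n s G :=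
  ((Function.update σ.1.1 0 a, σ.1.2), σ.2)

/-- Change `b₀`. -/
def setB {G : Type*} (σ : PRep n s G) (b : G) : PRep n s G :=
  ((σ.1.1, Function.update σ.1.2 0 b), σ.2)

variable {z : Fin s → SLC r}

lemma xlet_setA (σ : PRep n s (SLC r)) (a : SLC r) (m : Lt n s) :
    xlet z (setA σ a) m = xlet z σ m := xlet_update0 a m σ

lemma mid_setB (ρ : Handles n (SLC r)) (b : SLC r) (k : Fin n) :
    mid (ρ.1, Function.update ρ.2 0 b) k = mid ρ k := by
  simp [take_tail, Fin.succ_ne_zero]

lemma pmid_setB (σ : PRep n s (SLC r)) (b : SLC r) (j : Fin s) :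
    pmid z (setB σ b) j = pmid z σ j := by
  simp [pmid, tailComm, setB, Fin.succ_ne_zero]
  rfl

/-- The linear response of the tail to a variation of `b₀` under a letter. -/
noncomputable def ell (z : Fin s → SLC r) (σ : PRep n s (SLC r)) :
    Lt n s → (Mat r →ₗ[ℂ] (PVar n s r → ℂ))
  | .inl (k, false) =>
    put (.inl (k.succ, false)) ∘ₗ LinearMap.mulRight ℂ (σ.1.1 k.succ).val ∘ₗ
        (adj ((mid σ.1 k)⁻¹ * (xlet z σ (.inl (k, false)))⁻¹) - adj (mid σ.1 k)⁻¹) -
      put (.inl (k.succ, true)) ∘ₗ LinearMap.mulLeft ℂ (σ.1.2 k.succ).val ∘ₗ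
        adj ((mid σ.1 k)⁻¹ * (xlet z σ (.inl (k, false)))⁻¹)
  | .inl (k, true) =>
    put (.inl (k.succ, false)) ∘ₗ LinearMap.mulRight ℂ (σ.1.1 k.succ).val ∘ₗ
      adj ((mid σ.1 k)⁻¹ * (xlet z σ (.inl (k, true)))⁻¹)
  | .inr j =>
    put (.inr j) ∘ₗ LinearMap.mulRight ℂ (σ.2 j).val ∘ₗ
      adj ((pmid z σ j)⁻¹ * (xlet z σ (.inr j))⁻¹)

lemma adj_mul (g h : SLC r) (X : Mat r) : adj (g * h) X = adj g (adj h X) := by
  simp only [adj_apply, _root_.mul_inv_rev, Matrix.SpecialLinearGroup.coe_mul, Matrix.mul_assoc]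

lemma adj_one (X : Mat r) : adj (1 : SLC r) X = X := by simp [adj_apply]

lemma slot_ell_head (σ : PRep n s (SLC r)) (m : Lt n s) (β : Mat r) (c : Bool) :
    slotM (ell z σ m β) (.inl (0, c)) = 0 := by
  have h0 : ∀ k : Fin n, (0 : Fin (n + 1)) ≠ k.succ := fun k => (Fin.succ_ne_zero k).symm
  rcases m with ⟨k, _ | _⟩ | j <;> simp [ell, slotM_sub, slotM_put, h0]

lemma xlet_setB (σ : PRep n s (SLC r)) (b : SLC r) : ∀ m : Lt n s,
    xlet z (setB σ b) m = xlet z σ m
  | .inl (k, c) => by cases c <;> simp [xlet, setB, mid_setB, Fin.succ_ne_zero]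
  | .inr j => by
    have h : pc z (setB σ b) j = pc z σ j := rfl
    simp only [xlet, pmid_setB, h]

/-- The slots after a letter of a handle. -/
lemma slotG_pfwd_handle (σ : PRep n s (SLC r)) (k : Fin n) (v : Sl n s) :
    slotG (pfwd z (.inl (k, false)) σ) v =
      let K := mid σ.1 k
      let x := xlet z σ (.inl (k, false))
      let b := x⁻¹ * σ.1.2 0 * x
      if v = sa0 n s then σ.1.1 0 * x else if v = sb0 n s then b
      else if v = .inl (k.succ, false) then K⁻¹ * (b * (σ.1.2 0)⁻¹) * (x * K)
      else if v = .inl (k.succ, true) then σ.1.2 k.succ * K⁻¹ * b⁻¹ * K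
      else slotG σ v := by
  have hk0 : (k.succ : Fin (n + 1)) ≠ 0 := Fin.succ_ne_zero k
  simp only [pfwd, fwd, slide, theta, xlet]
  rcases v with ⟨i, c⟩ | i'
  · by_cases hk : i = k.succ
    · subst hk; cases c <;> simp [slotG, hk0] <;> group
    · by_cases hi : i = 0
      · subst hi; cases c <;> simp [slotG, hk0.symm]
      · cases c <;> simp [slotG, hk, hi]
  · simp [slotG]

/-- The slots after a turned letter of a handle. -/
lemma slotG_pfwd_turn (σ : PRep n s (SLC r)) (k : Fin n) (v : Sl n s) :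
    slotG (pfwd z (.inl (k, true)) σ) v =
      let K := mid σ.1 k
      let x := xlet z σ (.inl (k, true))
      let b := x⁻¹ * σ.1.2 0 * x
      if v = sa0 n s then σ.1.1 0 * x else if v = sb0 n s then b
      else if v = .inl (k.succ, false) then K⁻¹ * b * (K * σ.1.1 k.succ)
      else slotG σ v := by
  have hk0 : (k.succ : Fin (n + 1)) ≠ 0 := Fin.succ_ne_zero k
  have hm : mid (hrot k σ.1) k = mid σ.1 k := by simp only [mid, tailComm_hrot]
  simp only [hrot] at hm
  simp only [pfwd, fwd, slide, theta, hrot, hrotInv, hm, xlet]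
  rcases v with ⟨i, c⟩ | i'
  · by_cases hk : i = k.succ
    · subst hk; cases c <;> simp [slotG, hk0, hk0.symm] <;> group
    · by_cases hi : i = 0
      · subst hi; cases c <;> simp [slotG, hk0, hk0.symm]
      · cases c <;> simp [slotG, hk, hi]
  · simp [slotG]

/-- The slots after a letter of a puncture. -/
lemma slotG_pfwd_punct (σ : PRep n s (SLC r)) (j : Fin s) (v : Sl n s) :
    slotG (pfwd z (.inr j) σ) v =
      let K := pmid z σ j
      let x := xlet z σ (.inr j)
      let b := x⁻¹ * σ.1.2 0 * x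
      if v = sa0 n s then σ.1.1 0 * x else if v = sb0 n s then b
      else if v = .inr j then K⁻¹ * b * (K * σ.2 j)
      else slotG σ v := by
  simp only [pfwd, pslide, xlet]
  rcases v with ⟨i, c⟩ | i'
  · by_cases hi : i = 0
    · subst hi; cases c <;> simp [slotG]
    · cases c <;> simp [slotG, hi]
  · by_cases h : i' = j
    · subst h; simp [slotG, mul_assoc]
    · simp [slotG, h]

lemma hasD_sandwich (L Rg : SLC r) {g : ℂ → SLC r} {v : Mat r} (h : HasD (fun t => (g t).val) v) :
    HasD (fun t => (L * g t * Rg).val) (L.val * v * Rg.val) := by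
  simp only [Matrix.SpecialLinearGroup.coe_mul]
  exact (((hasD_const L.val).mul h).mul (hasD_const Rg.val)).congr (by simp)

/-- Conjugating a curve through `1` by a constant. -/
lemma hasD_conj_const (x : SLC r) {f : ℂ → SLC r} {β : Mat r}
    (hβ : HasD (fun t => (f t).val) β) (h0 : f 0 = 1) :
    HasD (fun t => (x⁻¹ * f t * x).val) (adj x⁻¹ β) :=
  (hasD_conj' (g := fun _ => x) (Smooth.const _) hβ h0).congr (by simp [adj_apply, inv_inv])

lemma smooth_conj_const (x : SLC r) {f : ℂ → SLC r} (hf : Smooth fun t => (f t).val) :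
    Smooth fun t => (x⁻¹ * f t * x).val := by
  simp only [Matrix.SpecialLinearGroup.coe_mul]
  exact ((Smooth.const _).mul hf).mul (Smooth.const _)

section FirstVariation

variable (σ : PRep n s (SLC r)) {f : ℂ → SLC r} {β : Mat r}

lemma hasDC_pfwd_handle (hf : Smooth fun t => (f t).val) (hβ : HasD (fun t => (f t).val) β)
    (h0 : f 0 = 1) (k : Fin n) :
    HasDC (fun t => pfwd z (.inl (k, false)) (setB σ (f t)))
      (put (sb0 n s) (adj (xlet z σ (.inl (k, false)))⁻¹ β) + ell z σ (.inl (k, false)) β) := by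
  have hk0 : (k.succ : Fin (n + 1)) ≠ 0 := Fin.succ_ne_zero k
  intro v
  simp only [slotG_pfwd_handle, xlet_setB]
  simp only [setB, mid_setB, Function.update_self]
  set K := mid σ.1 k with hK
  set x := xlet z σ (.inl (k, false)) with hx
  have hb := hasD_conj_const x hβ h0
  have hb0 : x⁻¹ * f 0 * x = 1 := by rw [h0]; group
  simp only [slotM_add, slotM_put]
  by_cases hva : v = sa0 n s
  · subst hva
    rw [slot_ell_head]
    simpa using hasD_const (σ.1.1 0 * x).val
  by_cases hvb : v = sb0 n s
  · subst hvb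
    rw [slot_ell_head]
    simpa using hb
  simp only [if_neg hva, if_neg hvb, zero_add]
  by_cases h1 : v = .inl (k.succ, false)
  · subst h1
    simp only [if_true, ell, LinearMap.sub_apply, LinearMap.comp_apply, slotM_sub, slotM_put,
      Sum.inl.injEq, Prod.mk.injEq, Bool.false_eq_true, and_false, if_false, sub_zero]
    have h : HasD (fun t => (x⁻¹ * f t * x * (f t)⁻¹).val) (adj x⁻¹ β - β) :=
      (hb.mul (hasD_inv_of_one hf hβ h0)).congr (by
        simp [hb0, h0, sub_eq_add_neg, -Matrix.SpecialLinearGroup.coe_inv])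
    refine (hasD_sandwich K⁻¹ (x * K) h).congr ?_
    have hxK : x * K = K * σ.1.1 k.succ := by
      simp only [hx, xlet, ← hK]; group
    simp only [LinearMap.mulRight_apply, ← hK, ← hx, adj_mul, ← map_sub, hxK]
    simp only [adj_apply, inv_inv, Matrix.SpecialLinearGroup.coe_mul, Matrix.mul_assoc]
  by_cases h2 : v = .inl (k.succ, true)
  · subst h2
    simp only [if_neg h1, if_true, ell, LinearMap.sub_apply, LinearMap.comp_apply, slotM_sub,
      slotM_put, zero_sub]
    have h := hasD_inv_of_one (smooth_conj_const x hf) hb hb0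
    refine (hasD_sandwich (σ.1.2 k.succ * K⁻¹) K h).congr ?_
    simp only [LinearMap.mulLeft_apply, ← hK, ← hx, adj_mul]
    simp only [adj_apply, inv_inv, Matrix.SpecialLinearGroup.coe_mul, Matrix.mul_assoc, neg_mul,
      mul_neg]
  simp only [if_neg h1, if_neg h2, ell, LinearMap.sub_apply, LinearMap.comp_apply, slotM_sub,
    slotM_put, sub_zero]
  rcases v with ⟨i, c⟩ | i'
  · by_cases hi : i = 0
    · subst hi; cases c <;> simp at hva hvb
    · cases c <;> simpa [slotG, hi] using hasD_const _
  · simpa [slotG] using hasD_const (σ.2 i').val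

lemma hasDC_pfwd_turn (hβ : HasD (fun t => (f t).val) β)
    (h0 : f 0 = 1) (k : Fin n) :
    HasDC (fun t => pfwd z (.inl (k, true)) (setB σ (f t)))
      (put (sb0 n s) (adj (xlet z σ (.inl (k, true)))⁻¹ β) + ell z σ (.inl (k, true)) β) := by
  have hk0 : (k.succ : Fin (n + 1)) ≠ 0 := Fin.succ_ne_zero k
  intro v
  simp only [slotG_pfwd_turn, xlet_setB]
  simp only [setB, mid_setB, Function.update_self]
  set K := mid σ.1 k with hK
  set x := xlet z σ (.inl (k, true)) with hx
  have hb := hasD_conj_const x hβ h0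
  simp only [slotM_add, slotM_put]
  by_cases hva : v = sa0 n s
  · subst hva
    rw [slot_ell_head]
    simpa using hasD_const (σ.1.1 0 * x).val
  by_cases hvb : v = sb0 n s
  · subst hvb
    rw [slot_ell_head]
    simpa using hb
  simp only [if_neg hva, if_neg hvb, zero_add]
  by_cases h1 : v = .inl (k.succ, false)
  · subst h1
    simp only [if_true, ell, LinearMap.comp_apply, slotM_put, LinearMap.mulRight_apply]
    refine (hasD_sandwich K⁻¹ (K * σ.1.1 k.succ) hb).congr ?_
    simp only [← hK, ← hx, adj_mul]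
    simp only [adj_apply, inv_inv, Matrix.SpecialLinearGroup.coe_mul, Matrix.mul_assoc]
  simp only [if_neg h1, ell, LinearMap.comp_apply, slotM_put]
  rcases v with ⟨i, c⟩ | i'
  · by_cases hi : i = 0
    · subst hi; cases c <;> simp at hva hvb
    · cases c <;> simpa [slotG, hi] using hasD_const _
  · simpa [slotG] using hasD_const (σ.2 i').val

lemma hasDC_pfwd_punct (hβ : HasD (fun t => (f t).val) β)
    (h0 : f 0 = 1) (j : Fin s) :
    HasDC (fun t => pfwd z (.inr j) (setB σ (f t)))
      (put (sb0 n s) (adj (xlet z σ (.inr j))⁻¹ β) + ell z σ (.inr j) β) := by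
  intro v
  simp only [slotG_pfwd_punct, xlet_setB, pmid_setB]
  simp only [setB, Function.update_self]
  set K := pmid z σ j with hK
  set x := xlet z σ (.inr j) with hx
  have hb := hasD_conj_const x hβ h0
  simp only [slotM_add, slotM_put]
  by_cases hva : v = sa0 n s
  · subst hva
    rw [slot_ell_head]
    simpa using hasD_const (σ.1.1 0 * x).val
  by_cases hvb : v = sb0 n s
  · subst hvb
    rw [slot_ell_head]
    simpa using hb
  simp only [if_neg hva, if_neg hvb, zero_add]
  by_cases h1 : v = .inr j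
  · subst h1
    simp only [if_true, ell, LinearMap.comp_apply, slotM_put, LinearMap.mulRight_apply]
    refine (hasD_sandwich K⁻¹ (K * σ.2 j) hb).congr ?_
    simp only [← hK, ← hx, adj_mul]
    simp only [adj_apply, inv_inv, Matrix.SpecialLinearGroup.coe_mul, Matrix.mul_assoc]
  simp only [if_neg h1, ell, LinearMap.comp_apply, slotM_put]
  rcases v with ⟨i, c⟩ | i'
  · by_cases hi : i = 0
    · subst hi; cases c <;> simp at hva hvb
    · cases c <;> simpa [slotG, hi] using hasD_const _
  · have hij : i' ≠ j := fun e => h1 (by rw [e])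
    simpa [slotG, hij] using hasD_const (σ.2 i').val

/-- First variation of a letter along a variation of `b₀` alone. -/
lemma hasDC_pfwd_b (hf : Smooth fun t => (f t).val) (hβ : HasD (fun t => (f t).val) β)
    (h0 : f 0 = 1) : ∀ m : Lt n s, HasDC (fun t => pfwd z m (setB σ (f t)))
      (put (sb0 n s) (adj (xlet z σ m)⁻¹ β) + ell z σ m β)
  | .inl (k, false) => hasDC_pfwd_handle σ hf hβ h0 k
  | .inl (k, true) => hasDC_pfwd_turn σ hβ h0 k
  | .inr j => hasDC_pfwd_punct σ hβ h0 j

end FirstVariation

end Vale.Agent.P002
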